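import Vale.Agent.P255.Collar.Field

/-!
The coordinate index form is nonnegative on every passage through the middle of the collar.
-/

open Set Filter MeasureTheory intervalIntegral
open scoped ContDiff Topology

namespace Vale.Agent.P255

noncomputable section

variable {N : ℕ} {p q a b c : ℝ} {t τ : ℝ → ℝ} {J J' : ℝ → E3}

/-- A test field given with its derivative. -/
structure Field (J J' : ℝ → E3) (a b : ℝ) : Prop where
  cont : ContinuousOn J (Icc a b)
  pwv : PWV J' a b
  der : ∃ S : Finset ℝ, ∀ s ∈ Ioo a b, s ∉ S → HasDerivAt J (J' s) s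

lemma Field.comp_clm (h : Field J J' a b) (L : E3 →L[ℝ] ℝ) :
    PW (fun s => L (J s)) (fun s => L (J' s)) a b := by
  obtain ⟨S, hS⟩ := h.der
  exact ⟨L.continuous.comp_continuousOn h.cont, h.pwv.comp_clm L, S,
    fun s hs hn => L.hasFDerivAt.comp_hasDerivAt s (hS s hs hn)⟩

lemma Field.fst (h : Field J J' a b) : PW (fun s => (J s).1) (fun s => (J' s).1) a b :=
  h.comp_clm (ContinuousLinearMap.fst ℝ ℝ (ℝ × ℝ))

/-- The coordinate integrand of the index form. -/
def passQ (N : ℕ) (p q : ℝ) (t : ℝ → ℝ) (J J' : ℝ → E3) (s : ℝ) : ℝ :=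
  profMetric N (t s) (J' s - (J s).1 • coVelD N p q (t s)) (J' s - (J s).1 • coVelD N p q (t s))
    + potW N p q (t s) * (J s).1 ^ 2

/-- The boundary term of the index form. -/
def passB (N : ℕ) (p q : ℝ) (t τ : ℝ → ℝ) (J : ℝ → E3) (s : ℝ) : ℝ :=
  bdryTerm (profMetric N) (t s) (τ s • eT + coVel N p q (t s)) (J s)

lemma passB_zero {s : ℝ} (h : J s = 0) : passB N p q t τ J s = 0 := by
  simp [passB, bdryTerm, h]

namespace Small

lemma passQ_ge (hN : Small N) {s : ℝ} (ht : t s ∈ Icc (-2 : ℝ) 2) :
    (J' s).1 ^ 2 + potW N p q (t s) * (J s).1 ^ 2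
      + (omR N (J' s) - (J s).1 * phiR N p q (t s)) ^ 2 / 2 ≤ passQ N p q t J J' s := by
  have h := hN.proj_le ht (J' s - (J s).1 • coVelD N p q (t s))
  have e : omR N (J' s - (J s).1 • coVelD N p q (t s)) =
      omR N (J' s) - (J s).1 * omR N (coVelD N p q (t s)) := by simp
  rw [e] at h
  have h1 : (J' s - (J s).1 • coVelD N p q (t s)).1 = (J' s).1 := by simp [coVelD]
  rw [h1] at h
  simp only [passQ, phiR]
  linarith

lemma passQ_nonneg (hN : Small N) {s : ℝ} (ht : t s ∈ Icc (-2 : ℝ) 2) :
    0 ≤ passQ N p q t J J' s := by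
  refine le_trans ?_ (hN.passQ_ge ht)
  have := hN.potW_nonneg ht (a := p) (b := q)
  positivity

lemma continuousOn_profMetric (hN : Small N) : ContinuousOn (profMetric N) (Ioo (-5 : ℝ) 5) :=
  fun _ ht => (hN.contDiffAt_profMetric ht).continuousAt.continuousWithinAt

set_option maxSynthPendingDepth 3 in
lemma passQ_pwc (hN : Small N) (hP : Passage N t τ p q a b) (hF : Field J J' a b) :
    PWC (passQ N p q t J J') a b := by
  have htc : ContinuousOn t (Icc a b) := fun s hs =>
    (hP.height s hs).continuousAt.continuousWithinAt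
  have hM : ContinuousOn (fun s => profMetric N (t s)) (Icc a b) :=
    hN.continuousOn_profMetric.comp htc fun s hs => mem_slab (hP.mem s hs)
  obtain ⟨S, C, hS⟩ := hF.pwv
  have hz : ContinuousOn (fun s => (J s).1 • coVelD N p q (t s)) (Icc a b) :=
    (continuous_fst.comp_continuousOn hF.cont).smul
      ((continuous_coVelD N p q).comp_continuousOn htc)
  obtain ⟨D, hD⟩ := isCompact_Icc.exists_bound_of_continuousOn hz
  have hres : PWV (fun s => J' s - (J s).1 • coVelD N p q (t s)) a b :=
    ⟨S, C + D, fun s hs hn => ⟨(hS s hs hn).1.sub (hz.continuousAt (Icc_mem_nhds hs.1 hs.2)),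
      (norm_sub_le _ _).trans (add_le_add (hS s hs hn).2 (hD s (Ioo_subset_Icc_self hs)))⟩⟩
  exact (PWV.bil hM hres hres).add (.of_continuousOn
    (((continuous_potW N p q).comp_continuousOn htc).mul
      ((continuous_fst.comp_continuousOn hF.cont).pow 2)))

lemma passB_right (hN : Small N) {s : ℝ} (ht : t s = 2) :
    passB N p q t τ J s =
      2 * faceK N * faceU N p q * (J s).1 * omR N (J s) - τ s * faceK N * omR N (J s) ^ 2 := by
  have e : omR N eT = 0 := by simp [omR_apply, eT]
  simp only [passB, bdryTerm, ht, hN.deriv_face, map_add, map_smul, e, faceU, smul_eq_mul]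
  simp [eT, coVel]
  ring

lemma deriv_turn (hN : Small N) {s : ℝ} (hs : s ∈ Ioo (-5 : ℝ) 5) (u w : E3) :
    deriv (profMetric N) (-s) (collarTurn u) (collarTurn w) = -deriv (profMetric N) s u w := by
  have hs' : -s ∈ Ioo (-5 : ℝ) 5 := ⟨by linarith [hs.2], by linarith [hs.1]⟩
  have h1 : HasDerivAt (fun r => profMetric N (-r) (collarTurn u) (collarTurn w))
      (-deriv (profMetric N) (-s) (collarTurn u) (collarTurn w)) s := by
    simpa [Function.comp_def] using
      (hN.hasDerivAt_apply hs' (collarTurn u) (collarTurn w)).comp s (hasDerivAt_neg s)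
  have he : (fun r => profMetric N (-r) (collarTurn u) (collarTurn w)) =
      fun r => profMetric N r u w := funext fun r => by
    have h := hN.turn_eq ((r, 0, 0) : E3) u w
    rw [collarMetric_eq, collarMetric_eq] at h
    simpa [collarTurn] using h
  rw [he] at h1
  have := h1.unique (hN.hasDerivAt_apply hs u w)
  linarith

lemma profMetric_turn (hN : Small N) (s : ℝ) (u w : E3) :
    profMetric N (-s) (collarTurn u) (collarTurn w) = profMetric N s u w := by
  have h := hN.turn_eq ((s, 0, 0) : E3) u w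
  rw [collarMetric_eq, collarMetric_eq] at h
  simpa [collarTurn] using h

lemma tauD_turn (N : ℕ) (p q s : ℝ) : tauD N q (-p) (-s) = -tauD N p q s := by
  simp only [tauD, ← sub_eq_add_neg, sub_neg_eq_add]; ring

lemma potW_turn (N : ℕ) (p q s : ℝ) : potW N q (-p) (-s) = potW N p q s := by
  simp only [potW, ← sub_eq_add_neg, sub_neg_eq_add]; ring

lemma coVel_turn (hN : Small N) (p q s : ℝ) :
    coVel N q (-p) (-s) = collarTurn (coVel N p q s) := by
  refine Prod.ext ?_ (Prod.ext ?_ ?_) <;>
    simp [coVel, coA_neg, coB_neg, hN.coC_neg, collarTurn] <;> ring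

lemma coVelD_turn (N : ℕ) (p q s : ℝ) :
    coVelD N q (-p) (-s) = -collarTurn (coVelD N p q s) := by
  refine Prod.ext ?_ (Prod.ext ?_ ?_) <;>
    simp [coVelD, collarTurn, ← sub_eq_add_neg] <;> ring_nf <;> simp

lemma passQ_turn (hN : Small N) (p q : ℝ) (t : ℝ → ℝ) (J J' : ℝ → E3) (s : ℝ) :
    passQ N q (-p) (fun r => -t r) (fun r => collarTurn (J r)) (fun r => collarTurn (J' r)) s =
      passQ N p q t J J' s := by
  have h1 : (collarTurn (J s)).1 = -(J s).1 := by simp [collarTurn]
  have e : collarTurn (J' s) - (-(J s).1) • -collarTurn (coVelD N p q (t s)) =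
      collarTurn (J' s - (J s).1 • coVelD N p q (t s)) := by
    simp [map_sub, map_smul]
  simp only [passQ, h1, coVelD_turn, potW_turn, e, hN.profMetric_turn, neg_sq]

lemma passB_turn (hN : Small N) (p q : ℝ) (t τ : ℝ → ℝ) (J : ℝ → E3) {s : ℝ}
    (hs : t s ∈ Ioo (-5 : ℝ) 5) :
    passB N q (-p) (fun r => -t r) (fun r => -τ r) (fun r => collarTurn (J r)) s =
      passB N p q t τ J s := by
  have h1 : (-τ s) • eT + coVel N q (-p) (-t s) = collarTurn (τ s • eT + coVel N p q (t s)) := by
    rw [hN.coVel_turn, map_add, map_smul,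
      show collarTurn eT = -eT by simp [collarTurn, eT], smul_neg, neg_smul]
  have h2 : ∀ v : E3, (collarTurn v).1 = -v.1 := fun v => by simp [collarTurn]
  simp only [passB, bdryTerm, h1, h2, hN.deriv_turn hs]
  ring

lemma passage_turn (hP : Passage N t τ p q a b) :
    Passage N (fun r => -t r) (fun r => -τ r) q (-p) a b where
  mem s hs := ⟨by linarith [(hP.mem s hs).2], by linarith [(hP.mem s hs).1]⟩
  height s hs := (hP.height s hs).neg
  speed s hs := by rw [tauD_turn]; exact (hP.speed s hs).neg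

end Small

lemma Field.turn (h : Field J J' a b) :
    Field (fun r => collarTurn (J r)) (fun r => collarTurn (J' r)) a b := by
  obtain ⟨S, hS⟩ := h.der
  obtain ⟨T, C, hT⟩ := h.pwv
  exact ⟨collarTurn.continuous.comp_continuousOn h.cont,
    ⟨T, ‖collarTurn‖ * C, fun s hs hn => ⟨collarTurn.continuous.continuousAt.comp (hT s hs hn).1,
      (collarTurn.le_opNorm _).trans (mul_le_mul_of_nonneg_left (hT s hs hn).2 (norm_nonneg _))⟩⟩,
    S, fun s hs hn => collarTurn.hasFDerivAt.comp_hasDerivAt s (hS s hs hn)⟩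

/-- The accelerations along the passage differ at most linearly in the heights. -/
lemma exists_tauD_lip (N : ℕ) (p q : ℝ) :
    ∃ L : ℝ, ∀ x ∈ Icc (-2 : ℝ) 2, ∀ y ∈ Icc (-2 : ℝ) 2,
      |tauD N p q x - tauD N p q y| ≤ L * |x - y| := by
  obtain ⟨L, hL⟩ := isCompact_Icc.exists_bound_of_continuousOn
    ((continuous_potW N p q).continuousOn (s := Icc (-2 : ℝ) 2))
  refine ⟨L, fun x hx y hy => ?_⟩
  simpa [Real.norm_eq_abs] using (convex_Icc (-2 : ℝ) 2).norm_image_sub_le_of_norm_hasDerivWithin_le
    (fun z _ => (hasDerivAt_tauD N p q z).hasDerivWithinAt) hL hy hx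

section passage

variable (hN : Small N) (hP : Passage N t τ p q a b)

include hP in
lemma Passage.hasDerivAt_acc {s : ℝ} (hs : s ∈ Icc a b) :
    HasDerivAt (fun r => tauD N p q (t r)) (potW N p q (t s) * τ s) s :=
  (hasDerivAt_tauD N p q (t s)).comp s (hP.height s hs)

include hP in
lemma Passage.zero_of_degenerate (hc : c ∈ Icc a b) (h0 : τ c = 0) (h1 : tauD N p q (t c) = 0) :
    ∀ s ∈ Icc a b, τ s = 0 ∧ tauD N p q (t s) = 0 := by
  obtain ⟨L, hL⟩ := isCompact_Icc.exists_bound_of_continuousOn
    ((continuous_potW N p q).continuousOn (s := Icc (-2 : ℝ) 2))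
  refine gronwall_zero (L := L) hP.speed (fun s hs => hP.hasDerivAt_acc hs) (fun s hs => ?_) hc h0 h1
  rw [abs_mul]
  exact mul_le_mul_of_nonneg_right (hL _ (hP.mem s hs)) (abs_nonneg _)

include hN hP in
lemma Passage.zero_trichotomy :
    (∀ s ∈ Icc a b, τ s = 0 ∧ tauD N p q (t s) = 0) ∨ (∀ s ∈ Icc a b, τ s ≠ 0) ∨
      ∃ c ∈ Icc a b, τ c = 0 ∧ tauD N p q (t c) ≠ 0 ∧ ∀ s ∈ Icc a b, s ≠ c → τ s ≠ 0 := by
  by_cases hz : ∀ s ∈ Icc a b, τ s ≠ 0
  · exact .inr (.inl hz)
  push Not at hz
  obtain ⟨c, hc, hc0⟩ := hz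
  by_cases hT : tauD N p q (t c) = 0
  · exact .inl (hP.zero_of_degenerate hc hc0 hT)
  refine .inr (.inr ⟨c, hc, hc0, hT, fun d hd hdc hd0 => ?_⟩)
  -- two zeros force the speed to vanish between them
  have hm : MonotoneOn (fun r => τ r * tauD N p q (t r)) (Icc a b) := by
    refine monotoneOn_of_hasDerivWithinAt_nonneg (convex_Icc a b)
      (f' := fun r => tauD N p q (t r) * tauD N p q (t r) + τ r * (potW N p q (t r) * τ r))
      (fun r hr => ((hP.speed r hr).mul (hP.hasDerivAt_acc hr)).continuousAt.continuousWithinAt)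
      (fun r hr => by
        rw [interior_Icc] at hr
        exact ((hP.speed r (Ioo_subset_Icc_self hr)).mul
          (hP.hasDerivAt_acc (Ioo_subset_Icc_self hr))).hasDerivWithinAt) fun r hr => ?_
    rw [interior_Icc] at hr
    nlinarith [mul_nonneg (hN.potW_nonneg (hP.mem r (Ioo_subset_Icc_self hr)) (a := p) (b := q))
      (mul_self_nonneg (τ r)), mul_self_nonneg (tauD N p q (t r))]
  set l := min c d
  set u := max c d
  have hlu : l < u := min_lt_max.2 (Ne.symm hdc)
  have hl : l ∈ Icc a b := ⟨le_min hc.1 hd.1, (min_le_left _ _).trans hc.2⟩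
  have hu : u ∈ Icc a b := ⟨hc.1.trans (le_max_left _ _), max_le hc.2 hd.2⟩
  have hl0 : τ l = 0 := by rcases min_choice c d with h | h <;> simp only [l, h, hc0, hd0]
  have hu0 : τ u = 0 := by rcases max_choice c d with h | h <;> simp only [u, h, hc0, hd0]
  have hsub : Icc l u ⊆ Icc a b := Icc_subset_Icc hl.1 hu.2
  have hzero : ∀ m ∈ Icc l u, τ m = 0 := by
    intro m hmem
    rcases le_total 0 (τ m * tauD N p q (t m)) with hs | hs
    · have hmono : MonotoneOn (fun r => τ r ^ 2) (Icc m u) :=
        monotoneOn_of_hasDerivWithinAt_nonneg (convex_Icc m u)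
          (f' := fun r => 2 * τ r * tauD N p q (t r))
          (fun r hr => ((hP.speed r (hsub ⟨hmem.1.trans hr.1, hr.2⟩)).pow 2).continuousAt.continuousWithinAt)
          (fun r hr => by
            rw [interior_Icc] at hr
            exact (((hP.speed r (hsub ⟨hmem.1.trans hr.1.le, hr.2.le⟩)).pow 2).congr_deriv
              (by simp)).hasDerivWithinAt)
          fun r hr => by
            rw [interior_Icc] at hr
            have := hm (hsub hmem) (hsub ⟨hmem.1.trans hr.1.le, hr.2.le⟩) hr.1.le
            simp only at this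
            linarith
      have := hmono (left_mem_Icc.2 hmem.2) (right_mem_Icc.2 hmem.2) hmem.2
      simp only [hu0] at this
      nlinarith
    · have hanti : AntitoneOn (fun r => τ r ^ 2) (Icc l m) :=
        antitoneOn_of_hasDerivWithinAt_nonpos (convex_Icc l m)
          (f' := fun r => 2 * τ r * tauD N p q (t r))
          (fun r hr => ((hP.speed r (hsub ⟨hr.1, hr.2.trans hmem.2⟩)).pow 2).continuousAt.continuousWithinAt)
          (fun r hr => by
            rw [interior_Icc] at hr
            exact (((hP.speed r (hsub ⟨hr.1.le, hr.2.le.trans hmem.2⟩)).pow 2).congr_deriv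
              (by simp)).hasDerivWithinAt)
          fun r hr => by
            rw [interior_Icc] at hr
            have := hm (hsub ⟨hr.1.le, hr.2.le.trans hmem.2⟩) (hsub hmem) hr.2.le
            simp only at this
            linarith
      have := hanti (left_mem_Icc.2 hmem.1) (right_mem_Icc.2 hmem.1) hmem.1
      simp only [hl0] at this
      nlinarith
  have hcI : c ∈ Icc l u := ⟨min_le_left _ _, le_max_left _ _⟩
  exact hT ((uniqueDiffOn_Icc hlu c hcI).eq_deriv _ (hP.speed c hc).hasDerivWithinAt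
    ((hasDerivWithinAt_const c (Icc l u) (0 : ℝ)).congr hzero (hzero c hcI)))

variable (hF : Field J J' a b)

/-- The boundary combination which the Riccati coefficient produces. -/
def endForm (N : ℕ) (p q : ℝ) (t τ : ℝ → ℝ) (J : ℝ → E3) (s : ℝ) : ℝ :=
  tauD N p q (t s) / τ s * (J s).1 ^ 2 - passB N p q t τ J s

include hN hP in
lemma Passage.endForm_sign {s : ℝ} (hs : s ∈ Icc a b) (hτ : τ s ≠ 0) (h : J s = 0 ∨ |t s| = 2) :
    (J s = 0 ∧ endForm N p q t τ J s = 0) ∨
    (t s = 2 ∧ 0 ≤ endForm N p q t τ J s * τ s) ∨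
    (t s = -2 ∧ 0 ≤ endForm N p q t τ J s * -τ s) := by
  have key : ∀ (p q : ℝ) (t τ : ℝ → ℝ) (J : ℝ → E3), t s = 2 → τ s ≠ 0 →
      0 ≤ endForm N p q t τ J s * τ s := by
    intro p q t τ J ht hτ
    have hid := hN.face_identity p q
    have e : endForm N p q t τ J s * τ s =
        faceK N * (faceU N p q * (J s).1 - τ s * omR N (J s)) ^ 2 := by
      rw [endForm, hN.passB_right ht, ht, ← hid]
      field_simp
      ring
    rw [e]
    exact mul_nonneg hN.faceK_bounds.1 (sq_nonneg _)
  rcases h with h | h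
  · exact .inl ⟨h, by rw [endForm, passB_zero h, h]; simp⟩
  rcases (abs_eq (by norm_num : (0 : ℝ) ≤ 2)).1 h with h | h
  · exact .inr (.inl ⟨h, key p q t τ J h hτ⟩)
  · refine .inr (.inr ⟨h, ?_⟩)
    have e : endForm N q (-p) (fun r => -t r) (fun r => -τ r) (fun r => collarTurn (J r)) s
        = endForm N p q t τ J s := by
      simp only [endForm, hN.passB_turn p q t τ J (mem_slab (hP.mem s hs)), Small.tauD_turn,
        neg_div_neg_eq]
      simp [collarTurn]
    rw [← e]
    exact key _ _ _ _ _ (by simp [h]) (neg_ne_zero.2 hτ)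

include hN hP hF in
/-- The case of a speed without zero. -/
lemma Passage.nonneg_of_ne_zero (hab : a < b) (hne : ∀ s ∈ Icc a b, τ s ≠ 0)
    (ha : J a = 0 ∨ |t a| = 2) (hb : J b = 0 ∨ |t b| = 2) :
    0 ≤ (∫ s in a..b, passQ N p q t J J' s)
      - (passB N p q t τ J b - passB N p q t τ J a) := by
  have htc : ContinuousOn t (Icc a b) := fun s hs =>
    (hP.height s hs).continuousAt.continuousWithinAt
  have hτc : ContinuousOn τ (Icc a b) := fun s hs =>
    (hP.speed s hs).continuousAt.continuousWithinAt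
  have hWc := (continuous_potW N p q).comp_continuousOn htc
  have hTc := (continuous_tauD N p q).comp_continuousOn htc
  have hz := hF.fst
  have hric := riccati_closed (κ := fun s => tauD N p q (t s) / τ s)
    (κ' := fun s => (potW N p q (t s) * τ s * τ s - tauD N p q (t s) * tauD N p q (t s)) / τ s ^ 2)
    hab.le hz hWc (fun s hs => (hP.hasDerivAt_acc hs).div (hP.speed s hs) (hne s hs))
    ((((hWc.mul hτc).mul hτc).sub (hTc.mul hTc)).div (hτc.pow 2)
      fun s hs => pow_ne_zero 2 (hne s hs))
    (fun s hs => by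
      have h0 := hne s (Ioo_subset_Icc_self hs)
      refine le_of_eq ?_
      simp only [Function.comp_apply]
      field_simp
      ring)
  have hQ : ∫ s in a..b, ((J' s).1 ^ 2 + potW N p q (t s) * (J s).1 ^ 2) ≤
      ∫ s in a..b, passQ N p q t J J' s :=
    integral_mono_on hab.le ((hz.pwc.sq.add (.of_continuousOn (hWc.mul (hz.cont.pow 2)))).intervalIntegrable hab.le)
      ((hN.passQ_pwc hP hF).intervalIntegrable hab.le) fun s hs => by
        refine le_trans ?_ (hN.passQ_ge (hP.mem s hs))
        exact le_add_of_nonneg_right (by positivity)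
  have hb' : 0 ≤ endForm N p q t τ J b := by
    rcases hP.endForm_sign hN (right_mem_Icc.2 hab.le) (hne b (right_mem_Icc.2 hab.le)) hb with
      ⟨-, h⟩ | ⟨h1, h2⟩ | ⟨h1, h2⟩
    · exact h.ge
    · have hd := deriv_nonneg_right_end hab (hP.height b (right_mem_Icc.2 hab.le))
        fun s hs => by rw [h1]; exact (hP.mem s (Ioo_subset_Icc_self hs)).2
      exact nonneg_of_mul_nonneg_left h2 (lt_of_le_of_ne hd (hne b (right_mem_Icc.2 hab.le)).symm)
    · have hd := deriv_nonneg_right_end hab (hP.height b (right_mem_Icc.2 hab.le)).neg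
        fun s hs => by simp only [Pi.neg_apply, h1]; linarith [(hP.mem s (Ioo_subset_Icc_self hs)).1]
      exact nonneg_of_mul_nonneg_left h2
        (lt_of_le_of_ne hd (neg_ne_zero.2 (hne b (right_mem_Icc.2 hab.le))).symm)
  have ha' : endForm N p q t τ J a ≤ 0 := by
    rcases hP.endForm_sign hN (left_mem_Icc.2 hab.le) (hne a (left_mem_Icc.2 hab.le)) ha with
      ⟨-, h⟩ | ⟨h1, h2⟩ | ⟨h1, h2⟩
    · exact h.le
    · have hd := deriv_nonpos_left_end hab (hP.height a (left_mem_Icc.2 hab.le))
        fun s hs => by rw [h1]; exact (hP.mem s (Ioo_subset_Icc_self hs)).2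
      have : τ a < 0 := lt_of_le_of_ne hd (hne a (left_mem_Icc.2 hab.le))
      exact le_of_not_gt fun h => by nlinarith
    · have hd := deriv_nonpos_left_end hab (hP.height a (left_mem_Icc.2 hab.le)).neg
        fun s hs => by simp only [Pi.neg_apply, h1]; linarith [(hP.mem s (Ioo_subset_Icc_self hs)).1]
      have : -τ a < 0 := lt_of_le_of_ne hd (neg_ne_zero.2 (hne a (left_mem_Icc.2 hab.le)))
      exact le_of_not_gt fun h => by nlinarith
  simp only [endForm] at ha' hb'
  simp only [Function.comp_apply] at hric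
  linarith

include hN hP hF in
/-- The case of a vanishing speed. -/
lemma Passage.nonneg_of_zero (hab : a < b) (hz : ∀ s ∈ Icc a b, τ s = 0 ∧ tauD N p q (t s) = 0)
    (ha : J a = 0 ∨ |t a| = 2) (hb : J b = 0 ∨ |t b| = 2) :
    0 ≤ (∫ s in a..b, passQ N p q t J J' s)
      - (passB N p q t τ J b - passB N p q t τ J a) := by
  have key : ∀ (p q : ℝ) (t τ : ℝ → ℝ) (J : ℝ → E3) (s : ℝ), t s = 2 → τ s = 0 →
      tauD N p q (t s) = 0 → passB N p q t τ J s = 0 := by
    intro p q t τ J s h2 h0 hT
    have hku : faceK N * faceU N p q = 0 := by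
      have hid := hN.face_identity p q
      rw [← h2, hT] at hid
      rcases mul_eq_zero.1 hid with h | h
      · rw [h, zero_mul]
      · rw [pow_eq_zero_iff (by norm_num)] at h; rw [h, mul_zero]
    rw [hN.passB_right h2, h0, mul_assoc 2 (faceK N), hku]
    ring
  have hB : ∀ s ∈ Icc a b, (J s = 0 ∨ |t s| = 2) → passB N p q t τ J s = 0 := by
    intro s hs h
    rcases h with h | h
    · exact passB_zero h
    rcases (abs_eq (by norm_num : (0 : ℝ) ≤ 2)).1 h with h | h
    · exact key p q t τ J s h (hz s hs).1 (hz s hs).2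
    · rw [← hN.passB_turn p q t τ J (mem_slab (hP.mem s hs))]
      exact key _ _ _ _ _ s (by simp [h]) (by simp [(hz s hs).1])
        (by simp [Small.tauD_turn, (hz s hs).2])
  rw [hB a (left_mem_Icc.2 hab.le) ha, hB b (right_mem_Icc.2 hab.le) hb]
  simp only [sub_zero]
  exact integral_nonneg hab.le fun s hs => hN.passQ_nonneg (hP.mem s hs)

end passage

/-- Split of a turning passage at the turning time: one side. -/
lemma side_le {S S₁ σ : ℝ} {th τh : ℝ → ℝ} (hN : Small N) (hS₁ : 0 ≤ S₁) (hSS : S₁ ≤ S)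
    (hh : ∀ r ∈ Icc 0 S₁, t (c + σ * r) = th r ∧ σ * τ (c + σ * r) = τh r)
    (hσ : σ = 1 ∨ σ = -1) (hcab : ∀ r ∈ Icc 0 S₁, c + σ * r ∈ Icc a b)
    (hP : Passage N t τ p q a b) (hth : ContinuousOn th (Icc 0 S)) (hF : Field J J' a b)
    (hend : (S₁ = S ∧ th S = 2) ∨ J (c + σ * S₁) = 0) :
    ∃ z z' w w' : ℝ → ℝ, PW z z' 0 S ∧ PW w w' 0 S ∧ z 0 = (J c).1 ∧ w 0 = omR N (J c) ∧
      (∫ r in (0 : ℝ)..S, halfDensity N p q σ th z z' w' r)
          + (τh S * faceK N * w S ^ 2 - σ * (2 * faceK N * faceU N p q * (z S * w S))) ≤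
        (∫ r in (0 : ℝ)..S₁, passQ N p q t J J' (c + σ * r))
          - σ * passB N p q t τ J (c + σ * S₁) := by
  have hsub : PW (fun r => (J (c + σ * r)).1) (fun r => σ * (J' (c + σ * r)).1) 0 S₁ ∧
      PW (fun r => omR N (J (c + σ * r))) (fun r => σ * omR N (J' (c + σ * r))) 0 S₁ := by
    have h0 := hcab 0 (left_mem_Icc.2 hS₁)
    have h1 := hcab S₁ (right_mem_Icc.2 hS₁)
    rcases hσ with rfl | rfl <;> simp only [one_mul, neg_one_mul, mul_zero, add_zero, ← sub_eq_add_neg] at h0 h1 ⊢
    · exact ⟨(hF.fst.shift c).mono (by linarith [h0.1]) (by linarith [h1.2]),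
        ((hF.comp_clm (omR N)).shift c).mono (by linarith [h0.1]) (by linarith [h1.2])⟩
    · exact ⟨(hF.fst.reflect c).mono (by linarith [h0.2]) (by linarith [h1.1]),
        ((hF.comp_clm (omR N)).reflect c).mono (by linarith [h0.2]) (by linarith [h1.1])⟩
  have hzero : S₁ = S ∨ J (c + σ * S₁) = 0 := hend.imp And.left id
  set z := extZ S₁ fun r => (J (c + σ * r)).1
  set z' := extZ S₁ fun r => σ * (J' (c + σ * r)).1
  set w := extZ S₁ fun r => omR N (J (c + σ * r))
  set w' := extZ S₁ fun r => σ * omR N (J' (c + σ * r))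
  have hz : PW z z' 0 S := hsub.1.ext hS₁ hSS (hzero.imp id fun h => by simp [h])
  have hw : PW w w' 0 S := hsub.2.ext hS₁ hSS (hzero.imp id fun h => by simp [h])
  have hσ2 : σ ^ 2 = 1 := by rcases hσ with rfl | rfl <;> norm_num
  have hQ : PWC (fun r => passQ N p q t J J' (c + σ * r)) 0 S₁ := by
    have h := hN.passQ_pwc hP hF
    have h0 := hcab 0 (left_mem_Icc.2 hS₁)
    have h1 := hcab S₁ (right_mem_Icc.2 hS₁)
    rcases hσ with rfl | rfl <;> simp only [one_mul, neg_one_mul, mul_zero, add_zero, ← sub_eq_add_neg] at h0 h1 ⊢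
    · exact (h.shift c).mono (by linarith [h0.1]) (by linarith [h1.2])
    · exact (h.reflect c).mono (by linarith [h0.2]) (by linarith [h1.1])
  have hH : PWC (fun r => halfDensity N p q σ th z z' w' r) 0 S := by
    unfold halfDensity
    simp only [div_eq_mul_inv]
    exact (hz.pwc.sq.add (.of_continuousOn (((continuous_potW N p q).comp_continuousOn hth).mul (hz.cont.pow 2)))).add
      ((hw.pwc.sub (.of_continuousOn (continuousOn_const.mul (hz.cont.mul
        (((omR N).continuous.comp (continuous_coVelD N p q)).comp_continuousOn hth))))).sq.mul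
        (.of_continuousOn continuousOn_const))
  refine ⟨z, z', w, w', hz, hw, by simp [z, extZ, hS₁], by simp [w, extZ, hS₁], add_le_add ?_ ?_⟩
  · rw [← integral_add_adjacent_intervals ((hH.mono le_rfl hSS).intervalIntegrable hS₁)
      ((hH.mono hS₁ le_rfl).intervalIntegrable hSS)]
    have htail : ∫ r in S₁..S, halfDensity N p q σ th z z' w' r = 0 := by
      refine integral_zero_ae ?_
      rw [uIoc_of_le hSS]
      filter_upwards with r hr
      simp [halfDensity, z, z', w', extZ_of_lt hr.1]
    rw [htail, add_zero]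
    refine integral_mono_on hS₁ ((hH.mono le_rfl hSS).intervalIntegrable hS₁)
      (hQ.intervalIntegrable hS₁) fun r hr => ?_
    refine le_trans (le_of_eq ?_) (hN.passQ_ge (hP.mem _ (hcab r hr)))
    simp only [halfDensity, z, z', w', extZ_of_le hr.2, (hh r hr).1]
    rw [← mul_sub, mul_pow, mul_pow, hσ2, one_mul, one_mul]
  · rcases hend with ⟨he, h2⟩ | h0
    · subst he
      have hr := hh S₁ (right_mem_Icc.2 hS₁)
      rw [hN.passB_right (by rw [hr.1, h2])]
      simp only [z, w, extZ_of_le le_rfl, ← hr.2]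
      exact le_of_eq (by ring)
    · rw [passB_zero h0]
      rcases eq_or_lt_of_le hSS with he | he
      · subst he
        simp [z, w, extZ_of_le le_rfl, h0]
      · simp [z, w, extZ_of_lt he]

section turning

variable (hN : Tiny N) (hP : Passage N t τ p q a b) (hF : Field J J' a b)

include hP in
lemma Passage.reflect (hc : c ∈ Icc a b) (h0 : τ c = 0) {r : ℝ}
    (hr : r ∈ Icc 0 (min (c - a) (b - c))) :
    t (c + r) = t (c - r) ∧ τ (c + r) = -τ (c - r) := by
  obtain ⟨L, hL⟩ := exists_tauD_lip N p q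
  set R := min (c - a) (b - c)
  have hm : ∀ s ∈ Icc 0 R, c + s ∈ Icc a b ∧ c - s ∈ Icc a b := fun s hs => by
    have := min_le_left (c - a) (b - c)
    have := min_le_right (c - a) (b - c)
    have := hs.2
    exact ⟨⟨by linarith [hc.1, hs.1], by linarith⟩, ⟨by linarith, by linarith [hc.2, hs.1]⟩⟩
  have := gronwall_zero (f := fun s => t (c + s) - t (c - s))
    (g := fun s => τ (c + s) + τ (c - s))
    (h := fun s => tauD N p q (t (c + s)) - tauD N p q (t (c - s))) (L := L)
    (fun s hs => (((hP.height _ (hm s hs).1).comp_const_add c s).sub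
      ((hP.height _ (hm s hs).2).comp_const_sub c s)).congr_deriv (by ring))
    (fun s hs => (((hP.speed _ (hm s hs).1).comp_const_add c s).add
      ((hP.speed _ (hm s hs).2).comp_const_sub c s)).congr_deriv (by ring))
    (fun s hs => hL _ (hP.mem _ (hm s hs).1) _ (hP.mem _ (hm s hs).2))
    (left_mem_Icc.2 (le_trans hr.1 hr.2)) (by simp) (by simp [h0]) r hr
  constructor <;> linarith [this.1, this.2]

include hN hP hF in
/-- A passage turning to the right at a time `c`. -/
lemma Passage.nonneg_of_turn (hab : a < b) (hc : c ∈ Icc a b) (h0 : τ c = 0)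
    (hC : 0 < tauD N p q (t c)) (h1 : t c < 1) (huniq : ∀ s ∈ Icc a b, s ≠ c → τ s ≠ 0)
    (ha : J a = 0 ∨ |t a| = 2) (hb : J b = 0 ∨ |t b| = 2) :
    0 ≤ (∫ s in a..b, passQ N p q t J J' s)
      - (passB N p q t τ J b - passB N p q t τ J a) := by
  by_cases hboth : J a = 0 ∧ J b = 0
  · rw [passB_zero hboth.1, passB_zero hboth.2]
    simp only [sub_zero]
    exact integral_nonneg hab.le fun s hs => hN.toSmall.passQ_nonneg (hP.mem s hs)
  have hS1 : 0 ≤ c - a := by linarith [hc.1]
  have hS2 : 0 ≤ b - c := by linarith [hc.2]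
  obtain ⟨L, hL⟩ := exists_tauD_lip N p q
  -- the longer side
  obtain ⟨σ, hσ, hSdef⟩ : ∃ σ : ℝ, (σ = 1 ∨ σ = -1) ∧
      (σ = 1 ∧ c - a ≤ b - c ∨ σ = -1 ∧ b - c ≤ c - a) := by
    rcases le_total (c - a) (b - c) with h | h
    · exact ⟨1, .inl rfl, .inl ⟨rfl, h⟩⟩
    · exact ⟨-1, .inr rfl, .inr ⟨rfl, h⟩⟩
  set S := max (c - a) (b - c) with hS
  have hS0 : 0 < S := by
    rcases le_total (c - a) (b - c) with h | h
    · rw [hS, max_eq_right h]; linarith
    · rw [hS, max_eq_left h]; linarith
  set th : ℝ → ℝ := fun r => t (c + σ * r) with hth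
  set τh : ℝ → ℝ := fun r => σ * τ (c + σ * r) with hτh
  have hcS : ∀ r ∈ Icc 0 S, c + σ * r ∈ Icc a b := by
    intro r hr
    rcases hSdef with ⟨rfl, h⟩ | ⟨rfl, h⟩
    · rw [hS, max_eq_right h] at hr
      exact ⟨by linarith [hc.1, hr.1], by linarith [hr.2]⟩
    · rw [hS, max_eq_left h] at hr
      exact ⟨by linarith [hr.2], by linarith [hc.2, hr.1]⟩
  have hσ2 : σ * σ = 1 := by rcases hσ with rfl | rfl <;> norm_num
  have hd : ∀ {F F' : ℝ → ℝ}, (∀ s ∈ Icc a b, HasDerivAt F (F' s) s) → ∀ r ∈ Icc 0 S,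
      HasDerivAt (fun u => F (c + σ * u)) (σ * F' (c + σ * r)) r := fun {F F'} hF r hr =>
    ((hF _ (hcS r hr)).comp r (((hasDerivAt_id' r).const_mul σ).const_add c)).congr_deriv (by ring)
  have hth0 : th 0 = t c := by simp [hth]
  have hτh0 : τh 0 = 0 := by simp [hτh, h0]
  -- agreement on both sides
  have hagree : ∀ σ' : ℝ, σ' = 1 ∨ σ' = -1 → ∀ r,
      (σ' = σ ∨ r ∈ Icc 0 (min (c - a) (b - c))) →
      t (c + σ' * r) = th r ∧ σ' * τ (c + σ' * r) = τh r := by
    intro σ' hσ' r hr
    rcases hr with rfl | hr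
    · exact ⟨rfl, rfl⟩
    obtain ⟨e1, e2⟩ := hP.reflect hc h0 hr
    rcases hσ with rfl | rfl <;> rcases hσ' with rfl | rfl <;>
      simp [hth, hτh, ← sub_eq_add_neg, e1, e2]
  -- the far end is a face
  have hfar : th S = 2 := by
    have hmono : StrictMonoOn th (Icc 0 S) := by
      have hder : ∀ r ∈ Icc 0 S, HasDerivAt th (τh r) r := fun r hr => hd hP.height r hr
      have hder2 : ∀ r ∈ Icc 0 S, HasDerivAt τh (tauD N p q (th r)) r := fun r hr =>
        ((hd hP.speed r hr).const_mul σ).congr_deriv (by rw [← mul_assoc, hσ2, one_mul])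
      have hne : ∀ r ∈ Ioc 0 S, τh r ≠ 0 := fun r hr => by
        refine mul_ne_zero (by rcases hσ with rfl | rfl <;> norm_num)
          (huniq _ (hcS r (Ioc_subset_Icc_self hr)) fun he => ?_)
        rcases hσ with rfl | rfl <;> linarith [hr.1]
      have hpos : ∀ r ∈ Ioc 0 S, 0 < τh r := by
        intro r hr
        by_contra hle
        push Not at hle
        have hev : ∀ᶠ u in 𝓝[>] (0 : ℝ), 0 < τh u := by
          have hsl := hasDerivAt_iff_tendsto_slope.1 (hder2 0 (left_mem_Icc.2 hS0.le))
          have := (hsl.mono_left (nhdsGT_le_nhdsNE 0)).eventually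
            (lt_mem_nhds (show 0 < tauD N p q (th 0) by rw [hth0]; exact hC))
          filter_upwards [this, self_mem_nhdsWithin] with u hu hu0
          rw [slope_def_field, hτh0, sub_zero, sub_zero] at hu
          exact (div_pos_iff_of_pos_right hu0).1 hu
        obtain ⟨u, hu, hur⟩ := (hev.and (Ioo_mem_nhdsGT hr.1)).exists
        obtain ⟨x, hx, hx0⟩ := intermediate_value_Icc' hur.2.le
          (fun x hx => (hder2 x ⟨hur.1.le.trans hx.1, hx.2.trans hr.2⟩).continuousAt.continuousWithinAt)
          ⟨hle, hu.le⟩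
        exact hne x ⟨hur.1.trans_le hx.1, hx.2.trans hr.2⟩ hx0
      refine strictMonoOn_of_hasDerivWithinAt_pos (convex_Icc 0 S)
        (fun r hr => (hder r hr).continuousAt.continuousWithinAt) (f' := τh) ?_ ?_
      · intro r hr
        rw [interior_Icc] at hr
        exact (hder r (Ioo_subset_Icc_self hr)).hasDerivWithinAt
      · intro r hr
        rw [interior_Icc] at hr
        exact hpos r (Ioo_subset_Ioc_self hr)
    have hface : ∀ r ∈ Icc 0 S, |th r| = 2 → th r = 2 ∧ r = S := by
      intro r hr h2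
      have h3 : th r = 2 := by
        rcases (abs_eq (by norm_num : (0 : ℝ) ≤ 2)).1 h2 with h | h
        · exact h
        · exfalso
          have h5 : th 0 ≤ th r := hmono.monotoneOn (left_mem_Icc.2 hS0.le) hr hr.1
          have h6 := (hP.mem c hc).1
          rcases eq_or_lt_of_le hr.1 with h7 | h7
          · rw [← h7, hth0] at h
            have := hC
            rw [h, tauD, prof_eq_zero (x := 1 + -2) (by norm_num)] at this
            have hq : 0 ≤ eta N / 2 * (prof (1 - -2) * q ^ 2) :=
              mul_nonneg (div_nonneg hN.toSmall.eta_pos.le (by norm_num))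
                (mul_nonneg (prof_nonneg _) (sq_nonneg q))
            nlinarith
          · have := hmono (left_mem_Icc.2 hS0.le) hr h7
            rw [hth0] at this
            linarith
      refine ⟨h3, ?_⟩
      by_contra hne
      have := hmono hr (right_mem_Icc.2 hS0.le) (lt_of_le_of_ne hr.2 hne)
      have hle : th S ≤ 2 := (hP.mem _ (hcS S (right_mem_Icc.2 hS0.le))).2
      linarith
    by_cases hJa : J a = 0
    · have hJb : |t b| = 2 := hb.resolve_left fun h => hboth ⟨hJa, h⟩
      have hb' : b - c ∈ Icc 0 S := ⟨hS2, le_max_right _ _⟩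
      have e : th (b - c) = t b := by
        have := (hagree 1 (.inl rfl) (b - c) ?_).1
        · rw [← this]; simp
        · rcases hSdef with ⟨h, -⟩ | ⟨-, h⟩
          · exact .inl h.symm
          · exact .inr ⟨hS2, le_min h le_rfl⟩
      obtain ⟨h1', h2'⟩ := hface _ hb' (by rw [e]; exact hJb)
      rw [← h2']; exact h1'
    · have hJa' : |t a| = 2 := ha.resolve_left hJa
      have ha' : c - a ∈ Icc 0 S := ⟨hS1, le_max_left _ _⟩
      have e : th (c - a) = t a := by
        have := (hagree (-1) (.inr rfl) (c - a) ?_).1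
        · rw [← this]; simp
        · rcases hSdef with ⟨-, h⟩ | ⟨h, -⟩
          · exact .inr ⟨hS1, le_min le_rfl h⟩
          · exact .inl h.symm
      obtain ⟨h1', h2'⟩ := hface _ ha' (by rw [e]; exact hJa')
      rw [← h2']; exact h1'
  have hH : HalfTurn N p q th τh S :=
    { pos := hS0
      mem := fun r hr => hP.mem _ (hcS r hr)
      height := fun r hr => hd hP.height r hr
      speed := fun r hr => ((hd hP.speed r hr).const_mul σ).congr_deriv
        (by rw [← mul_assoc, hσ2, one_mul])
      start := hτh0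
      acc := by rw [hth0]; exact hC
      left := by rw [hth0]; exact h1
      face := hfar }
  have hmin : ∀ r, r ∈ Icc 0 (c - a) → r ≤ b - c → r ∈ Icc 0 (min (c - a) (b - c)) :=
    fun r hr h => ⟨hr.1, le_min hr.2 h⟩
  -- the two sides
  have hfaceEnd : ∀ S' : ℝ, 0 ≤ S' → S' ≤ S → |th S'| = 2 → S' = S := by
    intro S' h0' hle h2
    by_contra hne
    have hmono2 : th S' < th S := by
      have hder := fun r (hr : r ∈ Icc S' S) => hH.height r ⟨h0'.trans hr.1, hr.2⟩
      refine strictMonoOn_of_hasDerivWithinAt_pos (convex_Icc S' S) (f' := τh)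
        (fun r hr => (hder r hr).continuousAt.continuousWithinAt) ?_ ?_
        (left_mem_Icc.2 hle) (right_mem_Icc.2 hle) (lt_of_le_of_ne hle hne)
      · intro r hr
        rw [interior_Icc] at hr
        exact (hder r (Ioo_subset_Icc_self hr)).hasDerivWithinAt
      · intro r hr
        rw [interior_Icc] at hr
        exact hH.speed_pos hN.toSmall ⟨h0'.trans_lt hr.1, hr.2.le⟩
    rw [hfar] at hmono2
    rcases (abs_eq (by norm_num : (0 : ℝ) ≤ 2)).1 h2 with h | h
    · linarith
    · have := hH.start_gt hN.toSmall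
      have := hH.height_le hN.toSmall (s := S') ⟨h0', hle⟩
      linarith
  have agreeP : ∀ r ∈ Icc 0 (b - c), t (c + 1 * r) = th r ∧ 1 * τ (c + 1 * r) = τh r := by
    intro r hr
    refine hagree 1 (.inl rfl) r ?_
    rcases hSdef with ⟨h, -⟩ | ⟨-, h⟩
    · exact .inl h.symm
    · exact .inr ⟨hr.1, le_min (hr.2.trans h) hr.2⟩
  have agreeM : ∀ r ∈ Icc 0 (c - a), t (c + -1 * r) = th r ∧ -1 * τ (c + -1 * r) = τh r := by
    intro r hr
    refine hagree (-1) (.inr rfl) r ?_
    rcases hSdef with ⟨-, h⟩ | ⟨h, -⟩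
    · exact .inr (hmin r hr (hr.2.trans h))
    · exact .inl h.symm
  have endP : (b - c = S ∧ th S = 2) ∨ J (c + 1 * (b - c)) = 0 := by
    rcases hb with h | h
    · exact .inr (by simpa using h)
    · refine .inl ⟨hfaceEnd _ hS2 (le_max_right _ _) ?_, hfar⟩
      rw [← (agreeP _ (right_mem_Icc.2 hS2)).1]; simpa using h
  have endM : (c - a = S ∧ th S = 2) ∨ J (c + -1 * (c - a)) = 0 := by
    rcases ha with h | h
    · exact .inr (by simpa using h)
    · refine .inl ⟨hfaceEnd _ hS1 (le_max_left _ _) ?_, hfar⟩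
      rw [← (agreeM _ (right_mem_Icc.2 hS1)).1]; simpa using h
  obtain ⟨zp, zp', wp, wp', hzp, hwp, hzp0, hwp0, hp'⟩ :=
    side_le (th := th) (τh := τh) (σ := 1) hN.toSmall hS2 (le_max_right _ _) agreeP (.inl rfl)
      (fun r hr => ⟨by linarith [hc.1, hr.1], by linarith [hr.2]⟩) hP hH.continuousOn_height hF endP
  obtain ⟨zm, zm', wm, wm', hzm, hwm, hzm0, hwm0, hm'⟩ :=
    side_le (th := th) (τh := τh) (σ := -1) hN.toSmall hS1 (le_max_left _ _) agreeM (.inr rfl)
      (fun r hr => ⟨by linarith [hr.2], by linarith [hc.2, hr.1]⟩) hP hH.continuousOn_height hF endM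
  have hmain := turn_nonneg hN hH hzp hwp hzm hwm (hzp0.trans hzm0.symm) (hwp0.trans hwm0.symm)
  have hI := hN.toSmall.passQ_pwc hP hF
  have e1 : ∫ r in (0 : ℝ)..(b - c), passQ N p q t J J' (c + 1 * r) =
      ∫ s in c..b, passQ N p q t J J' s := by simp
  have e2 : ∫ r in (0 : ℝ)..(c - a), passQ N p q t J J' (c + -1 * r) =
      ∫ s in a..c, passQ N p q t J J' s := by
    simp only [neg_one_mul, ← sub_eq_add_neg, integral_comp_sub_left, sub_zero, sub_sub_cancel]
  have e3 := integral_add_adjacent_intervals ((hI.mono le_rfl hc.2).intervalIntegrable hc.1)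
    ((hI.mono hc.1 le_rfl).intervalIntegrable hc.2)
  rw [e1, show c + 1 * (b - c) = b by ring] at hp'
  rw [e2, show c + -1 * (c - a) = a by ring] at hm'
  linarith

include hN hP hF in
/-- The coordinate index form of a passage meeting both halves is nonnegative. -/
theorem Passage.index_nonneg (hab : a < b) (hr : ∃ s ∈ Icc a b, t s < 1)
    (hl : ∃ s ∈ Icc a b, -1 < t s) (ha : J a = 0 ∨ |t a| = 2) (hb : J b = 0 ∨ |t b| = 2) :
    0 ≤ (∫ s in a..b, passQ N p q t J J' s)
      - (passB N p q t τ J b - passB N p q t τ J a) := by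
  rcases hP.zero_trichotomy hN.toSmall with h | h | ⟨c, hc, h0, hT, huniq⟩
  · exact hP.nonneg_of_zero hN.toSmall hF hab h ha hb
  · exact hP.nonneg_of_ne_zero hN.toSmall hF hab h ha hb
  -- `c` is an extremum of the height
  have hext : ∀ (p q : ℝ) (t τ : ℝ → ℝ), Passage N t τ p q a b → τ c = 0 →
      0 < tauD N p q (t c) → ∀ s ∈ Icc a b, t c ≤ t s := by
    intro p q t τ hP h0 hC s hs
    have hm : MonotoneOn (fun r => τ r * tauD N p q (t r)) (Icc a b) := by
      refine monotoneOn_of_hasDerivWithinAt_nonneg (convex_Icc a b)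
        (f' := fun r => tauD N p q (t r) * tauD N p q (t r) + τ r * (potW N p q (t r) * τ r))
        (fun r hr => ((hP.speed r hr).mul (hP.hasDerivAt_acc hr)).continuousAt.continuousWithinAt)
        (fun r hr => by
          rw [interior_Icc] at hr
          exact ((hP.speed r (Ioo_subset_Icc_self hr)).mul
            (hP.hasDerivAt_acc (Ioo_subset_Icc_self hr))).hasDerivWithinAt) fun r hr => ?_
      rw [interior_Icc] at hr
      nlinarith [mul_nonneg (hN.toSmall.potW_nonneg (hP.mem r (Ioo_subset_Icc_self hr))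
        (a := p) (b := q)) (mul_self_nonneg (τ r)), mul_self_nonneg (tauD N p q (t r))]
    -- the acceleration keeps its sign
    have hTpos : ∀ r ∈ Icc a b, 0 < tauD N p q (t r) := by
      intro r hr
      by_contra hle
      push Not at hle
      have hTc : ContinuousOn (fun r => tauD N p q (t r)) (Icc a b) := fun x hx =>
        (hP.hasDerivAt_acc hx).continuousAt.continuousWithinAt
      obtain ⟨x, hx, hx0⟩ : ∃ x ∈ Icc a b, tauD N p q (t x) = 0 := by
        rcases le_total c r with hcr | hcr
        · obtain ⟨x, hx, hx0⟩ := intermediate_value_Icc' hcr (hTc.mono (Icc_subset_Icc hc.1 hr.2))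
            ⟨hle, hC.le⟩
          exact ⟨x, Icc_subset_Icc hc.1 hr.2 hx, hx0⟩
        · obtain ⟨x, hx, hx0⟩ := intermediate_value_Icc hcr (hTc.mono (Icc_subset_Icc hr.1 hc.2))
            ⟨hle, hC.le⟩
          exact ⟨x, Icc_subset_Icc hr.1 hc.2 hx, hx0⟩
      -- the nondecreasing product vanishes between `c` and `x`
      have hzero : ∀ y ∈ Icc (min c x) (max c x), tauD N p q (t y) ^ 2 = 0 := by
        intro y hy
        have hsub : Icc (min c x) (max c x) ⊆ Icc a b :=
          Icc_subset_Icc (le_min hc.1 hx.1) (max_le hc.2 hx.2)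
        have hlu : min c x < max c x := min_lt_max.2 fun he => hC.ne' (by rw [he]; exact hx0)
        have hconst : ∀ u ∈ Icc (min c x) (max c x), τ u * tauD N p q (t u) = 0 := by
          intro u hu
          have e1 : τ (min c x) * tauD N p q (t (min c x)) = 0 := by
            rcases min_choice c x with h | h <;> rw [h] <;> simp [h0, hx0]
          have e2 : τ (max c x) * tauD N p q (t (max c x)) = 0 := by
            rcases max_choice c x with h | h <;> rw [h] <;> simp [h0, hx0]
          have h3 := hm (hsub (left_mem_Icc.2 hlu.le)) (hsub hu) hu.1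
          have h4 := hm (hsub hu) (hsub (right_mem_Icc.2 hlu.le)) hu.2
          simp only [e1] at h3
          simp only [e2] at h4
          linarith
        have hd0 := (uniqueDiffOn_Icc hlu y hy).eq_deriv _
          ((hP.speed y (hsub hy)).mul (hP.hasDerivAt_acc (hsub hy))).hasDerivWithinAt
          ((hasDerivWithinAt_const y _ (0 : ℝ)).congr hconst (hconst y hy))
        nlinarith [mul_nonneg (hN.toSmall.potW_nonneg (hP.mem y (hsub hy)) (a := p) (b := q))
          (mul_self_nonneg (τ y)), mul_self_nonneg (tauD N p q (t y))]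
      have := hzero c ⟨min_le_left _ _, le_max_left _ _⟩
      nlinarith
    have hτmono : MonotoneOn τ (Icc a b) :=
      monotoneOn_of_hasDerivWithinAt_nonneg (convex_Icc a b) (f' := fun r => tauD N p q (t r))
        (fun r hr => (hP.speed r hr).continuousAt.continuousWithinAt)
        (fun r hr => by
          rw [interior_Icc] at hr
          exact (hP.speed r (Ioo_subset_Icc_self hr)).hasDerivWithinAt)
        fun r hr => by rw [interior_Icc] at hr; exact (hTpos r (Ioo_subset_Icc_self hr)).le
    rcases le_total c s with hcs | hcs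
    · exact monotoneOn_of_hasDerivWithinAt_nonneg (convex_Icc c s) (f' := τ)
        (fun r hr => (hP.height r (Icc_subset_Icc hc.1 hs.2 hr)).continuousAt.continuousWithinAt)
        (fun r hr => by
          rw [interior_Icc] at hr
          exact (hP.height r (Icc_subset_Icc hc.1 hs.2 (Ioo_subset_Icc_self hr))).hasDerivWithinAt)
        (fun r hr => by
          rw [interior_Icc] at hr
          rw [← h0]
          exact hτmono hc (Icc_subset_Icc hc.1 hs.2 (Ioo_subset_Icc_self hr)) hr.1.le)
        (left_mem_Icc.2 hcs) (right_mem_Icc.2 hcs) hcs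
    · exact antitoneOn_of_hasDerivWithinAt_nonpos (convex_Icc s c) (f' := τ)
        (fun r hr => (hP.height r (Icc_subset_Icc hs.1 hc.2 hr)).continuousAt.continuousWithinAt)
        (fun r hr => by
          rw [interior_Icc] at hr
          exact (hP.height r (Icc_subset_Icc hs.1 hc.2 (Ioo_subset_Icc_self hr))).hasDerivWithinAt)
        (fun r hr => by
          rw [interior_Icc] at hr
          rw [← h0]
          exact hτmono (Icc_subset_Icc hs.1 hc.2 (Ioo_subset_Icc_self hr)) hc hr.2.le)
        (left_mem_Icc.2 hcs) (right_mem_Icc.2 hcs) hcs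
  rcases hT.lt_or_gt with hneg | hpos
  · have hP' := Small.passage_turn hP
    have hC' : 0 < tauD N q (-p) (-t c) := by rw [Small.tauD_turn]; linarith
    have hle := hext q (-p) _ _ hP' (by simp [h0]) hC'
    obtain ⟨s, hs, hs1⟩ := hl
    have := hP'.nonneg_of_turn hN hF.turn hab hc (by simp [h0]) hC' (by linarith [hle s hs])
      (fun s hs hne => neg_ne_zero.2 (huniq s hs hne)) (ha.imp (fun h => by simp [h]) (by simp))
      (hb.imp (fun h => by simp [h]) (by simp))
    rw [hN.toSmall.passB_turn p q t τ J (mem_slab (hP.mem b (right_mem_Icc.2 hab.le))),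
      hN.toSmall.passB_turn p q t τ J (mem_slab (hP.mem a (left_mem_Icc.2 hab.le))),
      integral_congr fun s _ => hN.toSmall.passQ_turn p q t J J' s] at this
    exact this
  · obtain ⟨s, hs, hs1⟩ := hr
    exact hP.nonneg_of_turn hN hF hab hc h0 hpos ((hext p q t τ hP h0 hpos s hs).trans_lt hs1) huniq ha hb

end turning

end

end Vale.Agent.P255
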