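import Vale.Agent.P255.Collar.Glue

/-!
Piecewise continuous integrands, the fundamental theorem with exceptions, and the scalar Riccati
estimates.
-/

open Set Filter MeasureTheory intervalIntegral
open scoped Topology

namespace Vale.Agent.P255

/-- Bounded on the open interval and continuous there off a finite set. -/
def PWC (f : ℝ → ℝ) (a b : ℝ) : Prop :=
  ∃ S : Finset ℝ, ∃ C : ℝ, ∀ s ∈ Ioo a b, s ∉ S → ContinuousAt f s ∧ |f s| ≤ C

/-- A continuous function with piecewise continuous bounded derivative `z'`. -/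
structure PW (z z' : ℝ → ℝ) (a b : ℝ) : Prop where
  cont : ContinuousOn z (Icc a b)
  pwc : PWC z' a b
  der : ∃ S : Finset ℝ, ∀ s ∈ Ioo a b, s ∉ S → HasDerivAt z (z' s) s

variable {a b c d : ℝ} {f g F F' z z' : ℝ → ℝ}

lemma PWC.of_continuousOn (h : ContinuousOn f (Icc a b)) : PWC f a b := by
  obtain ⟨C, hC⟩ := isCompact_Icc.exists_bound_of_continuousOn h
  exact ⟨∅, C, fun s hs _ => ⟨h.continuousAt (Icc_mem_nhds hs.1 hs.2), hC s (Ioo_subset_Icc_self hs)⟩⟩

lemma PWC.add (hf : PWC f a b) (hg : PWC g a b) : PWC (fun s => f s + g s) a b := by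
  classical
  obtain ⟨S, C, h⟩ := hf
  obtain ⟨T, D, k⟩ := hg
  refine ⟨S ∪ T, C + D, fun s hs hn => ?_⟩
  rw [Finset.notMem_union] at hn
  exact ⟨(h s hs hn.1).1.add (k s hs hn.2).1,
    (abs_add_le _ _).trans (add_le_add (h s hs hn.1).2 (k s hs hn.2).2)⟩

lemma PWC.neg (hf : PWC f a b) : PWC (fun s => -f s) a b := by
  obtain ⟨S, C, h⟩ := hf
  exact ⟨S, C, fun s hs hn => ⟨(h s hs hn).1.neg, by rw [abs_neg]; exact (h s hs hn).2⟩⟩

lemma PWC.sub (hf : PWC f a b) (hg : PWC g a b) : PWC (fun s => f s - g s) a b := by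
  simpa [sub_eq_add_neg] using hf.add hg.neg

lemma PWC.mul (hf : PWC f a b) (hg : PWC g a b) : PWC (fun s => f s * g s) a b := by
  classical
  obtain ⟨S, C, h⟩ := hf
  obtain ⟨T, D, k⟩ := hg
  refine ⟨S ∪ T, |C| * |D|, fun s hs hn => ?_⟩
  rw [Finset.notMem_union] at hn
  refine ⟨(h s hs hn.1).1.mul (k s hs hn.2).1, ?_⟩
  rw [abs_mul]
  exact mul_le_mul ((h s hs hn.1).2.trans (le_abs_self _)) ((k s hs hn.2).2.trans (le_abs_self _))
    (abs_nonneg _) (abs_nonneg _)

lemma PWC.const_mul (hf : PWC f a b) (k : ℝ) : PWC (fun s => k * f s) a b :=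
  (PWC.of_continuousOn continuousOn_const).mul hf

lemma PWC.sq (hf : PWC f a b) : PWC (fun s => f s ^ 2) a b := by
  simpa [pow_two] using hf.mul hf

lemma PWC.mono (hf : PWC f a b) (hac : a ≤ c) (hdb : d ≤ b) : PWC f c d := by
  obtain ⟨S, C, h⟩ := hf
  exact ⟨S, C, fun s hs hn => h s ⟨hac.trans_lt hs.1, hs.2.trans_le hdb⟩ hn⟩

lemma PWC.intervalIntegrable (hab : a ≤ b) (hf : PWC f a b) : IntervalIntegrable f volume a b := by
  obtain ⟨S, C, h⟩ := hf
  rw [intervalIntegrable_iff_integrableOn_Ioo_of_le hab]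
  have hS : (S : Set ℝ).Finite := S.finite_toSet
  have hopen : IsOpen (Ioo a b \ (S : Set ℝ)) := isOpen_Ioo.sdiff hS.isClosed
  have h1 : IntegrableOn f (Ioo a b \ (S : Set ℝ)) := by
    refine IntegrableOn.of_bound ?_ ?_ C ?_
    · exact (measure_mono sdiff_subset).trans_lt measure_Ioo_lt_top
    · exact (continuousOn_of_forall_continuousAt fun s hs => (h s hs.1 hs.2).1).aestronglyMeasurable
        hopen.measurableSet
    · refine (ae_restrict_iff' hopen.measurableSet).2 (Eventually.of_forall fun s hs => ?_)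
      exact (h s hs.1 hs.2).2
  refine h1.congr_set_ae ?_
  exact (sdiff_null_ae_eq_self (hS.measure_zero volume)).symm

lemma PW.mono (hz : PW z z' a b) (hac : a ≤ c) (hdb : d ≤ b) : PW z z' c d := by
  obtain ⟨S, h⟩ := hz.der
  exact ⟨hz.cont.mono (Icc_subset_Icc hac hdb), hz.pwc.mono hac hdb,
    S, fun s hs hn => h s ⟨hac.trans_lt hs.1, hs.2.trans_le hdb⟩ hn⟩

/-- The fundamental theorem of calculus off a finite set. -/
lemma ftc_pwc (hab : a ≤ b) (hF : ContinuousOn F (Icc a b))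
    (hd : ∃ S : Finset ℝ, ∀ s ∈ Ioo a b, s ∉ S → HasDerivAt F (F' s) s) (hF' : PWC F' a b) :
    ∫ s in a..b, F' s = F b - F a := by
  obtain ⟨S, h⟩ := hd
  exact integral_eq_of_hasDerivAt_off_countable_of_le F F' hab S.countable_toSet hF
    (fun s hs => h s hs.1 hs.2) (hF'.intervalIntegrable hab)

/-- A primitive with vanishing limit at the left end is at most the integral of a majorant. -/
lemma le_integral_of_majorant (hab : a < b) (hF : ContinuousOn F (Ioc a b))
    (h0 : Tendsto F (𝓝[>] a) (𝓝 0))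
    (hd : ∃ S : Finset ℝ, ∀ s ∈ Ioo a b, s ∉ S → HasDerivAt F (F' s) s)
    (hF' : ∀ δ, a < δ → PWC F' δ b) (hg : PWC g a b) (hle : ∀ s ∈ Ioo a b, F' s ≤ g s) :
    F b ≤ ∫ s in a..b, g s := by
  have hgi := hg.intervalIntegrable hab.le
  have hprim : Tendsto (fun δ => ∫ s in δ..b, g s) (𝓝[>] a) (𝓝 (∫ s in a..b, g s)) := by
    have hc : ContinuousWithinAt (fun δ => ∫ s in δ..b, g s) (uIcc a b) a :=
      continuousOn_primitive_interval_left
        ((intervalIntegrable_iff' (μ := volume)).1 hgi) a left_mem_uIcc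
    refine hc.mono_left (nhdsWithin_le_of_mem ?_)
    rw [uIcc_of_le hab.le]
    exact mem_of_superset (Ioo_mem_nhdsGT hab) Ioo_subset_Icc_self
  have hev : ∀ᶠ δ in 𝓝[>] a, F b - F δ ≤ ∫ s in δ..b, g s := by
    filter_upwards [Ioo_mem_nhdsGT hab] with δ hδ
    obtain ⟨S, hS⟩ := hd
    have h1 := ftc_pwc hδ.2.le (hF.mono fun s hs => ⟨hδ.1.trans_le hs.1, hs.2⟩)
      ⟨S, fun s hs hn => hS s ⟨hδ.1.trans hs.1, hs.2⟩ hn⟩ (hF' δ hδ.1)
    rw [← h1]
    exact integral_mono_on_of_le_Ioo hδ.2.le ((hF' δ hδ.1).intervalIntegrable hδ.2.le)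
      ((hg.mono hδ.1.le le_rfl).intervalIntegrable hδ.2.le)
      fun s hs => hle s ⟨hδ.1.trans hs.1, hs.2⟩
  have := le_of_tendsto_of_tendsto (tendsto_const_nhds.sub h0) hprim hev
  simpa using this

variable {κ κ' W p r : ℝ → ℝ}

/-- Completing the square in the scalar energy, up to a singular left end. -/
lemma riccati_le (hab : a < b) (hz : PW z z' a b) (hW : ContinuousOn W (Icc a b))
    (hκ : ∀ s ∈ Ioc a b, HasDerivAt κ (κ' s) s) (hκ' : ContinuousOn κ' (Ioc a b))
    (hle : ∀ s ∈ Ioo a b, κ' s + κ s ^ 2 ≤ W s)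
    (h0 : Tendsto (fun s => κ s * z s ^ 2) (𝓝[>] a) (𝓝 0)) :
    κ b * z b ^ 2 ≤ (∫ s in a..b, (z' s ^ 2 + W s * z s ^ 2)) ∧
      (ContinuousOn κ (Icc a b) → κ b * z b ^ 2 + (∫ s in a..b, (z' s - κ s * z s) ^ 2) ≤
        ∫ s in a..b, (z' s ^ 2 + W s * z s ^ 2)) := by
  have hκc : ContinuousOn κ (Ioc a b) := fun s hs => (hκ s hs).continuousAt.continuousWithinAt
  have hzc := hz.cont
  have hE : PWC (fun s => z' s ^ 2 + W s * z s ^ 2) a b :=
    hz.pwc.sq.add (.of_continuousOn (hW.mul (hzc.pow 2)))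
  have hF : ContinuousOn (fun s => κ s * z s ^ 2) (Ioc a b) :=
    hκc.mul ((hzc.mono Ioc_subset_Icc_self).pow 2)
  have hd : ∃ S : Finset ℝ, ∀ s ∈ Ioo a b, s ∉ S →
      HasDerivAt (fun s => κ s * z s ^ 2) (κ' s * z s ^ 2 + 2 * κ s * z s * z' s) s := by
    obtain ⟨S, h⟩ := hz.der
    exact ⟨S, fun s hs hn => ((hκ s ⟨hs.1, hs.2.le⟩).mul ((h s hs hn).pow 2)).congr_deriv
      (by simp; ring)⟩
  have hF' : ∀ δ, a < δ → PWC (fun s => κ' s * z s ^ 2 + 2 * κ s * z s * z' s) δ b := by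
    intro δ hδ
    have hsub : Icc δ b ⊆ Ioc a b := fun s hs => ⟨hδ.trans_le hs.1, hs.2⟩
    have hzc' := hzc.mono (Icc_subset_Icc hδ.le le_rfl)
    exact (PWC.of_continuousOn ((hκ'.mono hsub).mul (hzc'.pow 2))).add
      ((PWC.of_continuousOn ((continuousOn_const.mul (hκc.mono hsub)).mul hzc')).mul
        (hz.pwc.mono hδ.le le_rfl))
  constructor
  · refine le_integral_of_majorant hab hF h0 hd hF' hE fun s hs => ?_
    nlinarith [mul_le_mul_of_nonneg_right (hle s hs) (sq_nonneg (z s)),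
      sq_nonneg (z' s - κ s * z s)]
  · intro hκI
    have hr : PWC (fun s => (z' s - κ s * z s) ^ 2) a b :=
      (hz.pwc.sub (.of_continuousOn (hκI.mul hzc))).sq
    have h := le_integral_of_majorant hab hF h0 hd hF' (hE.sub hr) fun s hs => by
      nlinarith [mul_le_mul_of_nonneg_right (hle s hs) (sq_nonneg (z s))]
    rw [integral_sub (hE.intervalIntegrable hab.le) (hr.intervalIntegrable hab.le)] at h
    linarith

/-- Completing the square on a closed interval. -/
lemma riccati_closed (hab : a ≤ b) (hz : PW z z' a b) (hW : ContinuousOn W (Icc a b))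
    (hκ : ∀ s ∈ Icc a b, HasDerivAt κ (κ' s) s) (hκ' : ContinuousOn κ' (Icc a b))
    (hle : ∀ s ∈ Ioo a b, κ' s + κ s ^ 2 ≤ W s) :
    κ b * z b ^ 2 - κ a * z a ^ 2 ≤ ∫ s in a..b, (z' s ^ 2 + W s * z s ^ 2) := by
  have hκc : ContinuousOn κ (Icc a b) := fun s hs => (hκ s hs).continuousAt.continuousWithinAt
  have hzc := hz.cont
  have hF' : PWC (fun s => κ' s * z s ^ 2 + 2 * κ s * z s * z' s) a b :=
    (PWC.of_continuousOn (hκ'.mul (hzc.pow 2))).add
      ((PWC.of_continuousOn ((continuousOn_const.mul hκc).mul hzc)).mul hz.pwc)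
  have hE : PWC (fun s => z' s ^ 2 + W s * z s ^ 2) a b :=
    hz.pwc.sq.add (.of_continuousOn (hW.mul (hzc.pow 2)))
  obtain ⟨S, h⟩ := hz.der
  rw [← ftc_pwc (F := fun s => κ s * z s ^ 2) hab (hκc.mul (hzc.pow 2))
    ⟨S, fun s hs hn => ((hκ s ⟨hs.1.le, hs.2.le⟩).mul ((h s hs hn).pow 2)).congr_deriv
      (by simp; ring)⟩ hF']
  refine integral_mono_on_of_le_Ioo hab (hF'.intervalIntegrable hab) (hE.intervalIntegrable hab)
    fun s hs => ?_
  nlinarith [mul_le_mul_of_nonneg_right (hle s hs) (sq_nonneg (z s)),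
    sq_nonneg (z' s - κ s * z s)]

/-- The moment of `z` against `g` through the residual of the Riccati equation. -/
lemma moment_eq (hab : a ≤ b) (hz : PW z z' a b) (hp : ∀ s, HasDerivAt p (g s - κ s * p s) s)
    (hκc : ContinuousOn κ (Icc a b)) (hg : ContinuousOn g (Icc a b)) :
    (∫ s in a..b, g s * z s) =
      p b * z b - p a * z a - ∫ s in a..b, p s * (z' s - κ s * z s) := by
  have hpc : ContinuousOn p (Icc a b) := fun s _ => (hp s).continuousAt.continuousWithinAt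
  have h1 : PWC (fun s => g s * z s) a b := .of_continuousOn (hg.mul hz.cont)
  have h2 : PWC (fun s => p s * (z' s - κ s * z s)) a b :=
    (PWC.of_continuousOn hpc).mul (hz.pwc.sub (.of_continuousOn (hκc.mul hz.cont)))
  obtain ⟨S, h⟩ := hz.der
  rw [← ftc_pwc (F := fun s => p s * z s) hab (hpc.mul hz.cont)
    ⟨S, fun s hs hn => ((hp s).mul (h s hs hn)).congr_deriv
      (show _ = g s * z s + p s * (z' s - κ s * z s) by ring)⟩ (h1.add h2),
    integral_add (h1.intervalIntegrable hab) (h2.intervalIntegrable hab)]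
  ring

/-- The Cauchy-Schwarz inequality on an interval. -/
lemma integral_mul_sq_le (hab : a ≤ b) (hp : PWC p a b) (hr : PWC r a b) :
    (∫ s in a..b, p s * r s) ^ 2 ≤ (∫ s in a..b, p s ^ 2) * ∫ s in a..b, r s ^ 2 := by
  have h1 := hp.sq.intervalIntegrable hab
  have h2 := (hp.mul hr).intervalIntegrable hab
  have h3 := hr.sq.intervalIntegrable hab
  have key : ∀ x : ℝ, 0 ≤ (∫ s in a..b, r s ^ 2) * (x * x) +
      (2 * ∫ s in a..b, p s * r s) * x + ∫ s in a..b, p s ^ 2 := by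
    intro x
    have hint : 0 ≤ ∫ s in a..b, (p s + x * r s) ^ 2 :=
      integral_nonneg hab fun s _ => sq_nonneg _
    have he : (∫ s in a..b, (p s + x * r s) ^ 2) =
        ∫ s in a..b, (p s ^ 2 + (2 * x) * (p s * r s) + x ^ 2 * r s ^ 2) := by
      refine integral_congr fun s _ => ?_
      ring
    rw [he, integral_add (h1.add (h2.const_mul _)) (h3.const_mul _),
      integral_add h1 (h2.const_mul _),
      intervalIntegral.integral_const_mul, intervalIntegral.integral_const_mul] at hint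
    nlinarith
  have := discrim_le_zero key
  rw [discrim] at this
  nlinarith

end Vale.Agent.P255
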