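import Vale.Agent.P255.Collar.Turn

/-!
Scalar tools for passages: reversal and extension of piecewise differentiable functions, and the
uniqueness lemma for the reflected excursion.
-/

open Set Filter MeasureTheory intervalIntegral
open scoped ContDiff Topology

namespace Vale.Agent.P255

noncomputable section

variable {a b c d S S' : ℝ} {f g z z' : ℝ → ℝ}

/-- A linear differential inequality forces zero. -/
lemma gronwall_zero {f g h : ℝ → ℝ} {L : ℝ} (hf : ∀ s ∈ Icc a b, HasDerivAt f (g s) s)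
    (hg : ∀ s ∈ Icc a b, HasDerivAt g (h s) s) (hh : ∀ s ∈ Icc a b, |h s| ≤ L * |f s|)
    (hc : c ∈ Icc a b) (hf0 : f c = 0) (hg0 : g c = 0) :
    ∀ s ∈ Icc a b, f s = 0 ∧ g s = 0 := by
  set K := 1 + |L|
  have hd : ∀ s ∈ Icc a b,
      HasDerivAt (fun r => f r ^ 2 + g r ^ 2) (2 * f s * g s + 2 * g s * h s) s := fun s hs =>
    (((hf s hs).pow 2).add ((hg s hs).pow 2)).congr_deriv (by simp)
  have hb : ∀ s ∈ Icc a b, |2 * f s * g s + 2 * g s * h s| ≤ K * (f s ^ 2 + g s ^ 2) := by
    intro s hs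
    have h1 : 2 * |f s| * |g s| ≤ f s ^ 2 + g s ^ 2 := by
      nlinarith [sq_nonneg (|f s| - |g s|), sq_abs (f s), sq_abs (g s)]
    calc |2 * f s * g s + 2 * g s * h s| ≤ |2 * f s * g s| + |2 * g s * h s| := abs_add_le _ _
      _ ≤ 2 * |f s| * |g s| + 2 * |g s| * (|L| * |f s|) := by
          simp only [abs_mul, abs_two]
          gcongr
          exact (hh s hs).trans (mul_le_mul_of_nonneg_right (le_abs_self L) (abs_nonneg _))
      _ = K * (2 * |f s| * |g s|) := by ring
      _ ≤ _ := mul_le_mul_of_nonneg_left h1 (by positivity)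
  have e1 : MonotoneOn (fun r => Real.exp (K * r) * (f r ^ 2 + g r ^ 2)) (Icc a b) := by
    refine monotoneOn_of_hasDerivWithinAt_nonneg (convex_Icc a b)
      (f' := fun r => Real.exp (K * r) * (K * (f r ^ 2 + g r ^ 2) + (2 * f r * g r + 2 * g r * h r)))
      (fun r hr => (((hasDerivAt_id' r).const_mul K).exp.mul
        (hd r hr)).continuousAt.continuousWithinAt) ?_ ?_
    · intro r hr
      rw [interior_Icc] at hr
      exact ((((hasDerivAt_id' r).const_mul K).exp.mul (hd r (Ioo_subset_Icc_self hr))).congr_deriv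
        (by ring)).hasDerivWithinAt
    · intro r hr
      rw [interior_Icc] at hr
      have := (abs_le.1 (hb r (Ioo_subset_Icc_self hr))).1
      exact mul_nonneg (Real.exp_pos _).le (by linarith)
  have e2 : AntitoneOn (fun r => Real.exp (-K * r) * (f r ^ 2 + g r ^ 2)) (Icc a b) := by
    refine antitoneOn_of_hasDerivWithinAt_nonpos (convex_Icc a b)
      (f' := fun r => Real.exp (-K * r) * (-K * (f r ^ 2 + g r ^ 2) + (2 * f r * g r + 2 * g r * h r)))
      (fun r hr => (((hasDerivAt_id' r).const_mul (-K)).exp.mul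
        (hd r hr)).continuousAt.continuousWithinAt) ?_ ?_
    · intro r hr
      rw [interior_Icc] at hr
      exact ((((hasDerivAt_id' r).const_mul (-K)).exp.mul (hd r (Ioo_subset_Icc_self hr))).congr_deriv
        (by ring)).hasDerivWithinAt
    · intro r hr
      rw [interior_Icc] at hr
      have := (abs_le.1 (hb r (Ioo_subset_Icc_self hr))).2
      exact mul_nonpos_of_nonneg_of_nonpos (Real.exp_pos _).le (by linarith)
  intro s hs
  have hle : f s ^ 2 + g s ^ 2 ≤ 0 := by
    rcases le_total s c with hsc | hsc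
    · have := e1 hs hc hsc
      simp only [hf0, hg0] at this
      nlinarith [Real.exp_pos (K * s)]
    · have := e2 hc hs hsc
      simp only [hf0, hg0] at this
      nlinarith [Real.exp_pos (-K * s)]
  constructor <;> nlinarith [sq_nonneg (f s), sq_nonneg (g s)]

/-- At a right end where a function is largest its derivative is nonnegative. -/
lemma deriv_nonneg_right_end {f' : ℝ} (hab : a < b) (hd : HasDerivAt f f' b)
    (hle : ∀ s ∈ Ioo a b, f s ≤ f b) : 0 ≤ f' := by
  refine ge_of_tendsto ((hasDerivAt_iff_tendsto_slope.1 hd).mono_left (nhdsLT_le_nhdsNE b)) ?_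
  filter_upwards [Ioo_mem_nhdsLT hab] with s hs
  rw [slope_def_field]
  exact div_nonneg_of_nonpos (by linarith [hle s hs]) (by linarith [hs.2])

/-- At a left end where a function is largest its derivative is nonpositive. -/
lemma deriv_nonpos_left_end {f' : ℝ} (hab : a < b) (hd : HasDerivAt f f' a)
    (hle : ∀ s ∈ Ioo a b, f s ≤ f a) : f' ≤ 0 := by
  refine le_of_tendsto ((hasDerivAt_iff_tendsto_slope.1 hd).mono_left (nhdsGT_le_nhdsNE a)) ?_
  filter_upwards [Ioo_mem_nhdsGT hab] with s hs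
  rw [slope_def_field]
  exact div_nonpos_of_nonpos_of_nonneg (by linarith [hle s hs]) (by linarith [hs.1])

lemma PWC.shift (hf : PWC f a b) (c : ℝ) : PWC (fun r => f (c + r)) (a - c) (b - c) := by
  classical
  obtain ⟨T, C, h⟩ := hf
  refine ⟨T.image (fun s => s - c), C, fun r hr hn => ?_⟩
  have hn' : c + r ∉ T := fun hm => hn (Finset.mem_image.2 ⟨c + r, hm, by ring⟩)
  obtain ⟨h1, h2⟩ := h (c + r) ⟨by linarith [hr.1], by linarith [hr.2]⟩ hn'
  exact ⟨h1.comp (f := fun r => c + r) (by fun_prop), h2⟩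

lemma PWC.reflect (hf : PWC f a b) (c : ℝ) : PWC (fun r => f (c - r)) (c - b) (c - a) := by
  classical
  obtain ⟨T, C, h⟩ := hf
  refine ⟨T.image (fun s => c - s), C, fun r hr hn => ?_⟩
  have hn' : c - r ∉ T := fun hm => hn (Finset.mem_image.2 ⟨c - r, hm, by ring⟩)
  obtain ⟨h1, h2⟩ := h (c - r) ⟨by linarith [hr.2], by linarith [hr.1]⟩ hn'
  exact ⟨h1.comp (f := fun r => c - r) (by fun_prop), h2⟩

lemma PW.shift (hz : PW z z' a b) (c : ℝ) :
    PW (fun r => z (c + r)) (fun r => z' (c + r)) (a - c) (b - c) := by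
  classical
  obtain ⟨T, h⟩ := hz.der
  refine ⟨hz.cont.comp (by fun_prop) fun r hr => ⟨by linarith [hr.1], by linarith [hr.2]⟩,
    hz.pwc.shift c, T.image (fun s => s - c), fun r hr hn => ?_⟩
  have hn' : c + r ∉ T := fun hm => hn (Finset.mem_image.2 ⟨c + r, hm, by ring⟩)
  exact (h (c + r) ⟨by linarith [hr.1], by linarith [hr.2]⟩ hn').comp_const_add c r

lemma PW.reflect (hz : PW z z' a b) (c : ℝ) :
    PW (fun r => z (c - r)) (fun r => -z' (c - r)) (c - b) (c - a) := by
  classical
  obtain ⟨T, h⟩ := hz.der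
  refine ⟨hz.cont.comp (by fun_prop) fun r hr => ⟨by linarith [hr.2], by linarith [hr.1]⟩,
    (hz.pwc.reflect c).neg, T.image (fun s => c - s), fun r hr hn => ?_⟩
  have hn' : c - r ∉ T := fun hm => hn (Finset.mem_image.2 ⟨c - r, hm, by ring⟩)
  exact (h (c - r) ⟨by linarith [hr.2], by linarith [hr.1]⟩ hn').comp_const_sub c r

/-- Extension of a function by zero beyond `S`. -/
def extZ (S : ℝ) (f : ℝ → ℝ) (r : ℝ) : ℝ := if r ≤ S then f r else 0

lemma extZ_of_le {r : ℝ} (h : r ≤ S) : extZ S f r = f r := if_pos h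

lemma extZ_of_lt {r : ℝ} (h : S < r) : extZ S f r = 0 := if_neg (not_le.2 h)

lemma PW.ext (hz : PW z z' 0 S) (hS : 0 ≤ S) (hSS : S ≤ S') (h0 : S = S' ∨ z S = 0) :
    PW (extZ S z) (extZ S z') 0 S' := by
  classical
  obtain ⟨T, hT⟩ := hz.der
  obtain ⟨U, C, hU⟩ := hz.pwc
  have hin : ∀ r, r < S → ∀ f : ℝ → ℝ, extZ S f =ᶠ[𝓝 r] f := fun r hr f => by
    filter_upwards [Iio_mem_nhds hr] with u hu using extZ_of_le hu.le
  have hout : ∀ r, S < r → ∀ f : ℝ → ℝ, extZ S f =ᶠ[𝓝 r] fun _ => 0 := fun r hr f => by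
    filter_upwards [Ioi_mem_nhds hr] with u hu using extZ_of_lt hu
  refine ⟨?_, ⟨insert S U, |C|, fun r hr hn => ?_⟩, insert S T, fun r hr hn => ?_⟩
  · rcases eq_or_lt_of_le hSS with he | he
    · subst he
      exact hz.cont.congr fun r hr => extZ_of_le hr.2
    have hzS : z S = 0 := h0.resolve_left he.ne
    have h1 : ContinuousOn (extZ S z) (Icc 0 S ∪ Icc S S') := by
      refine ContinuousOn.union_of_isClosed (hz.cont.congr fun r hr => extZ_of_le hr.2) ?_
        isClosed_Icc isClosed_Icc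
      refine (continuousOn_const (c := (0 : ℝ))).congr fun r hr => ?_
      rcases eq_or_lt_of_le hr.1 with h | h
      · rw [← h, extZ_of_le le_rfl, hzS]
      · exact extZ_of_lt h
    rwa [Icc_union_Icc_eq_Icc hS hSS] at h1
  · rw [Finset.mem_insert, not_or] at hn
    rcases lt_or_gt_of_ne hn.1 with h | h
    · refine ⟨(hU r ⟨hr.1, h⟩ hn.2).1.congr (hin r h z').symm, ?_⟩
      rw [extZ_of_le h.le]
      exact (hU r ⟨hr.1, h⟩ hn.2).2.trans (le_abs_self C)
    · refine ⟨continuousAt_const.congr (hout r h z').symm, ?_⟩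
      rw [extZ_of_lt h, abs_zero]
      exact abs_nonneg C
  · rw [Finset.mem_insert, not_or] at hn
    rcases lt_or_gt_of_ne hn.1 with h | h
    · rw [extZ_of_le h.le]
      exact (hT r ⟨hr.1, h⟩ hn.2).congr_of_eventuallyEq (hin r h z)
    · rw [extZ_of_lt h]
      exact (hasDerivAt_const r 0).congr_of_eventuallyEq (hout r h z)

end

end Vale.Agent.P255
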