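import Mathlib

/-!
Calculus of `expNegInvGlue` used in the collar inequalities.
-/

open Real MeasureTheory intervalIntegral Set

namespace Vale.Agent.P255


lemma hasDerivAt_glue (x : ℝ) : HasDerivAt expNegInvGlue (expNegInvGlue x * x⁻¹ ^ 2) x := by
  have h := expNegInvGlue.hasDerivAt_polynomial_eval_inv_mul (1 : Polynomial ℝ) x
  simpa [mul_comm] using h

lemma glue_le_one (x : ℝ) : expNegInvGlue x ≤ 1 := by
  unfold expNegInvGlue
  split_ifs with h
  · norm_num
  · rw [exp_le_one_iff]; simp; push Not at h; positivity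

lemma glue_eq_of_pos {x : ℝ} (hx : 0 < x) : expNegInvGlue x = exp (-x⁻¹) := by
  simp [expNegInvGlue, not_le.2 hx]

/-- Comparison of two values at positive arguments. -/
lemma glue_ge_of_le {x y : ℝ} (hy : 0 < y) (hyx : y ≤ x) :
    expNegInvGlue x * (1 - (x - y) / (x * y)) ≤ expNegInvGlue y := by
  have hx : 0 < x := hy.trans_le hyx
  rw [glue_eq_of_pos hx, glue_eq_of_pos hy]
  have h : exp (-y⁻¹) = exp (-x⁻¹) * exp (-((x - y) / (x * y))) := by
    rw [← exp_add]; congr 1; field_simp; ring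
  rw [h]
  gcongr
  have := add_one_le_exp (-((x - y) / (x * y)))
  linarith

/-- The excess of the integral of the glue function over a rectangle. -/
theorem glue_excess {x₀ x : ℝ} (h₀ : 0 ≤ x₀) (h : x₀ ≤ x) (hx : x ≤ 4) :
    (x - x₀) ^ 2 * expNegInvGlue x / 128 ≤ ∫ y in x₀..x, (expNegInvGlue y - expNegInvGlue x₀) := by
  rcases h.eq_or_lt with rfl | hlt
  · simp
  have hxpos : 0 < x := h₀.trans_lt hlt
  have hcont : Continuous expNegInvGlue := (expNegInvGlue.contDiff (n := 0)).continuous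
  have hI : ∀ u v : ℝ, IntervalIntegrable (fun y => expNegInvGlue y - expNegInvGlue x₀) volume u v := fun u v =>
    (hcont.sub continuous_const).intervalIntegrable u v
  have hfx : 0 ≤ expNegInvGlue x := expNegInvGlue.nonneg x
  by_cases hcase : expNegInvGlue x₀ ≤ expNegInvGlue x / 2
  · set w := min (x - x₀) (x ^ 2 / 8) with hw
    have hw0 : 0 ≤ w := le_min (by linarith) (by positivity)
    have hwh : w ≤ x - x₀ := min_le_left _ _
    have hwx : w ≤ x ^ 2 / 8 := min_le_right _ _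
    have hlow : ∀ y ∈ Icc (x - w) x, expNegInvGlue x / 4 ≤ expNegInvGlue y - expNegInvGlue x₀ := by
      intro y hy
      have hy2 : x / 2 ≤ y := by nlinarith [hy.1]
      have hypos : 0 < y := by linarith
      have hq : (x - y) / (x * y) ≤ 1 / 4 := by
        rw [div_le_iff₀ (by positivity)]
        nlinarith [hy.1, mul_le_mul_of_nonneg_left hy2 hxpos.le]
      have := glue_ge_of_le hypos hy.2
      nlinarith [mul_le_mul_of_nonneg_left (sub_le_sub_left hq 1) hfx]
    have hnn : ∀ y ∈ Icc x₀ (x - w), 0 ≤ expNegInvGlue y - expNegInvGlue x₀ := fun y hy =>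
      sub_nonneg.2 (expNegInvGlue.monotone hy.1)
    rw [← integral_add_adjacent_intervals (hI x₀ (x - w)) (hI (x - w) x)]
    have h1 : 0 ≤ ∫ y in x₀..(x - w), (expNegInvGlue y - expNegInvGlue x₀) :=
      integral_nonneg (by linarith) hnn
    have h2 : w * (expNegInvGlue x / 4) ≤ ∫ y in (x - w)..x, (expNegInvGlue y - expNegInvGlue x₀) := by
      have := integral_mono_on (by linarith : x - w ≤ x)
        (intervalIntegrable_const (c := expNegInvGlue x / 4)) (hI _ _) hlow
      simp only [intervalIntegral.integral_const, smul_eq_mul, sub_sub_cancel] at this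
      exact this
    have h3 : (x - x₀) ^ 2 / 32 ≤ w := by
      rw [hw]
      refine le_min ?_ ?_
      · nlinarith
      · nlinarith
    nlinarith [mul_le_mul_of_nonneg_right h3 hfx]
  · push Not at hcase
    have hx₀ : 0 < x₀ := by
      rcases h₀.eq_or_lt with rfl | h' 
      · rw [expNegInvGlue.zero] at hcase; linarith
      · exact h'
    have hgap : x - x₀ ≤ x ^ 2 := by
      have h1 : expNegInvGlue x₀ * (1 + (x - x₀) / (x * x₀)) ≤ expNegInvGlue x := by
        rw [glue_eq_of_pos hxpos, glue_eq_of_pos hx₀]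
        have : exp (-x⁻¹) = exp (-x₀⁻¹) * exp ((x - x₀) / (x * x₀)) := by
          rw [← exp_add]; congr 1; field_simp; ring
        rw [this]
        gcongr
        linarith [add_one_le_exp ((x - x₀) / (x * x₀))]
      have hpos : 0 < expNegInvGlue x₀ := expNegInvGlue.pos_of_pos hx₀
      have h2 : (x - x₀) / (x * x₀) < 1 := by nlinarith
      rw [div_lt_one (by positivity)] at h2
      nlinarith
    have hderiv : ∀ y ∈ interior (Icc x₀ x), expNegInvGlue x / (2 * x ^ 2) ≤ deriv expNegInvGlue y := by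
      intro y hy
      rw [interior_Icc] at hy
      have hypos : 0 < y := hx₀.trans hy.1
      rw [(hasDerivAt_glue y).deriv]
      have h1 : expNegInvGlue x / 2 ≤ expNegInvGlue y := hcase.le.trans (expNegInvGlue.monotone hy.1.le)
      have h2 : (x ^ 2)⁻¹ ≤ y⁻¹ ^ 2 := by
        rw [inv_pow]; gcongr; exact hy.2.le
      calc expNegInvGlue x / (2 * x ^ 2) = expNegInvGlue x / 2 * (x ^ 2)⁻¹ := by field_simp
        _ ≤ expNegInvGlue y * y⁻¹ ^ 2 := mul_le_mul h1 h2 (by positivity) (expNegInvGlue.nonneg y)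
    have hlow : ∀ y ∈ Icc x₀ x, expNegInvGlue x / (2 * x ^ 2) * (y - x₀) ≤ expNegInvGlue y - expNegInvGlue x₀ := fun y hy =>
      (convex_Icc x₀ x).mul_sub_le_image_sub_of_le_deriv hcont.continuousOn
        (fun z _ => (hasDerivAt_glue z).differentiableAt.differentiableWithinAt)
        hderiv x₀ (left_mem_Icc.2 h) y hy hy.1
    have hint : IntervalIntegrable (fun y => expNegInvGlue x / (2 * x ^ 2) * (y - x₀)) volume x₀ x :=
      (by fun_prop : Continuous fun y => expNegInvGlue x / (2 * x ^ 2) * (y - x₀)).intervalIntegrable _ _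
    have h1 := integral_mono_on h hint (hI _ _) hlow
    have h2 : ∫ y in x₀..x, expNegInvGlue x / (2 * x ^ 2) * (y - x₀) =
        expNegInvGlue x / (4 * x ^ 2) * (x - x₀) ^ 2 := by
      rw [intervalIntegral.integral_const_mul,
        intervalIntegral.integral_comp_sub_right (fun y => y)]
      rw [integral_id]; field_simp; ring
    have h3 : (x - x₀) ^ 2 * expNegInvGlue x / 128 ≤ expNegInvGlue x / (4 * x ^ 2) * (x - x₀) ^ 2 := by
      rw [div_mul_eq_mul_div, div_le_div_iff₀ (by norm_num) (by positivity)]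
      have : 4 * x ^ 2 ≤ 128 := by nlinarith
      nlinarith [mul_le_mul_of_nonneg_left this (mul_nonneg hfx (sq_nonneg (x - x₀)))]
    linarith

end Vale.Agent.P255

namespace Vale.Agent.P255

open Real


lemma glue_deriv_le_two (x : ℝ) : expNegInvGlue x * x⁻¹ ^ 2 ≤ 2 := by
  rcases le_or_gt x 0 with hx | hx
  · simp [expNegInvGlue.zero_of_nonpos hx]
  · rw [glue_eq_of_pos hx, exp_neg]
    have hpos : 0 < exp x⁻¹ := exp_pos _
    have := quadratic_le_exp_of_nonneg (inv_nonneg.2 hx.le)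
    rw [inv_mul_le_iff₀ hpos]
    nlinarith [inv_pos.2 hx]

lemma glue_le_deriv {x : ℝ} (hx : x ≤ 3) : expNegInvGlue x ≤ 9 * (expNegInvGlue x * x⁻¹ ^ 2) := by
  rcases le_or_gt x 0 with h0 | h0
  · simp [expNegInvGlue.zero_of_nonpos h0]
  · have h1 : (1 : ℝ) ≤ 9 * x⁻¹ ^ 2 := by
      rw [inv_pow, ← div_eq_mul_inv, le_div_iff₀ (by positivity)]; nlinarith
    nlinarith [mul_le_mul_of_nonneg_left h1 (expNegInvGlue.nonneg x)]

/-- At a turning point the weight of `b` is dominated by that of `a`. -/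
lemma turn_sign {A B a b m : ℝ} (hA : 0 ≤ A) (hA1 : A ≤ 1) (hB : 0 ≤ B) (hB1 : B ≤ 1)
    (hm : |m| ≤ 1 / 4) (h : 0 ≤ A * a ^ 2 - B * b ^ 2 + 2 * m * (A * B) * a * b) :
    B * b ^ 2 ≤ 2 * A * a ^ 2 := by
  have hAB : 0 ≤ A * B := mul_nonneg hA hB
  have h2 : |2 * (a * b)| ≤ a ^ 2 + b ^ 2 := by
    rw [abs_le]; constructor <;> nlinarith [sq_nonneg (a + b), sq_nonneg (a - b)]
  have h4 : 2 * m * (A * B) * a * b ≤ 1 / 4 * ((a ^ 2 + b ^ 2) * (A * B)) :=
    calc 2 * m * (A * B) * a * b ≤ |2 * m * (A * B) * a * b| := le_abs_self _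
      _ = |m| * (|2 * (a * b)| * (A * B)) := by
        rw [show 2 * m * (A * B) * a * b = m * ((2 * (a * b)) * (A * B)) by ring, abs_mul,
          abs_mul, abs_of_nonneg hAB]
      _ ≤ _ := by gcongr
  nlinarith [mul_nonneg (mul_nonneg hA (sub_nonneg.2 hB1)) (sq_nonneg a),
    mul_nonneg (mul_nonneg hB (sub_nonneg.2 hA1)) (sq_nonneg b)]

/-- Lower bound for the second derivative of the path. -/
lemma weight_lower {A B A' B' a b m : ℝ} (hA : 0 ≤ A) (hA1 : A ≤ 1) (hB : 0 ≤ B) (hB1 : B ≤ 1)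
    (hA' : 0 ≤ A') (hA'2 : A' ≤ 2) (hB' : 0 ≤ B') (hB'2 : B' ≤ 2)
    (hAA : A ≤ 9 * A') (hBB : B ≤ 9 * B') (hm : |m| ≤ 1 / 64) :
    (A' * a ^ 2 + B' * b ^ 2) / 2 ≤
      A' * a ^ 2 + B' * b ^ 2 + 2 * m * (A' * B - A * B') * a * b := by
  have h1 : |A' * B * (a * b)| ≤ (A' * a ^ 2 + 18 * (B' * b ^ 2)) / 2 := by
    have key : A' * B ^ 2 ≤ 18 * B' := by nlinarith [mul_le_mul hA'2 hBB hB (by norm_num)]
    rw [abs_le]
    constructor <;> nlinarith [mul_nonneg hA' (sq_nonneg (a + B * b)),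
      mul_nonneg hA' (sq_nonneg (a - B * b)), mul_le_mul_of_nonneg_right key (sq_nonneg b)]
  have h2 : |A * B' * (a * b)| ≤ (18 * (A' * a ^ 2) + B' * b ^ 2) / 2 := by
    have key : B' * A ^ 2 ≤ 18 * A' := by nlinarith [mul_le_mul hB'2 hAA hA (by norm_num)]
    rw [abs_le]
    constructor <;> nlinarith [mul_nonneg hB' (sq_nonneg (b + A * a)),
      mul_nonneg hB' (sq_nonneg (b - A * a)), mul_le_mul_of_nonneg_right key (sq_nonneg a)]
  have h3 : |m * ((A' * B - A * B') * (a * b))| ≤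
      1 / 64 * (19 / 2 * (A' * a ^ 2 + B' * b ^ 2)) := by
    rw [abs_mul]
    refine mul_le_mul hm ?_ (abs_nonneg _) (by norm_num)
    rw [sub_mul]
    refine (abs_sub _ _).trans ?_
    linarith
  have h4 := neg_le_of_abs_le h3
  have h5 : 0 ≤ A' * a ^ 2 + B' * b ^ 2 := by positivity
  nlinarith

end Vale.Agent.P255

namespace Vale.Agent.P255

/-- The final quadratic form at the face of a turning excursion is nonnegative. -/
lemma face_form_nonneg {τ k u P C M p z y : ℝ} (hτ : 0 < τ) (hk : 0 ≤ k) (hM : 0 < M)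
    (hid : k * u ^ 2 = P + C)
    (h : τ * k * C * M + 2 * k * |u| * |p| * τ ≤ P) :
    0 ≤ P / τ * z ^ 2 + (y - p * z) ^ 2 / M + τ * k * y ^ 2 - 2 * k * u * z * y := by
  set α := τ * k + 1 / M with hα
  set β := k * u + p / M with hβ
  set γ := P / τ + p ^ 2 / M with hγ
  have hα0 : 0 < α := by positivity
  have hdisc : β ^ 2 ≤ α * γ := by
    have e : (α * γ - β ^ 2) * (M * τ) =
        -(τ * k * C * M) + P + τ ^ 2 * k * p ^ 2 - 2 * k * u * p * τ := by
      have hku : k ^ 2 * u ^ 2 = k * (P + C) := by rw [← hid]; ring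
      simp only [hα, hβ, hγ]
      field_simp
      linear_combination (-(τ * M ^ 2)) * hku
    have hup : k * u * p ≤ k * |u| * |p| := by
      have : u * p ≤ |u| * |p| := by rw [← abs_mul]; exact le_abs_self _
      nlinarith
    have : 0 ≤ (α * γ - β ^ 2) * (M * τ) := by
      rw [e]; nlinarith [mul_nonneg (mul_nonneg (sq_nonneg τ) hk) (sq_nonneg p),
        mul_le_mul_of_nonneg_right hup hτ.le]
    nlinarith [mul_pos hM hτ]
  have e2 : P / τ * z ^ 2 + (y - p * z) ^ 2 / M + τ * k * y ^ 2 - 2 * k * u * z * y =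
      ((α * y - β * z) ^ 2 + (α * γ - β ^ 2) * z ^ 2) / α := by
    rw [eq_div_iff hα0.ne']
    simp only [hα, hβ, hγ]
    field_simp
    ring
  rw [e2]
  exact div_nonneg (add_nonneg (sq_nonneg _) (mul_nonneg (sub_nonneg.2 hdisc) (sq_nonneg _)))
    hα0.le

/-- Splitting a square over two weights. -/
lemma sq_div_add_le {R q y M T : ℝ} (hR : q ^ 2 ≤ M * R) (hM : 0 < M) (hT : 0 < T) :
    y ^ 2 / (M + T) ≤ R + (y + q) ^ 2 / T := by
  have h1 : y ^ 2 / (M + T) ≤ q ^ 2 / M + (y + q) ^ 2 / T := by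
    rw [div_add_div _ _ hM.ne' hT.ne', div_le_div_iff₀ (by positivity) (by positivity)]
    nlinarith [sq_nonneg (T * q + M * (y + q)), mul_pos hM hT]
  have h2 : q ^ 2 / M ≤ R := by rw [div_le_iff₀ hM]; linarith
  linarith

end Vale.Agent.P255

namespace Vale.Agent.P255

open MeasureTheory intervalIntegral Set

variable {a b : ℝ} {κ g : ℝ → ℝ}

/-- The bounded solution of `p' + κ p = g`, `p a = 0`, under a supersolution. -/
lemma exists_moment_weight {M M' : ℝ → ℝ} (hab : a ≤ b) (hκc : Continuous κ) (hg : Continuous g)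
    (hMc : ContinuousOn M (Icc a b)) (hM0 : 0 ≤ M a)
    (hM : ∀ s ∈ Ioo a b, HasDerivAt M (M' s) s)
    (hsup : ∀ s ∈ Ioo a b, |g s| ≤ M' s + κ s * M s) :
    ∃ p : ℝ → ℝ, p a = 0 ∧ (∀ s, HasDerivAt p (g s - κ s * p s) s) ∧
      ∀ s ∈ Icc a b, |p s| ≤ M s := by
  set Φ : ℝ → ℝ := fun s => ∫ u in a..s, κ u
  have hΦ : ∀ s, HasDerivAt Φ (κ s) s := fun s => hκc.integral_hasStrictDerivAt a s |>.hasDerivAt
  have hΦc : Continuous Φ := continuous_iff_continuousAt.2 fun s => (hΦ s).continuousAt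
  set Ψ : ℝ → ℝ := fun s => ∫ u in a..s, g u * Real.exp (Φ u)
  have hΨ : ∀ s, HasDerivAt Ψ (g s * Real.exp (Φ s)) s := fun s =>
    ((hg.mul (Real.continuous_exp.comp hΦc)).integral_hasStrictDerivAt a s).hasDerivAt
  refine ⟨fun s => Real.exp (-Φ s) * Ψ s, by simp [Ψ], fun s => ?_, ?_⟩
  · refine ((hΦ s).neg.exp.mul (hΨ s)).congr_deriv ?_
    have : Real.exp (-Φ s) * Real.exp (Φ s) = 1 := by rw [← Real.exp_add]; simp
    linear_combination (g s) * this
  · have hmono : ∀ σ : ℝ, |σ| ≤ 1 →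
        MonotoneOn (fun s => Real.exp (Φ s) * M s + σ * Ψ s) (Icc a b) := by
      intro σ hσ
      refine monotoneOn_of_hasDerivWithinAt_nonneg (convex_Icc a b) ?_
        (f' := fun s => Real.exp (Φ s) * (M' s + κ s * M s + σ * g s)) ?_ ?_
      · exact ((Real.continuous_exp.comp hΦc).continuousOn.mul hMc).add
          (continuousOn_const.mul fun s _ => (hΨ s).continuousAt.continuousWithinAt)
      · intro s hs
        rw [interior_Icc] at hs
        exact (((hΦ s).exp.mul (hM s hs)).add ((hΨ s).const_mul σ)).congr_deriv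
          (by ring) |>.hasDerivWithinAt
      · intro s hs
        rw [interior_Icc] at hs
        refine mul_nonneg (Real.exp_pos _).le ?_
        have h1 : |σ * g s| ≤ |g s| := by
          rw [abs_mul]; exact mul_le_of_le_one_left (abs_nonneg _) hσ
        linarith [neg_le_of_abs_le h1, hsup s hs]
    intro s hs
    have h1 := hmono 1 (by simp) (left_mem_Icc.2 hab) hs hs.1
    have h2 := hmono (-1) (by simp) (left_mem_Icc.2 hab) hs hs.1
    simp only [Ψ, Φ, intervalIntegral.integral_same, Real.exp_zero] at h1 h2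
    have he : Real.exp (-Φ s) * Real.exp (Φ s) = 1 := by rw [← Real.exp_add]; simp
    have hpos : 0 < Real.exp (Φ s) := Real.exp_pos _
    show |Real.exp (-Φ s) * Ψ s| ≤ M s
    have hmain : |Ψ s| ≤ Real.exp (Φ s) * M s := abs_le.2 ⟨by simp only [Ψ, Φ]; linarith,
      by simp only [Ψ, Φ]; linarith⟩
    rw [abs_mul, Real.abs_exp]
    calc Real.exp (-Φ s) * |Ψ s| ≤ Real.exp (-Φ s) * (Real.exp (Φ s) * M s) := by gcongr
      _ = M s := by rw [← mul_assoc, he, one_mul]

end Vale.Agent.P255
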