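import Vale.Agent.P255.Collar.Warp

/-!
The collar metric: positivity, smoothness, the quarter turn, and the pairing with the cometric.
-/

open Set Filter
open scoped ContDiff Topology

namespace Vale.Agent.P255

noncomputable section

lemma collarForm_apply (A B C : ℝ) (u w : E3) :
    collarForm A B C u w =
      u.1 * w.1 + A * (u.2.1 * w.2.1) + B * (u.2.2 * w.2.2)
        + C * (u.2.1 * w.2.2 + u.2.2 * w.2.1) := by
  simp [collarForm]
  ring

/-- The `Xa Xa` coefficient of the collar metric. -/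
def gA (N : ℕ) (t : ℝ) : ℝ :=
  if t < -(3 / 2 : ℝ) then 1 + warp N (1 - t) ^ 2 * eps N ^ 2
  else if 3 / 2 < t then warp N (1 + t) ^ 2
  else coB N t / (coA N t * coB N t - coC N t ^ 2)

/-- The `Xb Xb` coefficient of the collar metric. -/
def gB (N : ℕ) (t : ℝ) : ℝ :=
  if t < -(3 / 2 : ℝ) then warp N (1 - t) ^ 2
  else if 3 / 2 < t then 1 + warp N (1 + t) ^ 2 * eps N ^ 2
  else coA N t / (coA N t * coB N t - coC N t ^ 2)

/-- The mixed coefficient of the collar metric. -/
def gC (N : ℕ) (t : ℝ) : ℝ :=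
  if t < -(3 / 2 : ℝ) then warp N (1 - t) ^ 2 * eps N
  else if 3 / 2 < t then -(warp N (1 + t) ^ 2 * eps N)
  else -(coC N t) / (coA N t * coB N t - coC N t ^ 2)

/-- The collar metric as a function of the height. -/
def profMetric (N : ℕ) (t : ℝ) : E3 →L[ℝ] E3 →L[ℝ] ℝ := collarForm (gA N t) (gB N t) (gC N t)

lemma collarMetric_eq (N : ℕ) (y : E3) : collarMetric N y = profMetric N y.1 := by
  simp only [collarMetric, profMetric, gA, gB, gC]
  split_ifs <;> rfl

lemma profMetric_symm (N : ℕ) (t : ℝ) (u w : E3) : profMetric N t u w = profMetric N t w u := by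
  simp only [profMetric, collarForm_apply]; ring

lemma coA_neg (N : ℕ) (t : ℝ) : coA N (-t) = coB N t := by
  simp [coA, coB, sub_eq_add_neg]

lemma coB_neg (N : ℕ) (t : ℝ) : coB N (-t) = coA N t := by
  simp [coA, coB, sub_eq_add_neg]

namespace Small

variable {N : ℕ} {t : ℝ}

lemma coC_neg (h : Small N) (t : ℝ) : coC N (-t) = -coC N t := by
  rw [coC, coC, mixInt_neg, mul_sub, h.eta_mix]; ring

lemma coA_bounds (h : Small N) (ht : t ≤ 7) : 9 / 10 ≤ coA N t ∧ coA N t ≤ 1 := by
  have h1 := mul_le_mul h.eta_le (profInt_le (show 1 + t ≤ 8 by linarith)) (profInt_nonneg _)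
    (by norm_num)
  have h2 : 0 ≤ eta N * profInt (1 + t) := mul_nonneg h.eta_pos.le (profInt_nonneg _)
  unfold coA; constructor <;> linarith

lemma coB_bounds (h : Small N) (ht : -7 ≤ t) : 9 / 10 ≤ coB N t ∧ coB N t ≤ 1 := by
  rw [← coA_neg]; exact h.coA_bounds (by linarith)

lemma coC_sq (h : Small N) (t : ℝ) : coC N t ^ 2 ≤ eps N ^ 2 := by
  have hp : 0 ≤ eta N * mu := mul_nonneg h.eta_pos.le (by norm_num [mu])
  have h1 := mul_le_mul_of_nonneg_left (mixInt_le t) hp
  have h2 := mul_nonneg hp (mixInt_nonneg t)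
  rw [h.eta_mix] at h1
  rw [coC]
  exact sq_le_sq' (by linarith) (by linarith)

lemma det_pos (h : Small N) (ht : t ∈ Icc (-7 : ℝ) 7) :
    0 < coA N t * coB N t - coC N t ^ 2 := by
  have := h.coC_sq t
  have := mul_le_mul (h.coA_bounds ht.2).1 (h.coB_bounds ht.1).1 (by norm_num)
    (by linarith [(h.coA_bounds ht.2).1])
  nlinarith [h.eps_pos, h.eps_le]

lemma plateau (h : Small N) (h1 : 1 ≤ t) (h2 : t ≤ 2) :
    coB N t / (coA N t * coB N t - coC N t ^ 2) = warp N (1 + t) ^ 2 ∧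
    coA N t / (coA N t * coB N t - coC N t ^ 2) = 1 + warp N (1 + t) ^ 2 * eps N ^ 2 ∧
    -(coC N t) / (coA N t * coB N t - coC N t ^ 2) = -(warp N (1 + t) ^ 2 * eps N) := by
  have hB : coB N t = 1 := by rw [coB, profInt_eq_zero (by linarith)]; ring
  have hC : coC N t = eps N := by rw [coC, mixInt_eq_one h1, h.eta_mix]; ring
  have hd : coA N t * coB N t - coC N t ^ 2 = rad N (1 + t) := by
    rw [hB, hC, coA, rad]; ring
  have hA : coA N t = rad N (1 + t) + eps N ^ 2 := by rw [coA, rad]; ring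
  obtain ⟨-, -, hw⟩ := h.warp₀_bounds (show 1 + t ≤ 8 by linarith)
  obtain ⟨hr, -⟩ := h.rad_bounds (show 1 + t ≤ 8 by linarith)
  rw [h.warp_eq (show 1 + t ≤ 3 by linarith), hd, hB, hC, hA]
  have hr0 : rad N (1 + t) ≠ 0 := by linarith
  refine ⟨?_, ?_, ?_⟩ <;> rw [div_eq_iff hr0]
  · exact hw.symm
  · linear_combination (-(eps N ^ 2)) * hw
  · linear_combination (eps N) * hw

lemma g_neg (h : Small N) (t : ℝ) :
    gA N (-t) = gB N t ∧ gB N (-t) = gA N t ∧ gC N (-t) = -gC N t := by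
  simp only [gA, gB, gC]
  rcases lt_or_ge t (-(3 / 2)) with h1 | h1
  · have a : ¬ -t < -(3 / 2 : ℝ) := by linarith
    have b : (3 / 2 : ℝ) < -t := by linarith
    simp [h1, a, b, ← sub_eq_add_neg]
  rcases lt_or_ge (3 / 2) t with h2 | h2
  · have a : -t < -(3 / 2 : ℝ) := by linarith
    simp [not_lt.2 h1, h2, a]
  · have a : ¬ -t < -(3 / 2 : ℝ) := by linarith
    have b : ¬ (3 / 2 : ℝ) < -t := by linarith
    simp [not_lt.2 h1, not_lt.2 h2, a, b, coA_neg, coB_neg, h.coC_neg, mul_comm (coB N t),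
      neg_div]

/-- The formulas on the middle interval. -/
lemma g_mid (h : Small N) (ht : t ∈ Icc (-2 : ℝ) 2) :
    gA N t = coB N t / (coA N t * coB N t - coC N t ^ 2) ∧
    gB N t = coA N t / (coA N t * coB N t - coC N t ^ 2) ∧
    gC N t = -(coC N t) / (coA N t * coB N t - coC N t ^ 2) := by
  have key : ∀ t : ℝ, 3 / 2 < t → t ≤ 2 →
      gA N t = coB N t / (coA N t * coB N t - coC N t ^ 2) ∧
      gB N t = coA N t / (coA N t * coB N t - coC N t ^ 2) ∧
      gC N t = -(coC N t) / (coA N t * coB N t - coC N t ^ 2) := by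
    intro t h1 h2
    obtain ⟨a, b, c⟩ := h.plateau (t := t) (by linarith) h2
    have : ¬ t < -(3 / 2 : ℝ) := by linarith
    simp only [gA, gB, gC, this, h1, if_true, if_false]
    exact ⟨a.symm, b.symm, c.symm⟩
  rcases lt_or_ge t (-(3 / 2)) with h1 | h1
  · obtain ⟨a, b, c⟩ := key (-t) (by linarith) (by linarith [ht.1])
    obtain ⟨a', b', c'⟩ := h.g_neg t
    rw [a', coA_neg, coB_neg, h.coC_neg, neg_sq, mul_comm (coB N t)] at a
    rw [b', coA_neg, coB_neg, h.coC_neg, neg_sq, mul_comm (coB N t)] at b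
    rw [c', coA_neg, coB_neg, h.coC_neg, neg_sq, mul_comm (coB N t)] at c
    refine ⟨b, a, ?_⟩
    rw [neg_neg] at c
    rw [neg_div]; linarith
  rcases lt_or_ge (3 / 2) t with h2 | h2
  · exact key t h2 ht.2
  · simp [gA, gB, gC, not_lt.2 h1, not_lt.2 h2]

/-- The formulas on the right side. -/
lemma g_right (h : Small N) (ht : 1 ≤ t) :
    gA N t = warp N (1 + t) ^ 2 ∧ gB N t = 1 + warp N (1 + t) ^ 2 * eps N ^ 2 ∧
    gC N t = -(warp N (1 + t) ^ 2 * eps N) := by
  rcases le_or_gt t 2 with h2 | h2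
  · obtain ⟨a, b, c⟩ := h.g_mid (t := t) ⟨by linarith, h2⟩
    obtain ⟨a', b', c'⟩ := h.plateau ht h2
    exact ⟨a.trans a', b.trans b', c.trans c'⟩
  · have : ¬ t < -(3 / 2 : ℝ) := by linarith
    simp [gA, gB, gC, this, show (3 / 2 : ℝ) < t by linarith]

lemma g_pos (h : Small N) (ht : t ∈ Ioo (-5 : ℝ) 5) :
    0 < gA N t ∧ 0 < gA N t * gB N t - gC N t ^ 2 := by
  simp only [gA, gB, gC]
  split_ifs with h1 h2
  · have := (h.warp_bounds (show 1 - t ≤ 8 by linarith [ht.1])).1
    refine ⟨by positivity, ?_⟩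
    have : 0 < warp N (1 - t) ^ 2 := by positivity
    linarith [show (1 + warp N (1 - t) ^ 2 * eps N ^ 2) * warp N (1 - t) ^ 2
      - (warp N (1 - t) ^ 2 * eps N) ^ 2 = warp N (1 - t) ^ 2 by ring]
  · have := (h.warp_bounds (show 1 + t ≤ 8 by linarith [ht.2])).1
    have : 0 < warp N (1 + t) ^ 2 := by positivity
    refine ⟨this, ?_⟩
    linarith [show warp N (1 + t) ^ 2 * (1 + warp N (1 + t) ^ 2 * eps N ^ 2)
      - (-(warp N (1 + t) ^ 2 * eps N)) ^ 2 = warp N (1 + t) ^ 2 by ring]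
  · have hI : t ∈ Icc (-7 : ℝ) 7 := ⟨by linarith [ht.1], by linarith [ht.2]⟩
    have hd := h.det_pos hI
    have hb := (h.coB_bounds hI.1).1
    refine ⟨div_pos (by linarith) hd, ?_⟩
    generalize coA N t = A, coB N t = B, coC N t = C at hd
    have : B / (A * B - C ^ 2) * (A / (A * B - C ^ 2)) - (-C / (A * B - C ^ 2)) ^ 2
        = 1 / (A * B - C ^ 2) := by field_simp
    rw [this]; positivity

lemma contDiffAt_g (h : Small N) (ht : t ∈ Ioo (-5 : ℝ) 5) :
    ContDiffAt ℝ ∞ (gA N) t ∧ ContDiffAt ℝ ∞ (gB N) t ∧ ContDiffAt ℝ ∞ (gC N) t := by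
  have hr : ∀ t, 1 < t →
      ContDiffAt ℝ ∞ (gA N) t ∧ ContDiffAt ℝ ∞ (gB N) t ∧ ContDiffAt ℝ ∞ (gC N) t := by
    intro t ht
    have hw : ContDiffAt ℝ ∞ (fun s => warp N (1 + s)) t :=
      (h.contDiff_warp.comp (contDiff_const.add contDiff_id)).contDiffAt
    have hnhds := Ioi_mem_nhds ht
    refine ⟨(hw.pow 2).congr_of_eventuallyEq ?_,
      ((contDiffAt_const (c := (1 : ℝ))).add
        ((hw.pow 2).mul (contDiffAt_const (c := eps N ^ 2)))).congr_of_eventuallyEq ?_,
      ((hw.pow 2).mul (contDiffAt_const (c := eps N))).neg.congr_of_eventuallyEq ?_⟩ <;>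
    filter_upwards [hnhds] with s hs
    · exact (h.g_right (le_of_lt hs)).1
    · exact (h.g_right (le_of_lt hs)).2.1
    · exact (h.g_right (le_of_lt hs)).2.2
  rcases lt_or_ge 1 t with h1 | h1
  · exact hr t h1
  rcases lt_or_ge t (-1) with h2 | h2
  · obtain ⟨a, b, c⟩ := hr (-t) (by linarith)
    have hcomp : ∀ {f g : ℝ → ℝ}, ContDiffAt ℝ ∞ f (-t) → (∀ s, g s = f (-s)) →
        ContDiffAt ℝ ∞ g t := fun {f g} hf hg => by
      rw [funext hg]; exact hf.comp t contDiffAt_id.neg
    refine ⟨hcomp b fun s => (h.g_neg s).2.1.symm, hcomp a fun s => (h.g_neg s).1.symm, ?_⟩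
    have := (hcomp c (g := fun s => gC N (-s)) fun s => rfl).neg
    simpa [(h.g_neg _).2.2] using this
  · have hnhds : Icc (-2 : ℝ) 2 ∈ 𝓝 t := Icc_mem_nhds (by linarith) (by linarith)
    have hA : ContDiffAt ℝ ∞ (coA N) t := by
      unfold coA
      exact contDiffAt_const.sub (contDiffAt_const.mul
        (contDiff_profInt.comp (contDiff_const.add contDiff_id)).contDiffAt)
    have hB : ContDiffAt ℝ ∞ (coB N) t := by
      unfold coB
      exact contDiffAt_const.sub (contDiffAt_const.mul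
        (contDiff_profInt.comp (contDiff_const.sub contDiff_id)).contDiffAt)
    have hC : ContDiffAt ℝ ∞ (coC N) t := by
      unfold coC
      exact contDiffAt_const.add (contDiffAt_const.mul contDiff_mixInt.contDiffAt)
    have hd : ContDiffAt ℝ ∞ (fun s => coA N s * coB N s - coC N s ^ 2) t :=
      (hA.mul hB).sub (hC.pow 2)
    have hne := (h.det_pos (t := t) ⟨by linarith, by linarith⟩).ne'
    refine ⟨(hB.div hd hne).congr_of_eventuallyEq ?_, (hA.div hd hne).congr_of_eventuallyEq ?_,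
      (hC.neg.div hd hne).congr_of_eventuallyEq ?_⟩ <;>
    filter_upwards [hnhds] with s hs
    · exact (h.g_mid hs).1
    · exact (h.g_mid hs).2.1
    · exact (h.g_mid hs).2.2

set_option maxSynthPendingDepth 3 in
lemma contDiffAt_profMetric (h : Small N) (ht : t ∈ Ioo (-5 : ℝ) 5) :
    ContDiffAt ℝ ∞ (profMetric N) t := by
  obtain ⟨a, b, c⟩ := h.contDiffAt_g ht
  unfold profMetric collarForm
  exact ((contDiffAt_const.add (a.smul contDiffAt_const)).add (b.smul contDiffAt_const)).add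
    (c.smul contDiffAt_const)

lemma profMetric_pos (h : Small N) (ht : t ∈ Ioo (-5 : ℝ) 5) {v : E3} (hv : v ≠ 0) :
    0 < profMetric N t v v := by
  obtain ⟨hA, hD⟩ := h.g_pos ht
  obtain ⟨x, y, z⟩ := v
  simp only [profMetric, collarForm_apply]
  generalize gA N t = A, gB N t = B, gC N t = C at hA hD
  have key : A * (A * (y * y) + B * (z * z) + C * (y * z + z * y)) =
      (A * y + C * z) ^ 2 + (A * B - C ^ 2) * z ^ 2 := by ring
  rcases eq_or_ne z 0 with hz | hz
  · subst hz
    rcases eq_or_ne y 0 with hy | hy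
    · subst hy
      have hx : x ≠ 0 := fun hx => hv (by simp [hx])
      nlinarith [mul_self_pos.2 hx]
    · nlinarith [mul_pos hA (mul_self_pos.2 hy), mul_self_nonneg x]
  · have : 0 < (A * y + C * z) ^ 2 + (A * B - C ^ 2) * z ^ 2 := by
      have : 0 < z ^ 2 := by positivity
      positivity
    rw [← key] at this
    nlinarith [mul_self_nonneg x, pos_of_mul_pos_right this hA.le]

lemma isMetricOn (h : Small N) : P216.Chord.IsMetricOn collarSet (collarMetric N) where
  isOpen := isOpen_Ioo.preimage continuous_fst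
  smooth := by
    intro y hy
    rw [funext (collarMetric_eq N)]
    exact ((h.contDiffAt_profMetric hy).comp y contDiffAt_fst).contDiffWithinAt
  symm y _ u w := by simp only [collarMetric_eq, profMetric_symm]
  pos y hy v hv := by rw [collarMetric_eq]; exact h.profMetric_pos hy hv

lemma turn_eq (h : Small N) (y u w : E3) :
    collarMetric N (collarTurn y) (collarTurn u) (collarTurn w) = collarMetric N y u w := by
  have hy : (collarTurn y).1 = -y.1 := by simp [collarTurn]
  obtain ⟨a, b, c⟩ := h.g_neg y.1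
  simp only [collarMetric_eq, hy, profMetric, collarForm_apply, a, b, c]
  simp [collarTurn]
  ring

end Small

/-- The velocity on the torus of the momentum `(a, b)`. -/
def coVel (N : ℕ) (a b t : ℝ) : E3 :=
  (0, coA N t * a + coC N t * b, coC N t * a + coB N t * b)

lemma Small.profMetric_coVel {N : ℕ} (h : Small N) {t : ℝ} (ht : t ∈ Icc (-2 : ℝ) 2) (a b : ℝ)
    (w : E3) : profMetric N t (coVel N a b t) w = a * w.2.1 + b * w.2.2 := by
  obtain ⟨e1, e2, e3⟩ := h.g_mid ht
  have hd := h.det_pos (t := t) ⟨by linarith [ht.1], by linarith [ht.2]⟩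
  simp only [profMetric, collarForm_apply, coVel, e1, e2, e3, div_mul_eq_mul_div, ← add_div,
    zero_mul, zero_add]
  rw [div_eq_iff hd.ne']
  ring

end

end Vale.Agent.P255
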