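import Vale.Agent.P255.Collar.Outer
import Vale.Agent.P255.Collar.Anal

/-!
Geodesics in the middle of the collar and the coordinate form of the index form.
-/

open Set Filter MeasureTheory intervalIntegral
open scoped ContDiff Topology

namespace Vale.Agent.P255

noncomputable section

/-- The height derivative of the velocity on the torus. -/
def coVelD (N : ℕ) (a b t : ℝ) : E3 :=
  (0, eta N * (-(prof (1 + t) * a) + mu * (prof (1 + t) * prof (1 - t)) * b),
    eta N * (mu * (prof (1 + t) * prof (1 - t)) * a + prof (1 - t) * b))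

/-- The height acceleration of a geodesic of momentum `(a, b)`. -/
def tauD (N : ℕ) (a b t : ℝ) : ℝ :=
  eta N / 2 * (prof (1 + t) * a ^ 2 - prof (1 - t) * b ^ 2
    - 2 * mu * (prof (1 + t) * prof (1 - t)) * a * b)

/-- The derivative of the acceleration in the height. -/
def potW (N : ℕ) (a b t : ℝ) : ℝ :=
  eta N / 2 * (profD (1 + t) * a ^ 2 + profD (1 - t) * b ^ 2
    - 2 * mu * (profD (1 + t) * prof (1 - t) - prof (1 + t) * profD (1 - t)) * a * b)

lemma hasDerivAt_prof_add (t : ℝ) : HasDerivAt (fun s => prof (1 + s)) (profD (1 + t)) t :=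
  (hasDerivAt_prof (1 + t)).comp_const_add 1 t

lemma hasDerivAt_prof_sub (t : ℝ) : HasDerivAt (fun s => prof (1 - s)) (-profD (1 - t)) t :=
  (hasDerivAt_prof (1 - t)).comp_const_sub 1 t

lemma hasDerivAt_tauD (N : ℕ) (a b t : ℝ) : HasDerivAt (tauD N a b) (potW N a b t) t := by
  have h := ((((hasDerivAt_prof_add t).mul_const (a ^ 2)).sub
    ((hasDerivAt_prof_sub t).mul_const (b ^ 2))).sub
    (((((hasDerivAt_prof_add t).mul (hasDerivAt_prof_sub t)).const_mul (2 * mu)).mul_const a).mul_const b)).const_mul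
      (eta N / 2)
  exact h.congr_deriv (by simp only [potW]; ring)

lemma hasDerivAt_coVel (N : ℕ) (a b t : ℝ) : HasDerivAt (coVel N a b) (coVelD N a b t) t := by
  have hA : HasDerivAt (coA N) (-(eta N * prof (1 + t))) t :=
    (((hasDerivAt_profInt (1 + t)).comp_const_add 1 t).const_mul (eta N)).const_sub 1
  have hB : HasDerivAt (coB N) (eta N * prof (1 - t)) t :=
    ((((hasDerivAt_profInt (1 - t)).comp_const_sub 1 t).const_mul (eta N)).const_sub 1).congr_deriv
      (by ring)
  have hC : HasDerivAt (coC N) (eta N * mu * (prof (1 + t) * prof (1 - t))) t :=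
    ((hasDerivAt_mixInt t).const_mul (eta N * mu)).const_add (-eps N)
  refine ((hasDerivAt_const t (0 : ℝ)).prodMk
    (((hA.mul_const a).add (hC.mul_const b)).prodMk ((hC.mul_const a).add (hB.mul_const b)))).congr_deriv ?_
  simp only [coVelD, Prod.mk.injEq, true_and]
  constructor <;> ring

lemma continuous_profD : Continuous profD := contDiff_profD.continuous

lemma continuous_potW (N : ℕ) (a b : ℝ) : Continuous (potW N a b) := by
  have := continuous_prof
  have := continuous_profD
  unfold potW; fun_prop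

lemma continuous_tauD (N : ℕ) (a b : ℝ) : Continuous (tauD N a b) :=
  continuous_iff_continuousAt.2 fun t => (hasDerivAt_tauD N a b t).continuousAt

lemma continuous_coVelD (N : ℕ) (a b : ℝ) : Continuous (coVelD N a b) := by
  have := continuous_prof
  unfold coVelD; fun_prop

lemma mem_slab {t : ℝ} (ht : t ∈ Icc (-2 : ℝ) 2) : t ∈ Ioo (-5 : ℝ) 5 :=
  ⟨by linarith [ht.1], by linarith [ht.2]⟩

namespace Small

variable {N : ℕ} {t a b : ℝ}

lemma potW_lower (h : Small N) (ht : t ∈ Icc (-2 : ℝ) 2) :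
    eta N / 4 * (profD (1 + t) * a ^ 2 + profD (1 - t) * b ^ 2) ≤ potW N a b t := by
  have hw := weight_lower (a := a) (b := b) (m := -mu) (prof_nonneg (1 + t)) (prof_le_one _)
    (prof_nonneg (1 - t)) (prof_le_one _) (profD_nonneg _) (profD_le_two _) (profD_nonneg _)
    (profD_le_two _) (prof_le_profD (by linarith [ht.2])) (prof_le_profD (by linarith [ht.1]))
    (by norm_num [mu])
  have := mul_le_mul_of_nonneg_left hw (div_nonneg h.eta_pos.le (by norm_num : (0 : ℝ) ≤ 2))
  unfold potW
  linarith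

lemma potW_nonneg (h : Small N) (ht : t ∈ Icc (-2 : ℝ) 2) : 0 ≤ potW N a b t := by
  refine le_trans ?_ (h.potW_lower ht)
  have := h.eta_pos
  have := profD_nonneg (1 + t)
  have := profD_nonneg (1 - t)
  positivity

lemma deriv_coVel (h : Small N) (ht : t ∈ Icc (-2 : ℝ) 2) (a b : ℝ) (w : E3) :
    deriv (profMetric N) t (coVel N a b t) w = -profMetric N t (coVelD N a b t) w := by
  have h1 : HasDerivAt (fun s => profMetric N s (coVel N a b s) w)
      (deriv (profMetric N) t (coVel N a b t) w + profMetric N t (coVelD N a b t) w) t := by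
    simpa using ((h.slab.hasDerivAt (mem_slab ht)).clm_apply (hasDerivAt_coVel N a b t)).clm_apply
      (hasDerivAt_const t w)
  have h2 : HasDerivWithinAt (fun s => profMetric N s (coVel N a b s) w) 0 (Icc (-2) 2) t :=
    (hasDerivWithinAt_const t _ (a * w.2.1 + b * w.2.2)).congr
      (fun s hs => h.profMetric_coVel hs a b w) (h.profMetric_coVel ht a b w)
  have := ((uniqueDiffOn_Icc (by norm_num)) t ht).eq_deriv _ h1.hasDerivWithinAt h2
  linarith

lemma deriv_coVel_self (h : Small N) (ht : t ∈ Icc (-2 : ℝ) 2) (a b : ℝ) :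
    deriv (profMetric N) t (coVel N a b t) (coVel N a b t) = 2 * tauD N a b t := by
  rw [h.deriv_coVel ht, profMetric_symm, h.profMetric_coVel ht]
  simp only [coVelD, tauD]
  ring

lemma deriv₂_coVel_self (h : Small N) (ht : t ∈ Icc (-2 : ℝ) 2) (a b : ℝ) :
    deriv (deriv (profMetric N)) t (coVel N a b t) (coVel N a b t) =
      2 * potW N a b t + 2 * profMetric N t (coVelD N a b t) (coVelD N a b t) := by
  have h1 : HasDerivAt (fun s => deriv (profMetric N) s (coVel N a b s) (coVel N a b s))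
      (deriv (deriv (profMetric N)) t (coVel N a b t) (coVel N a b t)
        + deriv (profMetric N) t (coVelD N a b t) (coVel N a b t)
        + deriv (profMetric N) t (coVel N a b t) (coVelD N a b t)) t := by
    simpa using ((h.slab.hasDerivAt₂ (mem_slab ht)).clm_apply (hasDerivAt_coVel N a b t)).clm_apply
      (hasDerivAt_coVel N a b t)
  have h2 : HasDerivWithinAt (fun s => deriv (profMetric N) s (coVel N a b s) (coVel N a b s))
      (2 * potW N a b t) (Icc (-2) 2) t :=
    ((hasDerivAt_tauD N a b t).const_mul 2).hasDerivWithinAt.congr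
      (fun s hs => h.deriv_coVel_self hs a b) (h.deriv_coVel_self ht a b)
  have := ((uniqueDiffOn_Icc (by norm_num)) t ht).eq_deriv _ h1.hasDerivWithinAt h2
  rw [h.slab.symm₁ (mem_slab ht) (coVelD N a b t) (coVel N a b t), h.deriv_coVel ht] at this
  linarith

/-- The coordinate second variation in the middle. -/
lemma flatQ_eq (h : Small N) (ht : t ∈ Icc (-2 : ℝ) 2) (τ : ℝ) (J J' : E3) :
    flatQ (profMetric N) t (τ • eT + coVel N a b t) J J' =
      profMetric N t (J' - J.1 • coVelD N a b t) (J' - J.1 • coVelD N a b t)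
        + potW N a b t * J.1 ^ 2 := by
  have hI := mem_slab ht
  obtain ⟨e1, e2⟩ := h.deriv_eT hI J'
  obtain ⟨-, f2⟩ := h.deriv_eT hI eT
  obtain ⟨-, g2⟩ := h.deriv_eT hI (coVel N a b t)
  simp only [flatQ, map_add, map_smul, map_sub, add_apply, smul_apply, sub_apply, smul_eq_mul,
    h.slab.symm₁ hI J' eT, h.slab.symm₁ hI J' (coVel N a b t), e1, f2, g2, h.deriv_coVel ht,
    h.slab.symm₂ hI (coVel N a b t) eT, h.deriv₂_coVel_self ht,
    profMetric_symm N t J' (coVelD N a b t)]
  ring

/-- The velocity of unit `ω`-momentum bounds the transversal part from below. -/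
lemma proj_le (h : Small N) (ht : t ∈ Icc (-2 : ℝ) 2) (w : E3) :
    w.1 ^ 2 + omR N w ^ 2 / 2 ≤ profMetric N t w w := by
  set u := coVel N 1 (-eps N) t
  set c := omR N w / 2
  have hu : ∀ z, profMetric N t u z = omR N z := fun z => by
    rw [h.profMetric_coVel ht, omR_apply]; ring
  have hu1 : u.1 = 0 := rfl
  have hpos : 0 ≤ profMetric N t (w - w.1 • eT - c • u) (w - w.1 • eT - c • u) := by
    rcases eq_or_ne (w - w.1 • eT - c • u) 0 with h0 | h0
    · simp [h0]
    · exact (h.profMetric_pos (mem_slab ht) h0).le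
  have hg : omR N u ≤ 2 := by
    have hA := (h.coA_bounds (show t ≤ 7 by linarith [ht.2])).2
    have hB := (h.coB_bounds (show -7 ≤ t by linarith [ht.1])).2
    have hC := Real.sqrt_le_sqrt (h.coC_sq t)
    rw [Real.sqrt_sq_eq_abs, Real.sqrt_sq h.eps_pos.le, abs_le] at hC
    simp only [omR_apply, u, coVel]
    nlinarith [h.eps_pos, h.eps_le, mul_le_mul_of_nonneg_left hB (sq_nonneg (eps N))]
  simp only [map_sub, map_smul, sub_apply, smul_apply, smul_eq_mul, profMetric_eT, hu, hu1,
    profMetric_symm N t w eT, profMetric_symm N t w u, profMetric_symm N t eT u, eT, c] at hpos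
  have e0 : omR N ((1, 0, 0) : E3) = 0 := by simp [omR_apply]
  have e1 : ∀ z, profMetric N t ((1, 0, 0) : E3) z = z.1 := profMetric_eT N t
  simp only [e0, e1, hu1, profMetric_symm N t w (1, 0, 0)] at hpos
  nlinarith [mul_le_mul_of_nonneg_right hg (sq_nonneg (omR N w))]

end Small

/-- Bounded vector valued functions, continuous off a finite set. -/
def PWV (f : ℝ → E3) (a b : ℝ) : Prop :=
  ∃ S : Finset ℝ, ∃ C : ℝ, ∀ s ∈ Ioo a b, s ∉ S → ContinuousAt f s ∧ ‖f s‖ ≤ C

lemma PWV.of_continuousOn {f : ℝ → E3} {a b : ℝ} (h : ContinuousOn f (Icc a b)) : PWV f a b := by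
  obtain ⟨C, hC⟩ := isCompact_Icc.exists_bound_of_continuousOn h
  exact ⟨∅, C, fun s hs _ => ⟨h.continuousAt (Icc_mem_nhds hs.1 hs.2), hC s (Ioo_subset_Icc_self hs)⟩⟩

set_option maxSynthPendingDepth 3 in
lemma PWV.bil {B : ℝ → Bil3} {f g : ℝ → E3} {a b : ℝ} (hB : ContinuousOn B (Icc a b))
    (hf : PWV f a b) (hg : PWV g a b) : PWC (fun s => B s (f s) (g s)) a b := by
  classical
  obtain ⟨C, hC⟩ := isCompact_Icc.exists_bound_of_continuousOn hB
  obtain ⟨S, D, h⟩ := hf
  obtain ⟨T, E, k⟩ := hg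
  refine ⟨S ∪ T, |C| * |D| * |E|, fun s hs hn => ?_⟩
  rw [Finset.notMem_union] at hn
  refine ⟨((hB.continuousAt (Icc_mem_nhds hs.1 hs.2)).clm_apply (h s hs hn.1).1).clm_apply
    (k s hs hn.2).1, ?_⟩
  rw [← Real.norm_eq_abs]
  refine ((B s).le_opNorm₂ _ _).trans ?_
  gcongr
  · exact (hC s (Ioo_subset_Icc_self hs)).trans (le_abs_self _)
  · exact (h s hs hn.1).2.trans (le_abs_self _)
  · exact (k s hs hn.2).2.trans (le_abs_self _)

lemma PWV.comp_clm {f : ℝ → E3} {a b : ℝ} (hf : PWV f a b) (L : E3 →L[ℝ] ℝ) :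
    PWC (fun s => L (f s)) a b := by
  obtain ⟨S, D, h⟩ := hf
  exact ⟨S, ‖L‖ * D, fun s hs hn => ⟨L.continuous.continuousAt.comp (h s hs hn).1,
    (L.le_opNorm _).trans (mul_le_mul_of_nonneg_left (h s hs hn).2 (norm_nonneg _))⟩⟩

/-- The data of a passage through the middle: height, momentum, and the equations. -/
structure Passage (N : ℕ) (t : ℝ → ℝ) (τ : ℝ → ℝ) (p q : ℝ) (a b : ℝ) : Prop where
  mem : ∀ s ∈ Icc a b, t s ∈ Icc (-2 : ℝ) 2
  height : ∀ s ∈ Icc a b, HasDerivAt t (τ s) s
  speed : ∀ s ∈ Icc a b, HasDerivAt τ (tauD N p q (t s)) s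

section index

variable {N : ℕ} {x J : ℝ → E3} {a b : ℝ}

lemma IsGeoOn.deriv_deriv (h : Small N) (hx : IsGeoOn (collarMetric N) x a b)
    (hmid : ∀ s ∈ Icc a b, |(x s).1| ≤ 2) {s : ℝ} (hs : s ∈ Icc a b) :
    DifferentiableAt ℝ x s ∧ ContDiffAt ℝ ∞ (deriv x) s ∧
      deriv (deriv x) s = -gam (profMetric N) (x s).1 (deriv x s) (deriv x s) := by
  obtain ⟨hcd, hgeo⟩ := hx s hs
  have h2 : ContDiffAt ℝ ∞ (deriv x) s := by
    have := (hcd.fderiv_right (m := ∞) (by norm_num)).clm_apply (contDiffAt_const (c := (1 : ℝ)))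
    simpa only [fderiv_apply_one_eq_deriv] using this
  refine ⟨hcd.differentiableAt (by simp), h2, ?_⟩
  rw [covDeriv, collarMetric_eq', h.slab.christoffel_eq (mem_slab (abs_le.1 (hmid s hs)))] at hgeo
  exact eq_neg_of_add_eq_zero_left hgeo

/-- A geodesic in the middle is a passage. -/
lemma IsGeoOn.exists_passage (h : Small N) (hab : a < b) (hx : IsGeoOn (collarMetric N) x a b)
    (hmid : ∀ s ∈ Icc a b, |(x s).1| ≤ 2) :
    ∃ p q : ℝ, Passage N (fun s => (x s).1) (fun s => (deriv x s).1) p q a b ∧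
      ∀ s ∈ Icc a b, deriv x s = (deriv x s).1 • eT + coVel N p q (x s).1 := by
  have hmem : ∀ s ∈ Icc a b, (x s).1 ∈ Icc (-2 : ℝ) 2 := fun s hs => abs_le.1 (hmid s hs)
  have hmom : ∀ z : E3, ∀ s ∈ Icc a b,
      HasDerivAt (fun r => profMetric N (x r).1 (deriv x r) z)
        (z.1 / 2 * deriv (profMetric N) (x s).1 (deriv x s) (deriv x s)) s := fun z s hs => by
    obtain ⟨h1, h2, h3⟩ := hx.deriv_deriv h hmid hs
    exact h.slab.hasDerivAt_momentum (mem_slab (hmem s hs)) h1 (h2.differentiableAt (by simp)) h3 z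
  have hconst : ∀ z : E3, z.1 = 0 → ∀ s ∈ Icc a b,
      profMetric N (x s).1 (deriv x s) z = profMetric N (x a).1 (deriv x a) z := fun z hz =>
    constant_of_has_deriv_right_zero (fun s hs => (hmom z s hs).continuousAt.continuousWithinAt)
      fun s hs => ((hmom z s (Ico_subset_Icc_self hs)).congr_deriv (by simp [hz])).hasDerivWithinAt
  set p := profMetric N (x a).1 (deriv x a) (0, 1, 0) with hp
  set q := profMetric N (x a).1 (deriv x a) (0, 0, 1) with hq
  have hv : ∀ s ∈ Icc a b, deriv x s = (deriv x s).1 • eT + coVel N p q (x s).1 := by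
    intro s hs
    refine h.slab.eq_of_apply (mem_slab (hmem s hs)) fun w => ?_
    have hw : w = w.1 • eT + w.2.1 • ((0, 1, 0) : E3) + w.2.2 • ((0, 0, 1) : E3) := by
      simp [eT]
    conv_lhs => rw [hw]
    simp only [map_add, map_smul, add_apply, smul_apply, smul_eq_mul,
      hconst (0, 1, 0) rfl s hs, hconst (0, 0, 1) rfl s hs, profMetric_eT,
      h.profMetric_coVel (hmem s hs), profMetric_symm N _ (deriv x s) eT, ← hp, ← hq]
    ring
  refine ⟨p, q, ⟨hmem, fun s hs => ?_, fun s hs => ?_⟩, hv⟩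
  · simpa [Function.comp_def] using
      (hasFDerivAt_fst (p := x s)).comp_hasDerivAt s (hx.deriv_deriv h hmid hs).1.hasDerivAt
  · have h1 := hmom eT s hs
    have he : (fun r => profMetric N (x r).1 (deriv x r) eT) = fun r => (deriv x r).1 :=
      funext fun r => by rw [profMetric_symm, profMetric_eT]
    rw [he] at h1
    refine h1.congr_deriv ?_
    have hI := mem_slab (hmem s hs)
    obtain ⟨e1, -⟩ := h.deriv_eT hI eT
    obtain ⟨e2, -⟩ := h.deriv_eT hI (coVel N p q (x s).1)
    rw [hv s hs]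
    simp only [map_add, map_smul, add_apply, smul_apply, smul_eq_mul, e1, e2,
      h.slab.symm₁ hI _ eT, h.deriv_coVel_self (hmem s hs)]
    simp [eT]

set_option maxSynthPendingDepth 3 in
/-- The index form in coordinates. -/
lemma indexForm_eq (h : Small N) (hab : a < b) (hx : IsGeoOn (collarMetric N) x a b)
    (hmid : ∀ s ∈ Icc a b, |(x s).1| ≤ 2) (hJ : IsTestField J a b) :
    indexForm (collarMetric N) x J a b =
      (∫ s in a..b, flatQ (profMetric N) (x s).1 (deriv x s) (J s) (deriv J s))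
        - (bdryTerm (profMetric N) (x b).1 (deriv x b) (J b)
          - bdryTerm (profMetric N) (x a).1 (deriv x a) (J a)) ∧
      PWC (fun s => flatQ (profMetric N) (x s).1 (deriv x s) (J s) (deriv J s)) a b := by
  set M := profMetric N
  have hI : ∀ s ∈ Icc a b, (x s).1 ∈ Ioo (-5 : ℝ) 5 := fun s hs => mem_slab (abs_le.1 (hmid s hs))
  have hxc : ContinuousOn x (Icc a b) := fun s hs =>
    (hx.deriv_deriv h hmid hs).1.continuousAt.continuousWithinAt
  have hv : ContinuousOn (deriv x) (Icc a b) := fun s hs =>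
    ((hx.deriv_deriv h hmid hs).2.1.differentiableAt (by simp)).continuousAt.continuousWithinAt
  have hv2 : ContinuousOn (deriv (deriv x)) (Icc a b) := fun s hs => by
    have := ((hx.deriv_deriv h hmid hs).2.1.fderiv_right (m := ∞) (by norm_num)).clm_apply
      (contDiffAt_const (c := (1 : ℝ)))
    simp only [fderiv_apply_one_eq_deriv] at this
    exact (this.differentiableAt (by simp)).continuousAt.continuousWithinAt
  have ht : ContinuousOn (fun s => (x s).1) (Icc a b) := continuous_fst.comp_continuousOn hxc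
  have hM0 : ContinuousOn (fun s => M (x s).1) (Icc a b) := fun s hs =>
    ((h.slab.hasDerivAt (hI s hs)).continuousAt.comp_continuousWithinAt (f := fun r => (x r).1)
      (ht s hs))
  have hM2' : ContinuousOn (deriv (deriv M)) (Ioo (-5 : ℝ) 5) :=
    ((h.slab.smooth.deriv_of_isOpen isOpen_Ioo (m := ∞) (by simp)).deriv_of_isOpen isOpen_Ioo
      (m := ∞) (by simp)).continuousOn
  have hM1 : ContinuousOn (fun s => deriv M (x s).1) (Icc a b) := fun s hs =>
    ((h.slab.hasDerivAt₂ (hI s hs)).continuousAt.comp_continuousWithinAt (f := fun r => (x r).1)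
      (ht s hs))
  have hM2 : ContinuousOn (fun s => deriv (deriv M) (x s).1) (Icc a b) := hM2'.comp ht hI
  obtain ⟨S, C, hS⟩ := hJ.pieces
  have hJ' : PWV (deriv J) a b := ⟨S, C, fun s hs hn => ⟨(hS s hs hn).2.1, (hS s hs hn).2.2⟩⟩
  have hJ0 : PWV J a b := .of_continuousOn hJ.cont
  have hV : PWV (deriv x) a b := .of_continuousOn hv
  have hA : PWV (deriv (deriv x)) a b := .of_continuousOn hv2
  have hτ : PWC (fun s => (deriv x s).1) a b :=
    .of_continuousOn (continuous_fst.comp_continuousOn hv)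
  have hτ' : PWC (fun s => (deriv (deriv x) s).1) a b :=
    .of_continuousOn (continuous_fst.comp_continuousOn hv2)
  have hz : PWC (fun s => (J s).1) a b := .of_continuousOn (continuous_fst.comp_continuousOn hJ.cont)
  have hz' : PWC (fun s => (deriv J s).1) a b :=
    hJ'.comp_clm (ContinuousLinearMap.fst ℝ ℝ (ℝ × ℝ))
  have hQ : PWC (fun s => flatQ M (x s).1 (deriv x s) (J s) (deriv J s)) a b := by
    unfold flatQ
    simp only [div_eq_mul_inv]
    exact ((PWV.bil hM0 hJ' hJ').add ((hz.const_mul 2).mul (PWV.bil hM1 hJ' hV))).add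
      ((hz.sq.mul (.of_continuousOn continuousOn_const)).mul (PWV.bil hM2 hV hV))
  set D : ℝ → ℝ := fun s =>
    (deriv J s).1 * deriv M (x s).1 (J s) (deriv x s)
      + (J s).1 * (((deriv x s).1 * deriv (deriv M) (x s).1 (J s) (deriv x s)
        + deriv M (x s).1 (deriv J s) (deriv x s)) + deriv M (x s).1 (J s) (deriv (deriv x) s))
      - (((deriv (deriv x) s).1 * (1 / 2)) * deriv M (x s).1 (J s) (J s)
        + ((deriv x s).1 * (1 / 2)) * (((deriv x s).1 * deriv (deriv M) (x s).1 (J s) (J s)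
          + deriv M (x s).1 (deriv J s) (J s)) + deriv M (x s).1 (J s) (deriv J s))) with hDdef
  have hD : PWC D a b :=
    ((hz'.mul (PWV.bil hM1 hJ0 hV)).add (hz.mul (((hτ.mul (PWV.bil hM2 hJ0 hV)).add
      (PWV.bil hM1 hJ' hV)).add (PWV.bil hM1 hJ0 hA)))).sub
    (((hτ'.mul (.of_continuousOn continuousOn_const)).mul (PWV.bil hM1 hJ0 hJ0)).add
      ((hτ.mul (.of_continuousOn continuousOn_const)).mul (((hτ.mul (PWV.bil hM2 hJ0 hJ0)).add
        (PWV.bil hM1 hJ' hJ0)).add (PWV.bil hM1 hJ0 hJ'))))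
  have hder : ∀ s ∈ Ioo a b, s ∉ S →
      HasDerivAt (fun r => bdryTerm M (x r).1 (deriv x r) (J r)) (D s) s ∧
      indexDensity (collarMetric N) x J s
        = flatQ M (x s).1 (deriv x s) (J s) (deriv J s) - D s := by
    intro s hs hn
    obtain ⟨h1, h2, h3⟩ := hx.deriv_deriv h hmid (Ioo_subset_Icc_self hs)
    have hd := hI s (Ioo_subset_Icc_self hs)
    have hJd := (hS s hs hn).1
    have hb := h.slab.hasDerivAt_bdryTerm hd h1 (h2.differentiableAt (by simp)) h3 hJd
    have htd : HasDerivAt (fun r => (x r).1) (deriv x s).1 s := by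
      simpa [Function.comp_def] using (hasFDerivAt_fst (p := x s)).comp_hasDerivAt s h1.hasDerivAt
    have hMd : HasDerivAt (fun r => deriv M (x r).1)
        ((deriv x s).1 • deriv (deriv M) (x s).1) s := by
      simpa [Function.comp_def] using
        HasDerivAt.scomp s (h := fun r => (x r).1) (h.slab.hasDerivAt₂ hd) htd
    have hvd := (h2.differentiableAt (by simp)).hasDerivAt
    have hJ1 : HasDerivAt (fun r => (J r).1) (deriv J s).1 s := by
      simpa [Function.comp_def] using (hasFDerivAt_fst (p := J s)).comp_hasDerivAt s hJd.hasDerivAt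
    have hv1 : HasDerivAt (fun r => (deriv x r).1) (deriv (deriv x) s).1 s := by
      simpa [Function.comp_def] using (hasFDerivAt_fst (p := deriv x s)).comp_hasDerivAt s hvd
    have hall := (hJ1.mul ((hMd.clm_apply hJd.hasDerivAt).clm_apply hvd)).sub
      ((hv1.div_const 2).mul ((hMd.clm_apply hJd.hasDerivAt).clm_apply hJd.hasDerivAt))
    have hD' : HasDerivAt (fun r => bdryTerm M (x r).1 (deriv x r) (J r)) (D s) s := by
      refine hall.congr_deriv ?_
      simp only [hDdef, add_apply, smul_apply, smul_eq_mul]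
      ring
    refine ⟨hD', ?_⟩
    have := hD'.unique hb
    rw [collarMetric_eq']
    linarith
  refine ⟨?_, hQ⟩
  have hbc : ContinuousOn (fun r => bdryTerm M (x r).1 (deriv x r) (J r)) (Icc a b) := by
    unfold bdryTerm
    exact ((continuous_fst.comp_continuousOn hJ.cont).mul
      ((hM1.clm_apply hJ.cont).clm_apply hv)).sub
      (((continuous_fst.comp_continuousOn hv).div_const 2).mul
      ((hM1.clm_apply hJ.cont).clm_apply hJ.cont))
  rw [← ftc_pwc (F := fun r => bdryTerm M (x r).1 (deriv x r) (J r)) hab.le hbc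
    ⟨S, fun s hs hn => (hder s hs hn).1⟩ hD,
    ← integral_sub (hQ.intervalIntegrable hab.le) (hD.intervalIntegrable hab.le)]
  refine integral_congr_ae ?_
  rw [uIoc_of_le hab.le]
  have hnull : ∀ᵐ s : ℝ, s ∉ ((insert b S : Finset ℝ) : Set ℝ) :=
    measure_eq_zero_iff_ae_notMem.1 ((insert b S).finite_toSet.measure_zero volume)
  filter_upwards [hnull] with s hs hsab
  rw [Finset.mem_coe, Finset.mem_insert, not_or] at hs
  exact (hder s ⟨hsab.1, lt_of_le_of_ne hsab.2 hs.1⟩ hs.2).2

end index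

end

end Vale.Agent.P255
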