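import Vale.Agent.P255.Space
import Vale.Agent.P255.Index

/-!
Metrics on `ℝ × ℝ × ℝ` depending on the height only: Christoffel symbols, sectional curvature, and
the second variation along a geodesic.
-/

open Set Filter
open scoped ContDiff Topology

namespace Vale.Agent.P255

noncomputable section

/-- Bilinear forms on the model space. -/
abbrev Bil3 : Type := E3 →L[ℝ] E3 →L[ℝ] ℝ

/-- A metric on the slab over an open interval, depending on the height only. -/
structure Slab (M : ℝ → Bil3) (I : Set ℝ) : Prop where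
  isOpen : IsOpen I
  smooth : ContDiffOn ℝ ∞ M I
  symm : ∀ t ∈ I, ∀ u w, M t u w = M t w u
  pos : ∀ t ∈ I, ∀ v, v ≠ 0 → 0 < M t v v

/-- The covector paired with the Christoffel symbol. -/
def gamCov (D : Bil3) (a b : E3) : E3 →L[ℝ] ℝ :=
  (1 / 2 : ℝ) • (a.1 • D b + b.1 • D a - D a b • ContinuousLinearMap.fst ℝ ℝ (ℝ × ℝ))

lemma gamCov_apply (D : Bil3) (a b z : E3) :
    gamCov D a b z = (1 / 2 : ℝ) * (a.1 * D b z + b.1 * D a z - z.1 * D a b) := by
  simp [gamCov, mul_comm (D a b)]

/-- The Christoffel symbol of a height metric. -/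
def gam (M : ℝ → Bil3) (t : ℝ) (a b : E3) : E3 := (M t).inverse (gamCov (deriv M t) a b)

/-- The second variation integrand in coordinates. -/
def flatQ (M : ℝ → Bil3) (t : ℝ) (v J J' : E3) : ℝ :=
  M t J' J' + 2 * J.1 * deriv M t J' v + J.1 ^ 2 / 2 * deriv (deriv M) t v v

/-- The difference between the coordinate and the covariant second variations. -/
def bdryTerm (M : ℝ → Bil3) (t : ℝ) (v J : E3) : ℝ :=
  J.1 * deriv M t J v - v.1 / 2 * deriv M t J J

namespace Slab

variable {M : ℝ → Bil3} {I : Set ℝ} {t : ℝ}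

set_option maxSynthPendingDepth 3

lemma hasDerivAt (h : Slab M I) (ht : t ∈ I) : HasDerivAt M (deriv M t) t :=
  ((h.smooth.differentiableOn (by simp)).differentiableAt (h.isOpen.mem_nhds ht)).hasDerivAt

lemma hasDerivAt₂ (h : Slab M I) (ht : t ∈ I) : HasDerivAt (deriv M) (deriv (deriv M) t) t :=
  (((h.smooth.deriv_of_isOpen h.isOpen (m := 1) (WithTop.coe_le_coe.2 le_top)).differentiableOn one_ne_zero).differentiableAt
    (h.isOpen.mem_nhds ht)).hasDerivAt

lemma symm₁ (h : Slab M I) (ht : t ∈ I) (u w : E3) : deriv M t u w = deriv M t w u := by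
  have h1 : HasDerivAt (fun s => M s u w) (deriv M t u w) t := by
    simpa using ((h.hasDerivAt ht).clm_apply (hasDerivAt_const t u)).clm_apply (hasDerivAt_const t w)
  have h2 : HasDerivAt (fun s => M s w u) (deriv M t w u) t := by
    simpa using ((h.hasDerivAt ht).clm_apply (hasDerivAt_const t w)).clm_apply (hasDerivAt_const t u)
  have he : (fun s => M s u w) =ᶠ[𝓝 t] fun s => M s w u := by
    filter_upwards [h.isOpen.mem_nhds ht] with s hs using h.symm s hs u w
  exact h1.unique (h2.congr_of_eventuallyEq he)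

lemma symm₂ (h : Slab M I) (ht : t ∈ I) (u w : E3) :
    deriv (deriv M) t u w = deriv (deriv M) t w u := by
  have h1 : HasDerivAt (fun s => deriv M s u w) (deriv (deriv M) t u w) t := by
    simpa using ((h.hasDerivAt₂ ht).clm_apply (hasDerivAt_const t u)).clm_apply (hasDerivAt_const t w)
  have h2 : HasDerivAt (fun s => deriv M s w u) (deriv (deriv M) t w u) t := by
    simpa using ((h.hasDerivAt₂ ht).clm_apply (hasDerivAt_const t w)).clm_apply (hasDerivAt_const t u)
  have he : (fun s => deriv M s u w) =ᶠ[𝓝 t] fun s => deriv M s w u := by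
    filter_upwards [h.isOpen.mem_nhds ht] with s hs using h.symm₁ hs u w
  exact h1.unique (h2.congr_of_eventuallyEq he)

lemma exists_equiv (h : Slab M I) (ht : t ∈ I) :
    ∃ e : E3 ≃L[ℝ] (E3 →L[ℝ] ℝ), ((e : E3 →L[ℝ] (E3 →L[ℝ] ℝ))) = M t := by
  have hm : P216.Chord.IsMetricOn (univ : Set E3) (fun _ => M t) :=
    ⟨isOpen_univ, contDiffOn_const, fun _ _ => h.symm t ht, fun _ _ => h.pos t ht⟩
  exact hm.exists_equiv (mem_univ (0 : E3))

lemma apply_gam (h : Slab M I) (ht : t ∈ I) (a b z : E3) :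
    M t (gam M t a b) z =
      (1 / 2 : ℝ) * (a.1 * deriv M t b z + b.1 * deriv M t a z - z.1 * deriv M t a b) := by
  obtain ⟨e, he⟩ := h.exists_equiv ht
  rw [← gamCov_apply, gam, ← he]
  simp

lemma eq_of_apply (h : Slab M I) (ht : t ∈ I) {x y : E3} (hxy : ∀ z, M t x z = M t y z) :
    x = y := by
  by_contra hne
  have := h.pos t ht (x - y) (sub_ne_zero.2 hne)
  simp [hxy] at this

lemma gam_symm (h : Slab M I) (ht : t ∈ I) (a b : E3) : gam M t a b = gam M t b a :=
  h.eq_of_apply ht fun z => by rw [h.apply_gam ht, h.apply_gam ht, h.symm₁ ht a b]; ring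

lemma fderiv_eq (h : Slab M I) {y : E3} (hy : y.1 ∈ I) (u : E3) :
    fderiv ℝ (fun z : E3 => M z.1) y u = u.1 • deriv M y.1 := by
  have h1 := ((h.hasDerivAt hy).hasFDerivAt.comp y
    (ContinuousLinearMap.fst ℝ ℝ (ℝ × ℝ)).hasFDerivAt)
  rw [show fderiv ℝ (fun z : E3 => M z.1) y = _ from h1.fderiv]
  simp

lemma christoffel_eq (h : Slab M I) {y : E3} (hy : y.1 ∈ I) (a b : E3) :
    christoffel (fun z : E3 => M z.1) y a b = gam M y.1 a b := by
  rw [christoffel, gam]
  congr 1
  ext z <;>
  simp [gamCov_apply, ContinuousLinearMap.flip_apply, h.fderiv_eq hy]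

lemma differentiableAt_gam (h : Slab M I) (ht : t ∈ I) (a b : E3) :
    DifferentiableAt ℝ (fun s => gam M s a b) t := by
  obtain ⟨e, he⟩ := h.exists_equiv ht
  have h1 : DifferentiableAt ℝ (fun s => (M s).inverse) t := by
    have hinv : ContDiffAt ℝ 1 ContinuousLinearMap.inverse (M t) := by
      rw [← he]; exact contDiffAt_map_inverse e
    exact (hinv.differentiableAt one_ne_zero).comp t (h.hasDerivAt ht).differentiableAt
  have h2 : DifferentiableAt ℝ (fun s => gamCov (deriv M s) a b) t := by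
    have hd := (h.hasDerivAt₂ ht).differentiableAt
    have ha : DifferentiableAt ℝ (fun s => deriv M s a) t :=
      hd.clm_apply (differentiableAt_const a)
    have hb : DifferentiableAt ℝ (fun s => deriv M s b) t :=
      hd.clm_apply (differentiableAt_const b)
    have hab : DifferentiableAt ℝ (fun s => deriv M s a b) t :=
      ha.clm_apply (differentiableAt_const b)
    exact (((hb.const_smul a.1).add (ha.const_smul b.1)).sub (hab.smul_const (ContinuousLinearMap.fst ℝ ℝ (ℝ × ℝ)))).const_smul (1 / 2 : ℝ)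
  exact h1.clm_apply h2

lemma apply_deriv_gam (h : Slab M I) (ht : t ∈ I) (a b z : E3) :
    M t (deriv (fun s => gam M s a b) t) z =
      (1 / 2 : ℝ) * (a.1 * deriv (deriv M) t b z + b.1 * deriv (deriv M) t a z
        - z.1 * deriv (deriv M) t a b) - deriv M t (gam M t a b) z := by
  have h1 : HasDerivAt (fun s => M s (gam M s a b) z)
      (deriv M t (gam M t a b) z + M t (deriv (fun s => gam M s a b) t) z) t := by
    simpa using ((h.hasDerivAt ht).clm_apply (h.differentiableAt_gam ht a b).hasDerivAt).clm_apply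
      (hasDerivAt_const t z)
  have hd : ∀ u w, HasDerivAt (fun s => deriv M s u w) (deriv (deriv M) t u w) t := fun u w => by
    simpa using ((h.hasDerivAt₂ ht).clm_apply (hasDerivAt_const t u)).clm_apply (hasDerivAt_const t w)
  have h2 := ((((hd b z).const_mul a.1).add ((hd a z).const_mul b.1)).sub
    ((hd a b).const_mul z.1)).const_mul (1 / 2 : ℝ)
  have he : (fun s => M s (gam M s a b) z) =ᶠ[𝓝 t] fun s =>
      (1 / 2 : ℝ) * (a.1 * deriv M s b z + b.1 * deriv M s a z - z.1 * deriv M s a b) := by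
    filter_upwards [h.isOpen.mem_nhds ht] with s hs using h.apply_gam hs a b z
  have := h1.unique (h2.congr_of_eventuallyEq he)
  linarith

lemma fderiv_gam (h : Slab M I) {y : E3} (hy : y.1 ∈ I) (v w u : E3) :
    fderiv ℝ (fun z => christoffel (fun z : E3 => M z.1) z v w) y u =
      u.1 • deriv (fun s => gam M s v w) y.1 := by
  have he : (fun z => christoffel (fun z : E3 => M z.1) z v w) =ᶠ[𝓝 y]
      fun z : E3 => gam M z.1 v w := by
    filter_upwards [(h.isOpen.preimage continuous_fst).mem_nhds hy] with z hz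
    exact h.christoffel_eq hz v w
  rw [he.fderiv_eq]
  have h1 := ((h.differentiableAt_gam hy v w).hasDerivAt.hasFDerivAt.comp y
    (ContinuousLinearMap.fst ℝ ℝ (ℝ × ℝ)).hasFDerivAt)
  rw [show fderiv ℝ (fun z : E3 => gam M z.1 v w) y = _ from h1.fderiv]
  simp

/-- The sectional curvature numerator. -/
lemma curvature_eq (h : Slab M I) {y : E3} (hy : y.1 ∈ I) (u v : E3) :
    M y.1 (curvature (fun z : E3 => M z.1) y u v v) u =
      u.1 * v.1 * deriv (deriv M) y.1 u v - u.1 ^ 2 / 2 * deriv (deriv M) y.1 v v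
        - v.1 ^ 2 / 2 * deriv (deriv M) y.1 u u
        - M y.1 (gam M y.1 v v) (gam M y.1 u u) + M y.1 (gam M y.1 u v) (gam M y.1 u v) := by
  rw [curvature, h.fderiv_gam hy, h.fderiv_gam hy, h.christoffel_eq hy, h.christoffel_eq hy,
    h.christoffel_eq hy, h.christoffel_eq hy]
  set t := y.1
  simp only [map_add, map_sub, map_smul, add_apply, sub_apply,
    smul_apply, smul_eq_mul, h.apply_deriv_gam hy]
  set A := gam M t v v
  set B := gam M t u v
  have e1 := h.apply_gam hy u A u
  have e2 := h.apply_gam hy v B u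
  have e3 := h.apply_gam hy u u A
  have e4 := h.apply_gam hy v u B
  rw [h.gam_symm hy v u] at e4
  rw [h.symm₁ hy A u] at e1 ⊢
  rw [h.symm₁ hy B u] at e2 ⊢
  rw [h.symm₁ hy u A] at e1
  rw [h.symm₁ hy u B] at e2
  rw [h.symm₁ hy v B, h.symm₁ hy v u] at *
  rw [h.symm₁ hy u A, h.symm₁ hy u B] at *
  rw [h.symm₂ hy v u, e1, e2, h.symm t hy A (gam M t u u), e3, e4]
  ring

/-- Along a geodesic the coordinate second variation differs from the covariant one by an exact
derivative. -/
lemma hasDerivAt_bdryTerm (h : Slab M I) {x J : ℝ → E3} {s : ℝ} (hs : (x s).1 ∈ I)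
    (hx : DifferentiableAt ℝ x s) (hx' : DifferentiableAt ℝ (deriv x) s)
    (hgeo : deriv (deriv x) s = -gam M (x s).1 (deriv x s) (deriv x s))
    (hJ : DifferentiableAt ℝ J s) :
    HasDerivAt (fun r => bdryTerm M (x r).1 (deriv x r) (J r))
      (flatQ M (x s).1 (deriv x s) (J s) (deriv J s)
        - indexDensity (fun z : E3 => M z.1) x J s) s := by
  have hf : HasFDerivAt (Prod.fst : E3 → ℝ) (ContinuousLinearMap.fst ℝ ℝ (ℝ × ℝ)) (x s) :=
    hasFDerivAt_fst
  have ht : HasDerivAt (fun r => (x r).1) (deriv x s).1 s := by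
    simpa [Function.comp_def] using hf.comp_hasDerivAt s hx.hasDerivAt
  have hD : HasDerivAt (fun r => deriv M (x r).1)
      ((deriv x s).1 • deriv (deriv M) (x s).1) s := by
    simpa [Function.comp_def] using HasDerivAt.scomp s (h := fun r => (x r).1) (h.hasDerivAt₂ hs) ht
  have hv : HasDerivAt (deriv x) (-gam M (x s).1 (deriv x s) (deriv x s)) s := by
    rw [← hgeo]; exact hx'.hasDerivAt
  have hv1 : HasDerivAt (fun r => (deriv x r).1) (-(gam M (x s).1 (deriv x s) (deriv x s)).1) s := by
    simpa [Function.comp_def] using (hasFDerivAt_fst (p := deriv x s)).comp_hasDerivAt s hv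
  have hJ1 : HasDerivAt (fun r => (J r).1) (deriv J s).1 s := by
    simpa [Function.comp_def] using (hasFDerivAt_fst (p := J s)).comp_hasDerivAt s hJ.hasDerivAt
  have hall := (hJ1.mul ((hD.clm_apply hJ.hasDerivAt).clm_apply hv)).sub
    ((hv1.div_const 2).mul ((hD.clm_apply hJ.hasDerivAt).clm_apply hJ.hasDerivAt))
  refine hall.congr_deriv ?_
  rw [indexDensity, covDeriv, h.christoffel_eq hs, flatQ]
  show _ = _ - (_ - M (x s).1 _ _)
  rw [h.curvature_eq hs]
  set t := (x s).1
  set v := deriv x s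
  set w := J s
  set d := deriv J s
  simp only [map_add, map_neg, map_smul, add_apply,
    smul_apply, neg_apply, smul_eq_mul]
  rw [h.symm t hs d (gam M t v w), h.gam_symm hs w v]
  have e1 := h.apply_gam hs v w d
  have e2 := h.apply_gam hs w w (gam M t v v)
  rw [h.symm t hs (gam M t v v) (gam M t w w), e1, e2]
  rw [h.symm₁ hs d v, h.symm₁ hs v w, h.symm₁ hs d w]
  ring

/-- The momentum conjugate to a coordinate. -/
lemma hasDerivAt_momentum (h : Slab M I) {x : ℝ → E3} {s : ℝ} (hs : (x s).1 ∈ I)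
    (hx : DifferentiableAt ℝ x s) (hx' : DifferentiableAt ℝ (deriv x) s)
    (hgeo : deriv (deriv x) s = -gam M (x s).1 (deriv x s) (deriv x s)) (z : E3) :
    HasDerivAt (fun r => M (x r).1 (deriv x r) z)
      (z.1 / 2 * deriv M (x s).1 (deriv x s) (deriv x s)) s := by
  have ht : HasDerivAt (fun r => (x r).1) (deriv x s).1 s := by
    simpa [Function.comp_def] using (hasFDerivAt_fst (p := x s)).comp_hasDerivAt s hx.hasDerivAt
  have hv : HasDerivAt (deriv x) (-gam M (x s).1 (deriv x s) (deriv x s)) s := by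
    rw [← hgeo]; exact hx'.hasDerivAt
  have hM : HasDerivAt (fun r => M (x r).1) ((deriv x s).1 • deriv M (x s).1) s := by
    simpa [Function.comp_def] using HasDerivAt.scomp s (h := fun r => (x r).1) (h.hasDerivAt hs) ht
  have hall := (hM.clm_apply hv).clm_apply (hasDerivAt_const s z)
  refine hall.congr_deriv ?_
  simp [h.apply_gam hs]
  ring

/-- Nonpositive curvature for a rank one warped height metric. -/
lemma curvature_nonpos_of_warped (h : Slab M I) {y : E3} (hy : y.1 ∈ I) (om : E3 →L[ℝ] ℝ)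
    {c c₂ : ℝ} (h1 : ∀ a b, deriv M y.1 a b = c * (om a * om b))
    (h2 : ∀ a b, deriv (deriv M) y.1 a b = c₂ * (om a * om b)) {p q : E3}
    (hp : ∀ z, M y.1 p z = z.1) (hq : ∀ z, M y.1 q z = om z) (hp1 : p.1 = 1) (hq1 : q.1 = 0)
    (homp : om p = 0) (hc : c ^ 2 * om q ≤ 2 * c₂) (u v : E3) :
    M y.1 (curvature (fun z : E3 => M z.1) y u v v) u ≤ 0 := by
  have hg : ∀ a b, gam M y.1 a b =
      (-(c / 2 * (om a * om b))) • p + (c / 2 * (a.1 * om b + b.1 * om a)) • q := fun a b =>
    h.eq_of_apply hy fun z => by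
      simp [h.apply_gam hy, h1, hp, hq]
      ring
  rw [h.curvature_eq hy]
  simp only [hg, h2, map_add, map_smul, add_apply, smul_apply,
    smul_eq_mul, hp, hq, hp1, hq1, homp, Prod.fst_add, Prod.smul_fst]
  nlinarith [mul_le_mul_of_nonneg_right hc (sq_nonneg (u.1 * om v - v.1 * om u))]

end Slab

end

end Vale.Agent.P255
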