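import Vale.Agent.P255.Collar.Metric
import Vale.Agent.P255.Collar.TOnly

/-!
The collar outside the middle: the warped formulas, their derivatives, and the curvature.
-/

open Set Filter
open scoped ContDiff Topology

namespace Vale.Agent.P255

noncomputable section

lemma Small.slab {N : ℕ} (h : Small N) : Slab (profMetric N) (Ioo (-5 : ℝ) 5) where
  isOpen := isOpen_Ioo
  smooth _ ht := (h.contDiffAt_profMetric ht).contDiffWithinAt
  symm t _ := profMetric_symm N t
  pos _ ht _ hv := h.profMetric_pos ht hv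

lemma collarMetric_eq' (N : ℕ) : collarMetric N = fun z : E3 => profMetric N z.1 :=
  funext (collarMetric_eq N)

/-- The direction of the height. -/
def eT : E3 := (1, 0, 0)

lemma profMetric_eT (N : ℕ) (t : ℝ) (z : E3) : profMetric N t eT z = z.1 := by
  simp [profMetric, collarForm_apply, eT]

/-- The warped covector on the right side. -/
def omR (N : ℕ) : E3 →L[ℝ] ℝ :=
  (ContinuousLinearMap.fst ℝ ℝ ℝ).comp (ContinuousLinearMap.snd ℝ ℝ (ℝ × ℝ)) -
    eps N • (ContinuousLinearMap.snd ℝ ℝ ℝ).comp (ContinuousLinearMap.snd ℝ ℝ (ℝ × ℝ))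

/-- The warped covector on the left side. -/
def omL (N : ℕ) : E3 →L[ℝ] ℝ :=
  (ContinuousLinearMap.snd ℝ ℝ ℝ).comp (ContinuousLinearMap.snd ℝ ℝ (ℝ × ℝ)) +
    eps N • (ContinuousLinearMap.fst ℝ ℝ ℝ).comp (ContinuousLinearMap.snd ℝ ℝ (ℝ × ℝ))

lemma omR_apply (N : ℕ) (z : E3) : omR N z = z.2.1 - eps N * z.2.2 := by simp [omR]

lemma omL_apply (N : ℕ) (z : E3) : omL N z = z.2.2 + eps N * z.2.1 := by simp [omL]

namespace Small

variable {N : ℕ} {t : ℝ}

lemma profMetric_right (h : Small N) (ht : 1 ≤ t) (u w : E3) :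
    profMetric N t u w =
      (u.1 * w.1 + u.2.2 * w.2.2) + warp N (1 + t) ^ 2 * (omR N u * omR N w) := by
  obtain ⟨a, b, c⟩ := h.g_right ht
  simp only [profMetric, collarForm_apply, a, b, c, omR_apply]
  ring

lemma profMetric_left (h : Small N) (ht : t ≤ -1) (u w : E3) :
    profMetric N t u w =
      (u.1 * w.1 + u.2.1 * w.2.1) + warp N (1 - t) ^ 2 * (omL N u * omL N w) := by
  obtain ⟨a, b, c⟩ := h.g_right (show 1 ≤ -t by linarith)
  obtain ⟨a', b', c'⟩ := h.g_neg t
  rw [a'] at a; rw [b'] at b; rw [c', neg_inj] at c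
  simp only [profMetric, collarForm_apply, a, b, c, omL_apply, ← sub_eq_add_neg]
  ring

lemma hasDerivAt_apply (h : Small N) (ht : t ∈ Ioo (-5 : ℝ) 5) (u w : E3) :
    HasDerivAt (fun s => profMetric N s u w) (deriv (profMetric N) t u w) t := by
  simpa using ((h.slab.hasDerivAt ht).clm_apply (hasDerivAt_const t u)).clm_apply
    (hasDerivAt_const t w)

lemma hasDerivAt_apply₂ (h : Small N) (ht : t ∈ Ioo (-5 : ℝ) 5) (u w : E3) :
    HasDerivAt (fun s => deriv (profMetric N) s u w) (deriv (deriv (profMetric N)) t u w) t := by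
  simpa using ((h.slab.hasDerivAt₂ ht).clm_apply (hasDerivAt_const t u)).clm_apply
    (hasDerivAt_const t w)

lemma deriv_eT (h : Small N) (ht : t ∈ Ioo (-5 : ℝ) 5) (z : E3) :
    deriv (profMetric N) t eT z = 0 ∧ deriv (deriv (profMetric N)) t eT z = 0 := by
  have key : ∀ s ∈ Ioo (-5 : ℝ) 5, deriv (profMetric N) s eT z = 0 := fun s hs =>
    (h.hasDerivAt_apply hs eT z).unique
      ((hasDerivAt_const s z.1).congr_of_eventuallyEq
        (Eventually.of_forall fun r => profMetric_eT N r z))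
  refine ⟨key t ht, (h.hasDerivAt_apply₂ ht eT z).unique
    ((hasDerivAt_const t (0 : ℝ)).congr_of_eventuallyEq ?_)⟩
  filter_upwards [isOpen_Ioo.mem_nhds ht] with s hs using key s hs

/-- Derivatives of a metric of warped form on an interval. -/
lemma deriv_of_warped (h : Small N) {S : Set ℝ} (hS : UniqueDiffOn ℝ S)
    (hSI : S ⊆ Ioo (-5 : ℝ) 5) {c W W' W'' : ℝ → ℝ} (hW : ∀ s, HasDerivAt W (W' s) s)
    (hW' : ∀ s, HasDerivAt W' (W'' s) s) (u w : E3) (k : ℝ)
    (hk : ∀ s ∈ S, profMetric N s u w = c 0 + W s ^ 2 * k) (ht : t ∈ S) :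
    deriv (profMetric N) t u w = 2 * W t * W' t * k ∧
      deriv (deriv (profMetric N)) t u w = 2 * (W' t ^ 2 + W t * W'' t) * k := by
  have key : ∀ s ∈ S, deriv (profMetric N) s u w = 2 * W s * W' s * k := by
    intro s hs
    have h1 : HasDerivAt (fun r => c 0 + W r ^ 2 * k) (2 * W s * W' s * k) s :=
      (((hW s).pow 2).mul_const k |>.const_add (c 0)).congr_deriv (by simp)
    exact (hS s hs).eq_deriv _ (h.hasDerivAt_apply (hSI hs) u w).hasDerivWithinAt
      (h1.hasDerivWithinAt.congr hk (hk s hs))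
  refine ⟨key t ht, ?_⟩
  have h2 : HasDerivAt (fun r => 2 * W r * W' r * k) (2 * (W' t ^ 2 + W t * W'' t) * k) t :=
    ((((hW t).const_mul 2).mul (hW' t)).mul_const k).congr_deriv (by ring)
  exact (hS t ht).eq_deriv _ (h.hasDerivAt_apply₂ (hSI ht) u w).hasDerivWithinAt
    (h2.hasDerivWithinAt.congr key (key t ht))

lemma deriv_right (h : Small N) (h1 : 1 ≤ t) (h5 : t < 5) (u w : E3) :
    deriv (profMetric N) t u w =
        2 * warp N (1 + t) * warpD N (1 + t) * (omR N u * omR N w) ∧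
      deriv (deriv (profMetric N)) t u w =
        2 * (warpD N (1 + t) ^ 2 + warp N (1 + t) * warpDD N (1 + t)) * (omR N u * omR N w) := by
  refine h.deriv_of_warped (S := Ico 1 5) (uniqueDiffOn_Ico 1 5)
    (fun s hs => ⟨by linarith [hs.1], hs.2⟩) (c := fun _ => u.1 * w.1 + u.2.2 * w.2.2)
    (W := fun s => warp N (1 + s)) (W' := fun s => warpD N (1 + s))
    (W'' := fun s => warpDD N (1 + s)) (fun s => (h.hasDerivAt_warp (1 + s)).comp_const_add 1 s)
    (fun s => (h.hasDerivAt_warpD (1 + s)).comp_const_add 1 s) u w _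
    (fun s hs => h.profMetric_right hs.1 u w) ⟨h1, h5⟩

lemma deriv_left (h : Small N) (h1 : t ≤ -1) (h5 : -5 < t) (u w : E3) :
    deriv (profMetric N) t u w =
        -(2 * warp N (1 - t) * warpD N (1 - t) * (omL N u * omL N w)) ∧
      deriv (deriv (profMetric N)) t u w =
        2 * (warpD N (1 - t) ^ 2 + warp N (1 - t) * warpDD N (1 - t)) * (omL N u * omL N w) := by
  have h' := h.deriv_of_warped (S := Ioc (-5) (-1)) (uniqueDiffOn_Ioc _ _)
    (fun s hs => ⟨hs.1, by linarith [hs.2]⟩) (c := fun _ => u.1 * w.1 + u.2.1 * w.2.1)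
    (W := fun s => warp N (1 - s)) (W' := fun s => -warpD N (1 - s))
    (W'' := fun s => warpDD N (1 - s)) (fun s => (h.hasDerivAt_warp (1 - s)).comp_const_sub 1 s)
    (fun s => ((h.hasDerivAt_warpD (1 - s)).comp_const_sub 1 s).neg.congr_deriv (by simp))
    u w _ (fun s hs => h.profMetric_left hs.2 u w) ⟨h5, h1⟩
  refine ⟨h'.1.trans (by ring), h'.2.trans (by ring)⟩

lemma curv_outer (h : Small N) (y : E3) (hy : y ∈ collarSet) (h1 : 1 ≤ |y.1|) (u v : E3) :
    collarMetric N y (curvature (collarMetric N) y u v v) u ≤ 0 := by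
  rw [collarMetric_eq']
  rcases le_abs.1 h1 with h2 | h2
  · have hd := fun a b => h.deriv_right h2 hy.2 a b
    have hw := (h.warp_bounds (show 1 + y.1 ≤ 8 by linarith [hy.2])).1
    refine h.slab.curvature_nonpos_of_warped hy (omR N)
      (p := eT) (q := (0, (warp N (1 + y.1) ^ 2)⁻¹, 0)) (fun a b => (hd a b).1)
      (fun a b => (hd a b).2) (profMetric_eT N y.1) (fun z => ?_) rfl rfl (by simp [omR_apply, eT])
      ?_ u v
    · rw [h.profMetric_right h2]
      simp [omR_apply]
      field_simp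
    · simp only [omR_apply, mul_zero, sub_zero]
      have hdd := h.warpDD_nonneg (1 + y.1)
      rw [mul_inv_le_iff₀ (by positivity)]
      nlinarith [mul_nonneg (mul_nonneg (pow_nonneg (by linarith : (0 : ℝ) ≤ warp N (1 + y.1)) 3) hdd)
        (by norm_num : (0 : ℝ) ≤ 1)]
  · have h2' : y.1 ≤ -1 := by linarith
    have hd := fun a b => h.deriv_left h2' hy.1 a b
    have hw := (h.warp_bounds (show 1 - y.1 ≤ 8 by linarith [hy.1])).1
    refine h.slab.curvature_nonpos_of_warped hy (omL N)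
      (c := -(2 * warp N (1 - y.1) * warpD N (1 - y.1)))
      (p := eT) (q := (0, 0, (warp N (1 - y.1) ^ 2)⁻¹)) (fun a b => (hd a b).1.trans (by ring))
      (fun a b => (hd a b).2) (profMetric_eT N y.1) (fun z => ?_) rfl rfl (by simp [omL_apply, eT])
      ?_ u v
    · rw [h.profMetric_left h2']
      simp [omL_apply]
      field_simp
    · simp only [omL_apply, mul_zero, add_zero]
      have hdd := h.warpDD_nonneg (1 - y.1)
      rw [mul_inv_le_iff₀ (by positivity)]
      nlinarith [mul_nonneg (mul_nonneg (pow_nonneg (by linarith : (0 : ℝ) ≤ warp N (1 - y.1)) 3) hdd)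
        (by norm_num : (0 : ℝ) ≤ 1)]

end Small

end

end Vale.Agent.P255
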