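import Vale.Agent.P255.Collar.Mid

/-!
The inequality for an excursion which turns in the middle of the collar and reaches the right face.
-/

open Set Filter MeasureTheory intervalIntegral
open scoped ContDiff Topology

namespace Vale.Agent.P255

noncomputable section

/-- The parameters are small enough for the turning excursions. -/
structure Tiny (N : ℕ) : Prop extends Small N where
  eta_turn : eta N ≤ (prof 3 - prof 2) / 5000

lemma prof_three_sub_two : 0 < prof 3 - prof 2 := by
  have h : prof 2 < prof 3 := by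
    show expNegInvGlue 2 < expNegInvGlue 3
    rw [glue_eq_of_pos (by norm_num), glue_eq_of_pos (by norm_num), Real.exp_lt_exp]
    norm_num
  linarith

lemma prof_le_bound_five : prof 3 - prof 2 ≤ 1 := by
  linarith [prof_le_one 3, prof_nonneg 2]

/-- The transversal component of the derivative of the velocity. -/
def phiR (N : ℕ) (p q t : ℝ) : ℝ := omR N (coVelD N p q t)

/-- The coefficient of the boundary form on the right face. -/
def faceK (N : ℕ) : ℝ := warp N 3 * warpD N 3

/-- The transversal velocity on the right face. -/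
def faceU (N : ℕ) (p q : ℝ) : ℝ := omR N (coVel N p q 2)

/-- The integrand controlling one half of an excursion; `σ = ±1` is the direction. -/
def halfDensity (N : ℕ) (p q σ : ℝ) (t z z' w' : ℝ → ℝ) (s : ℝ) : ℝ :=
  z' s ^ 2 + potW N p q (t s) * z s ^ 2 + (w' s - σ * (z s * phiR N p q (t s))) ^ 2 / 2

namespace Small

variable {N : ℕ} {p q : ℝ}

lemma faceK_bounds (h : Small N) : 0 ≤ faceK N ∧ faceK N ≤ 2 * eta N := by
  obtain ⟨a, b⟩ := h.warp_bounds (show (3 : ℝ) ≤ 8 by norm_num)
  refine ⟨mul_nonneg (by linarith) (h.warpD_nonneg 3), ?_⟩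
  calc warp N 3 * warpD N 3 ≤ 2 * eta N :=
    mul_le_mul (by linarith) (h.warpD_le 3) (h.warpD_nonneg 3) (by norm_num)

lemma deriv_face (h : Small N) (u w : E3) :
    deriv (profMetric N) 2 u w = 2 * faceK N * (omR N u * omR N w) := by
  rw [(h.deriv_right (t := 2) (by norm_num) (by norm_num) u w).1, faceK,
    show (1 : ℝ) + 2 = 3 by norm_num]
  ring

lemma face_identity (h : Small N) (p q : ℝ) :
    faceK N * faceU N p q ^ 2 = tauD N p q 2 := by
  have h1 := h.deriv_coVel_self (t := 2) ⟨by norm_num, le_rfl⟩ p q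
  rw [h.deriv_face] at h1
  unfold faceU
  nlinarith

lemma faceU_le (h : Small N) (p q : ℝ) : |faceU N p q| ≤ |p| := by
  have hB : coB N 2 = 1 := by rw [coB, profInt_eq_zero (by norm_num)]; ring
  have hC : coC N 2 = eps N := by rw [coC, mixInt_eq_one (by norm_num), h.eta_mix]; ring
  have hA : coA N 2 - eps N ^ 2 = rad N 3 := by rw [coA, rad]; norm_num; ring
  have he : faceU N p q = rad N 3 * p := by
    rw [← hA, faceU, omR_apply]; simp only [coVel, hB, hC]; ring
  obtain ⟨a, b⟩ := h.rad_bounds (show (3 : ℝ) ≤ 8 by norm_num)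
  rw [he, abs_mul, abs_of_nonneg (by linarith : (0 : ℝ) ≤ rad N 3)]
  exact mul_le_of_le_one_left (abs_nonneg p) b

end Small

section half

variable {N : ℕ} {p q S : ℝ} {t τ : ℝ → ℝ}

/-- An excursion from the turning point to the right face. -/
structure HalfTurn (N : ℕ) (p q : ℝ) (t τ : ℝ → ℝ) (S : ℝ) : Prop where
  pos : 0 < S
  mem : ∀ s ∈ Icc 0 S, t s ∈ Icc (-2 : ℝ) 2
  height : ∀ s ∈ Icc 0 S, HasDerivAt t (τ s) s
  speed : ∀ s ∈ Icc 0 S, HasDerivAt τ (tauD N p q (t s)) s
  start : τ 0 = 0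
  acc : 0 < tauD N p q (t 0)
  left : t 0 < 1
  face : t S = 2

namespace HalfTurn

lemma monotoneOn_of {F F' : ℝ → ℝ} (hF : ∀ s ∈ Icc 0 S, HasDerivAt F (F' s) s)
    (h0 : ∀ s ∈ Ioo 0 S, 0 ≤ F' s) : MonotoneOn F (Icc 0 S) :=
  monotoneOn_of_hasDerivWithinAt_nonneg (convex_Icc 0 S)
    (fun s hs => (hF s hs).continuousAt.continuousWithinAt) (f' := F')
    (fun s hs => by rw [interior_Icc] at hs; exact (hF s (Ioo_subset_Icc_self hs)).hasDerivWithinAt)
    fun s hs => by rw [interior_Icc] at hs; exact h0 s hs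

variable (hN : Small N) (h : HalfTurn N p q t τ S)

include h in
lemma hasDerivAt_acc {s : ℝ} (hs : s ∈ Icc 0 S) :
    HasDerivAt (fun r => tauD N p q (t r)) (potW N p q (t s) * τ s) s :=
  (hasDerivAt_tauD N p q (t s)).comp s (h.height s hs)

include hN h in
lemma speed_pos {s : ℝ} (hs : s ∈ Ioc 0 S) : 0 < τ s := by
  have hm : MonotoneOn (fun r => τ r * tauD N p q (t r)) (Icc 0 S) := by
    refine monotoneOn_of (fun r hr => (h.speed r hr).mul (h.hasDerivAt_acc hr)) fun r hr => ?_
    nlinarith [mul_nonneg (hN.potW_nonneg (h.mem r (Ioo_subset_Icc_self hr)) (a := p) (b := q))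
      (mul_self_nonneg (τ r)), mul_self_nonneg (tauD N p q (t r))]
  have hsq : MonotoneOn (fun r => τ r ^ 2) (Icc 0 S) := by
    refine monotoneOn_of (fun r hr => (h.speed r hr).pow 2) fun r hr => ?_
    have := hm (left_mem_Icc.2 h.pos.le) (Ioo_subset_Icc_self hr) hr.1.le
    simp only [h.start, zero_mul] at this
    simp
    nlinarith
  have h0 := h.speed 0 (left_mem_Icc.2 h.pos.le)
  have hev : ∀ᶠ r in 𝓝[>] (0 : ℝ), 0 < τ r := by
    have hsl := hasDerivAt_iff_tendsto_slope.1 h0
    have := (hsl.mono_left (nhdsGT_le_nhdsNE 0)).eventually (lt_mem_nhds h.acc)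
    filter_upwards [this, self_mem_nhdsWithin] with r hr hr0
    rw [slope_def_field, h.start, sub_zero, sub_zero] at hr
    exact (div_pos_iff_of_pos_right hr0).1 hr
  obtain ⟨r, hr, hrs⟩ := (hev.and (Ioo_mem_nhdsGT hs.1)).exists
  have hne : ∀ r' ∈ Icc r s, τ r' ≠ 0 := by
    intro r' hr' h0'
    have := hsq ⟨hrs.1.le, hrs.2.le.trans hs.2⟩ ⟨hrs.1.le.trans hr'.1, hr'.2.trans hs.2⟩ hr'.1
    simp only [h0'] at this
    nlinarith
  by_contra hcon
  push Not at hcon
  have hcont : ContinuousOn τ (Icc r s) := fun x hx =>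
    (h.speed x ⟨hrs.1.le.trans hx.1, hx.2.trans hs.2⟩).continuousAt.continuousWithinAt
  obtain ⟨x, hx, hx0⟩ := intermediate_value_Icc' hrs.2.le hcont ⟨hcon, hr.le⟩
  exact hne x hx hx0

include hN h in
lemma speed_nonneg {s : ℝ} (hs : s ∈ Icc 0 S) : 0 ≤ τ s := by
  rcases eq_or_lt_of_le hs.1 with h0 | h0
  · rw [← h0, h.start]
  · exact (speed_pos hN h ⟨h0, hs.2⟩).le

include hN h in
lemma acc_le {s : ℝ} (hs : s ∈ Icc 0 S) : tauD N p q (t 0) ≤ tauD N p q (t s) :=
  monotoneOn_of (fun r hr => h.hasDerivAt_acc hr)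
    (fun r hr => mul_nonneg (hN.potW_nonneg (h.mem r (Ioo_subset_Icc_self hr)))
      (speed_nonneg hN h (Ioo_subset_Icc_self hr))) (left_mem_Icc.2 h.pos.le) hs hs.1

include hN h in
lemma height_le {s : ℝ} (hs : s ∈ Icc 0 S) : t 0 ≤ t s :=
  monotoneOn_of h.height (fun r hr => speed_nonneg hN h (Ioo_subset_Icc_self hr))
    (left_mem_Icc.2 h.pos.le) hs hs.1

include hN h in
lemma start_gt : -1 < t 0 := by
  by_contra hc
  push Not at hc
  have := h.acc
  rw [tauD, prof_eq_zero (x := 1 + t 0) (by linarith)] at this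
  have h2 : 0 ≤ eta N / 2 * (prof (1 - t 0) * q ^ 2) :=
    mul_nonneg (div_nonneg hN.eta_pos.le (by norm_num)) (mul_nonneg (prof_nonneg _) (sq_nonneg q))
  nlinarith

include hN h in
lemma sign_bound {s : ℝ} (hs : s ∈ Icc 0 S) :
    prof (1 - t s) * q ^ 2 ≤ 2 * prof (1 + t s) * p ^ 2 ∧
      tauD N p q (t s) ≤ eta N * prof (1 + t s) * p ^ 2 := by
  have hT : 0 < tauD N p q (t s) := h.acc.trans_le (acc_le hN h hs)
  set A := prof (1 + t s)
  set B := prof (1 - t s)
  have hA := prof_nonneg (1 + t s)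
  have hB := prof_nonneg (1 - t s)
  have hpos : 0 < A * p ^ 2 - B * q ^ 2 - 2 * mu * (A * B) * p * q :=
    (mul_pos_iff_of_pos_left (half_pos hN.eta_pos)).1 hT
  have h1 : B * q ^ 2 ≤ 2 * A * p ^ 2 :=
    turn_sign (m := -mu) (a := p) (b := q) hA (prof_le_one _) hB (prof_le_one _) (by norm_num [mu])
      (by nlinarith)
  refine ⟨h1, ?_⟩
  have h2 : -(2 * mu * (A * B) * p * q) ≤ mu * (A * p ^ 2) + mu * (B * q ^ 2) := by
    have hAB : 0 ≤ A * B := mul_nonneg hA hB
    have hmu : (0 : ℝ) ≤ mu := by norm_num [mu]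
    have e1 : -(2 * p * q) * (A * B) ≤ (p ^ 2 + q ^ 2) * (A * B) := by
      gcongr; nlinarith [sq_nonneg (p + q)]
    have e2 : (p ^ 2 + q ^ 2) * (A * B) ≤ A * p ^ 2 + B * q ^ 2 := by
      nlinarith [mul_nonneg (mul_nonneg hA (sub_nonneg.2 (prof_le_one (1 - t s)))) (sq_nonneg p),
        mul_nonneg (mul_nonneg hB (sub_nonneg.2 (prof_le_one (1 + t s)))) (sq_nonneg q)]
    nlinarith [mul_le_mul_of_nonneg_left (e1.trans e2) hmu]
  have h3 : mu * (B * q ^ 2) ≤ mu * (2 * A * p ^ 2) :=
    mul_le_mul_of_nonneg_left h1 (by norm_num [mu])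
  have h4 : 0 ≤ B * q ^ 2 := mul_nonneg hB (sq_nonneg q)
  have h5 : A * p ^ 2 - B * q ^ 2 - 2 * mu * (A * B) * p * q ≤ 2 * A * p ^ 2 := by
    have : 0 ≤ A * p ^ 2 := mul_nonneg hA (sq_nonneg p)
    norm_num [mu] at h2 h3 ⊢
    linarith
  show eta N / 2 * _ ≤ _
  calc eta N / 2 * (A * p ^ 2 - B * q ^ 2 - 2 * mu * (A * B) * p * q)
      ≤ eta N / 2 * (2 * A * p ^ 2) := mul_le_mul_of_nonneg_left h5 (half_pos hN.eta_pos).le
    _ = eta N * A * p ^ 2 := by ring

include hN h in
lemma phi_bound {s : ℝ} (hs : s ∈ Icc 0 S) :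
    |phiR N p q (t s)| ≤ 2 * eta N * |p| * Real.sqrt (prof (1 + t s)) := by
  set A := prof (1 + t s) with hAdef
  set B := prof (1 - t s)
  have hA := prof_nonneg (1 + t s)
  have hB := prof_nonneg (1 - t s)
  set r := Real.sqrt A
  have hr : r ^ 2 = A := Real.sq_sqrt hA
  have hr0 : 0 ≤ r := Real.sqrt_nonneg _
  have hr1 : r ≤ 1 := Real.sqrt_le_one.2 (prof_le_one _)
  have hBq : |B * q| ≤ 3 / 2 * (r * |p|) := by
    refine abs_le_of_sq_le_sq ?_ (by positivity)
    calc (B * q) ^ 2 = B * (B * q ^ 2) := by ring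
      _ ≤ 1 * (2 * A * p ^ 2) :=
        mul_le_mul (prof_le_one _) (sign_bound hN h hs).1 (mul_nonneg hB (sq_nonneg q)) zero_le_one
      _ ≤ (3 / 2 * (r * |p|)) ^ 2 := by
        rw [mul_pow, mul_pow, hr, sq_abs]; nlinarith [mul_nonneg hA (sq_nonneg p)]
  have hAp : |A * p| ≤ r * |p| := by
    rw [abs_mul, abs_of_nonneg hA]
    exact mul_le_mul_of_nonneg_right (by nlinarith) (abs_nonneg p)
  have hA1 : A ≤ 1 := prof_le_one _
  have hB1 : B ≤ 1 := prof_le_one _
  have h1 : |mu * (A * (B * q))| ≤ 1 / 10 * (r * |p|) := by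
    rw [abs_mul, abs_mul, abs_of_nonneg hA]
    calc |mu| * (A * |B * q|) ≤ (1 / 100 : ℝ) * (1 * (3 / 2 * (r * |p|))) := by
          gcongr; norm_num [mu]
      _ ≤ _ := by nlinarith [mul_nonneg hr0 (abs_nonneg p)]
  have h2 : |mu * (B * (A * p))| ≤ 1 / 10 * (r * |p|) := by
    rw [abs_mul, abs_mul, abs_of_nonneg hB]
    calc |mu| * (B * |A * p|) ≤ (1 / 100 : ℝ) * (1 * (r * |p|)) := by
          gcongr; norm_num [mu]
      _ ≤ _ := by nlinarith [mul_nonneg hr0 (abs_nonneg p)]
  have h3 : |eps N * (mu * (B * (A * p)) + B * q)| ≤ 1 / 10 * (r * |p|) := by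
    rw [abs_mul, abs_of_pos hN.eps_pos]
    calc eps N * |mu * (B * (A * p)) + B * q| ≤ (1 / 100 : ℝ) * (2 * (r * |p|)) := by
          gcongr
          · exact hN.eps_le
          · exact (abs_add_le _ _).trans (by nlinarith [mul_nonneg hr0 (abs_nonneg p)])
      _ ≤ _ := by nlinarith [mul_nonneg hr0 (abs_nonneg p)]
  have he : phiR N p q (t s) =
      eta N * (-(A * p) + mu * (A * (B * q)) - eps N * (mu * (B * (A * p)) + B * q)) := by
    simp only [phiR, omR_apply, coVelD, A, B]; ring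
  rw [he, abs_mul, abs_of_pos hN.eta_pos]
  calc eta N * |-(A * p) + mu * (A * (B * q)) - eps N * (mu * (B * (A * p)) + B * q)|
      ≤ eta N * (2 * (r * |p|)) := by
        refine mul_le_mul_of_nonneg_left ?_ hN.eta_pos.le
        refine (abs_sub _ _).trans ((add_le_add (abs_add_le _ _) le_rfl).trans ?_)
        rw [abs_neg]
        nlinarith [mul_nonneg hr0 (abs_nonneg p)]
    _ = _ := by ring

include hN h in
/-- All the scalar bounds along the excursion. -/
lemma bounds {s : ℝ} (hs : s ∈ Icc 0 S) :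
    t s - t 0 ≤ τ s * s ∧ tauD N p q (t 0) * s ^ 2 / 2 ≤ t s - t 0 ∧
    τ s ^ 2 ≤ 2 * eta N * p ^ 2 * (t s - t 0) ∧
    2 * tauD N p q (t 0) * (t s - t 0) ≤ τ s ^ 2 ∧
    eta N * p ^ 2 * prof (1 + t s) * (t s - t 0) ^ 2 / 256 ≤ τ s ^ 2 ∧
    eta N * p ^ 2 / 4 * (prof (1 + t s) - prof (1 + t 0)) ≤ tauD N p q (t s) - tauD N p q (t 0) := by
  set C := tauD N p q (t 0)
  have h0 : (0 : ℝ) ∈ Icc 0 S := left_mem_Icc.2 h.pos.le
  have hs0 := hs.1
  have m1 := monotoneOn_of (F := fun r => τ r * r - t r)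
    (fun r hr => ((h.speed r hr).mul (hasDerivAt_id' r)).sub (h.height r hr)) (fun r hr => by
      have := h.acc.trans_le (acc_le hN h (Ioo_subset_Icc_self hr))
      nlinarith [hr.1]) h0 hs hs0
  have m2 := monotoneOn_of (F := fun r => τ r - C * r)
    (fun r hr => (h.speed r hr).sub ((hasDerivAt_id' r).const_mul C))
    (fun r hr => by have := acc_le hN h (Ioo_subset_Icc_self hr); linarith)
  have m2' := monotoneOn_of (F := fun r => t r - C / 2 * r ^ 2)
    (fun r hr => (h.height r hr).sub ((hasDerivAt_pow 2 r).const_mul (C / 2))) (fun r hr => by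
      have := m2 h0 (Ioo_subset_Icc_self hr) hr.1.le
      simp only [h.start, mul_zero, sub_zero] at this
      simp; linarith) h0 hs hs0
  have m3 := monotoneOn_of (F := fun r => 2 * eta N * p ^ 2 * t r - τ r ^ 2)
    (fun r hr => ((h.height r hr).const_mul _).sub ((h.speed r hr).pow 2)) (fun r hr => by
      have hr' := Ioo_subset_Icc_self hr
      have hA := mul_le_mul_of_nonneg_right (mul_le_mul_of_nonneg_left (prof_le_one (1 + t r))
        hN.eta_pos.le) (sq_nonneg p)
      have hle := (sign_bound hN h hr').2.trans hA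
      have := mul_le_mul_of_nonneg_left hle (speed_nonneg hN h hr')
      simp; nlinarith) h0 hs hs0
  have hacc : ∀ r ∈ Icc 0 S,
      eta N * p ^ 2 / 4 * (prof (1 + t r) - prof (1 + t 0)) ≤ tauD N p q (t r) - C := by
    intro r hr
    have := monotoneOn_of
      (F := fun r => tauD N p q (t r) - eta N * p ^ 2 / 4 * prof (1 + t r))
      (fun r hr => (h.hasDerivAt_acc hr).sub
        (((hasDerivAt_prof_add (t r)).comp r (h.height r hr)).const_mul _)) (fun u hu => by
        have hu' := Ioo_subset_Icc_self hu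
        have hw := hN.potW_lower (h.mem u hu') (a := p) (b := q)
        have h2 : 0 ≤ eta N / 4 * (profD (1 - t u) * q ^ 2) :=
          mul_nonneg (div_nonneg hN.eta_pos.le (by norm_num))
            (mul_nonneg (profD_nonneg _) (sq_nonneg q))
        have h3 : eta N * p ^ 2 / 4 * profD (1 + t u) ≤ potW N p q (t u) := by linarith
        have := mul_le_mul_of_nonneg_right h3 (speed_nonneg hN h hu')
        linarith) h0 hr hr.1
    simp only at this
    linarith
  have m4 := monotoneOn_of (F := fun r => τ r ^ 2 - 2 * C * t r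
      - eta N * p ^ 2 / 2 * (profInt (1 + t r) - prof (1 + t 0) * t r))
    (fun r hr => (((h.speed r hr).pow 2).sub ((h.height r hr).const_mul _)).sub
      (((((hasDerivAt_profInt (1 + t r)).comp_const_add 1 (t r)).comp r (h.height r hr)).sub
        ((h.height r hr).const_mul _)).const_mul _)) (fun u hu => by
      have hu' := Ioo_subset_Icc_self hu
      have := mul_le_mul_of_nonneg_left (hacc u hu') (speed_nonneg hN h hu')
      simp; nlinarith) h0 hs hs0
  simp only [h.start, mul_zero, sub_zero, zero_mul, ne_eq, OfNat.ofNat_ne_zero, not_false_eq_true,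
    zero_pow] at m1 m2' m3 m4
  have hex : (t s - t 0) ^ 2 * prof (1 + t s) / 128 ≤
      profInt (1 + t s) - profInt (1 + t 0) - prof (1 + t 0) * (t s - t 0) := by
    have := glue_excess (x₀ := 1 + t 0) (x := 1 + t s) (by linarith [start_gt hN h])
      (by linarith [height_le hN h hs]) (by linarith [(h.mem s hs).2])
    change _ ≤ ∫ y in (1 + t 0)..(1 + t s), (prof y - prof (1 + t 0)) at this
    rw [integral_sub (continuous_prof.intervalIntegrable _ _) intervalIntegrable_const,
      intervalIntegral.integral_const, smul_eq_mul] at this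
    rw [show profInt (1 + t s) - profInt (1 + t 0) = ∫ y in (1 + t 0)..(1 + t s), prof y from
      integral_interval_sub_left (continuous_prof.intervalIntegrable _ _)
        (continuous_prof.intervalIntegrable _ _)]
    rw [add_sub_add_left_eq_sub, mul_comm (t s - t 0) (prof (1 + t 0))] at this
    exact this
  have hnn : 0 ≤ (t s - t 0) ^ 2 * prof (1 + t s) / 128 := by
    have := prof_nonneg (1 + t s); positivity
  have hep : 0 ≤ eta N * p ^ 2 / 2 := by have := hN.eta_pos; positivity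
  refine ⟨by linarith, by linarith, by linarith, ?_, ?_, hacc s hs⟩
  · nlinarith [mul_le_mul_of_nonneg_left (hnn.trans hex) hep]
  · have hC : 0 ≤ 2 * C * (t s - t 0) :=
      mul_nonneg (by linarith [h.acc]) (by linarith [height_le hN h hs])
    nlinarith [mul_le_mul_of_nonneg_left hex hep]

include h in
lemma continuousOn_height : ContinuousOn t (Icc 0 S) :=
  fun s hs => (h.height s hs).continuousAt.continuousWithinAt

include hN h in
/-- The excess acceleration vanishes to second order. -/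
lemma exists_kappa_bound :
    ∃ K : ℝ, ∀ s ∈ Icc 0 S, tauD N p q (t s) - tauD N p q (t 0) ≤ K * (τ s * s) := by
  obtain ⟨K, hK⟩ := isCompact_Icc.exists_bound_of_continuousOn
    ((continuous_potW N p q).comp_continuousOn (h.continuousOn_height))
  refine ⟨|K|, fun s hs => ?_⟩
  have := monotoneOn_of (F := fun r => |K| * t r - tauD N p q (t r))
    (fun r hr => ((h.height r hr).const_mul _).sub (h.hasDerivAt_acc hr)) (fun u hu => by
      have hu' := Ioo_subset_Icc_self hu
      have hk := (abs_le.1 ((hK u hu').trans (le_abs_self K))).2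
      have := mul_le_mul_of_nonneg_right hk (speed_nonneg hN h hu')
      simp only [Function.comp_apply] at this
      linarith) (left_mem_Icc.2 h.pos.le) hs hs.1
  simp only at this
  nlinarith [mul_le_mul_of_nonneg_left (bounds hN h hs).1 (abs_nonneg K)]

end HalfTurn

lemma PW.comb {a b c d : ℝ} {f f' g g' : ℝ → ℝ} (hf : PW f f' a b) (hg : PW g g' a b) :
    PW (fun s => c * f s + d * g s) (fun s => c * f' s + d * g' s) a b := by
  classical
  obtain ⟨S, hS⟩ := hf.der
  obtain ⟨T, hT⟩ := hg.der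
  refine ⟨(continuousOn_const.mul hf.cont).add (continuousOn_const.mul hg.cont),
    (hf.pwc.const_mul c).add (hg.pwc.const_mul d), S ∪ T, fun s hs hn => ?_⟩
  rw [Finset.notMem_union] at hn
  exact ((hS s hs hn.1).const_mul c).add ((hT s hs hn.2).const_mul d)

/-- A piecewise differentiable function vanishing at the left end is of linear size there. -/
lemma PW.exists_linear_bound {a b : ℝ} {z z' : ℝ → ℝ} (hz : PW z z' a b) (h0 : z a = 0) :
    ∃ L, 0 ≤ L ∧ ∀ s ∈ Icc a b, |z s| ≤ L * (s - a) := by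
  obtain ⟨S, C, hC⟩ := hz.pwc
  refine ⟨|C|, abs_nonneg C, fun s hs => ?_⟩
  have hm := hz.mono le_rfl hs.2
  have h1 := ftc_pwc hs.1 hm.cont hm.der hm.pwc
  rw [h0, sub_zero] at h1
  rw [← h1, ← Real.norm_eq_abs]
  refine (norm_integral_le_of_norm_le_const_ae (C := |C|) ?_).trans (le_of_eq ?_)
  · rw [uIoc_of_le hs.1]
    have hnull : ∀ᵐ r : ℝ, r ∉ ((insert s S : Finset ℝ) : Set ℝ) :=
      measure_eq_zero_iff_ae_notMem.1 ((insert s S).finite_toSet.measure_zero volume)
    filter_upwards [hnull] with r hr hrs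
    rw [Finset.mem_coe, Finset.mem_insert, not_or] at hr
    rw [Real.norm_eq_abs]
    exact (hC r ⟨hrs.1, (lt_of_le_of_ne hrs.2 hr.1).trans_le hs.2⟩ hr.2).2.trans (le_abs_self C)
  · rw [abs_of_nonneg (sub_nonneg.2 hs.1)]

/-- Linear functions tend to zero at the origin. -/
lemma tendsto_lin (A : Set ℝ) (L : ℝ) : Tendsto (fun s : ℝ => L * s) (𝓝[A] 0) (𝓝 0) := by
  have h := ((continuous_const_mul L).tendsto (0 : ℝ)).mono_left (nhdsWithin_le_nhds (s := A))
  rwa [mul_zero] at h

variable {e e' o o' d d' : ℝ → ℝ}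

/-- The quadratic form at the face for the even part. -/
lemma turn_face_form (hN : Tiny N) (h : HalfTurn N p q t τ S) {Pv : ℝ}
    (hPv : Pv ^ 2 ≤ 4096 * eta N) (z y : ℝ) :
    0 ≤ (tauD N p q (t S) - tauD N p q (t 0)) / τ S * z ^ 2 + (y - Pv * z) ^ 2 / (3 * S)
      + τ S * faceK N * y ^ 2 - 2 * faceK N * faceU N p q * z * y := by
    have hS := h.pos
    have hmem0 : (0 : ℝ) ∈ Icc 0 S := left_mem_Icc.2 hS.le
    have hmemS : S ∈ Icc 0 S := right_mem_Icc.2 hS.le
    have hη := hN.toSmall.eta_pos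
    have hτS := h.speed_pos hN.toSmall ⟨hS, le_rfl⟩
    set C := tauD N p q (t 0) with hC
    set T : ℝ → ℝ := fun s => tauD N p q (t s) with hT
    have hid := hN.toSmall.face_identity p q
    have hTS : T S = tauD N p q 2 := by simp only [hT, h.face]
    set k := faceK N
    set u := faceU N p q
    have hk0 := hN.toSmall.faceK_bounds
    show 0 ≤ (T S - C) / τ S * z ^ 2 + _ + _ - _
    obtain ⟨-, hb2, hb3, -, -, hb6⟩ := h.bounds hN.toSmall hmemS
    rw [h.face] at hb2 hb3 hb6
    have hsg := h.start_gt hN.toSmall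
    refine face_form_nonneg (P := T S - C) (C := C) hτS hk0.1 (by linarith) (by linarith) ?_
    have hp2 : 0 ≤ eta N * p ^ 2 := by positivity
    have hC1 : C ≤ eta N * p ^ 2 := by
      refine (h.sign_bound hN.toSmall hmem0).2.trans ?_
      exact mul_le_mul_of_nonneg_right
        (mul_le_of_le_one_right hη.le (prof_le_one _)) (sq_nonneg p)
    have hτ2 : τ S ^ 2 ≤ 6 * (eta N * p ^ 2) := by
      nlinarith [mul_le_mul_of_nonneg_left (show 2 - t 0 ≤ 3 by linarith) hp2]
    have hCS : C * S ^ 2 ≤ 6 := by linarith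
    have hτCS : τ S * C * S ≤ 6 * (eta N * p ^ 2) := by
      refine le_of_abs_le (abs_le_of_sq_le_sq ?_ (by positivity))
      calc (τ S * C * S) ^ 2 = τ S ^ 2 * C * (C * S ^ 2) := by ring
        _ ≤ 6 * (eta N * p ^ 2) * (eta N * p ^ 2) * 6 :=
          mul_le_mul (mul_le_mul hτ2 hC1 h.acc.le (by positivity)) hCS
            (mul_nonneg h.acc.le (sq_nonneg S)) (by positivity)
        _ = (6 * (eta N * p ^ 2)) ^ 2 := by ring
    have hPτ : |Pv| * τ S ≤ 160 * eta N * |p| := by
      refine le_of_abs_le (abs_le_of_sq_le_sq ?_ (by positivity))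
      calc (|Pv| * τ S) ^ 2 = Pv ^ 2 * τ S ^ 2 := by rw [mul_pow, sq_abs]
        _ ≤ 4096 * eta N * (6 * (eta N * p ^ 2)) :=
          mul_le_mul hPv hτ2 (sq_nonneg _) (by positivity)
        _ ≤ (160 * eta N * |p|) ^ 2 := by
          rw [mul_pow, mul_pow, sq_abs]; nlinarith [mul_nonneg hη.le hp2]
    have h1 : τ S * k * C * (3 * S) ≤ 36 * eta N * (eta N * p ^ 2) := by
      calc τ S * k * C * (3 * S) = 3 * k * (τ S * C * S) := by ring
        _ ≤ 3 * (2 * eta N) * (6 * (eta N * p ^ 2)) :=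
          mul_le_mul (by linarith [hk0.2]) hτCS
            (mul_nonneg (mul_nonneg hτS.le h.acc.le) hS.le) (by positivity)
        _ = _ := by ring
    have h2 : 2 * k * |u| * |Pv| * τ S ≤ 640 * eta N * (eta N * p ^ 2) := by
      calc 2 * k * |u| * |Pv| * τ S = 2 * k * |u| * (|Pv| * τ S) := by ring
        _ ≤ 2 * (2 * eta N) * |p| * (160 * eta N * |p|) :=
          mul_le_mul (mul_le_mul (by linarith [hk0.2]) (hN.toSmall.faceU_le p q) (abs_nonneg u)
            (by positivity)) hPτ (mul_nonneg (abs_nonneg _) hτS.le) (by positivity)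
        _ = _ := by rw [← sq_abs p]; ring
    have h3 : eta N * p ^ 2 / 4 * (prof 3 - prof 2) ≤ T S - C := by
      have hmono : prof (1 + t 0) ≤ prof 2 :=
        expNegInvGlue.monotone (show 1 + t 0 ≤ 2 by linarith [h.left])
      rw [hTS]
      norm_num at hb6
      nlinarith [mul_le_mul_of_nonneg_left hmono hp2]
    nlinarith [mul_le_mul_of_nonneg_left hN.eta_turn hp2]

/-- The estimate for the even part of a test field. -/
lemma turn_even (hN : Tiny N) (h : HalfTurn N p q t τ S) (he : PW e e' 0 S) (hd : PW d d' 0 S)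
    (hd0 : d 0 = 0) :
    0 ≤ (∫ s in (0 : ℝ)..S, (e' s ^ 2 + potW N p q (t s) * e s ^ 2))
      + (∫ s in (0 : ℝ)..S, (d' s - phiR N p q (t s) * e s) ^ 2) / 2
      + τ S * faceK N * d S ^ 2 - 2 * faceK N * faceU N p q * e S * d S := by
  have hS := h.pos
  have hmem0 : (0 : ℝ) ∈ Icc 0 S := left_mem_Icc.2 hS.le
  have hmemS : S ∈ Icc 0 S := right_mem_Icc.2 hS.le
  have hη := hN.toSmall.eta_pos
  set C := tauD N p q (t 0) with hC
  set T : ℝ → ℝ := fun s => tauD N p q (t s) with hT
  set W : ℝ → ℝ := fun s => potW N p q (t s) with hW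
  set φ : ℝ → ℝ := fun s => phiR N p q (t s) with hφ
  have htc := h.continuousOn_height
  have hτc : ContinuousOn τ (Icc 0 S) := fun s hs => (h.speed s hs).continuousAt.continuousWithinAt
  have hWc : ContinuousOn W (Icc 0 S) := (continuous_potW N p q).comp_continuousOn htc
  have hTc : ContinuousOn T (Icc 0 S) := (continuous_tauD N p q).comp_continuousOn htc
  have hφc : ContinuousOn φ (Icc 0 S) :=
    ((omR N).continuous.comp (continuous_coVelD N p q)).comp_continuousOn htc
  have hres : PWC (fun s => d' s - φ s * e s) 0 S :=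
    hd.pwc.sub (.of_continuousOn (hφc.mul he.cont))
  have hτpos : ∀ s ∈ Ioc 0 S, 0 < τ s := fun s hs => h.speed_pos hN.toSmall hs
  have hτS := hτpos S ⟨hS, le_rfl⟩
  -- the Riccati coefficient
  classical
  set κ : ℝ → ℝ := fun s => (T s - C) / τ s with hκ
  set κ' : ℝ → ℝ := fun s => (W s * τ s * τ s - (T s - C) * T s) / τ s ^ 2 with hκ'
  have hκ0 : κ 0 = 0 := by simp only [hκ, hT, hC, sub_self, zero_div]
  obtain ⟨K, hK⟩ := h.exists_kappa_bound hN.toSmall
  have hκb : ∀ s ∈ Icc 0 S, 0 ≤ κ s ∧ κ s ≤ |K| * s := by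
    intro s hs
    rcases eq_or_lt_of_le hs.1 with h0 | h0
    · rw [← h0, hκ0]; simp
    have hp' := hτpos s ⟨h0, hs.2⟩
    refine ⟨div_nonneg (sub_nonneg.2 (h.acc_le hN.toSmall hs)) hp'.le, ?_⟩
    rw [hκ, div_le_iff₀ hp']
    calc T s - C ≤ K * (τ s * s) := hK s hs
      _ ≤ |K| * (τ s * s) := mul_le_mul_of_nonneg_right (le_abs_self K) (mul_nonneg hp'.le hs.1)
      _ = |K| * s * τ s := by ring
  have hκd : ∀ s ∈ Ioc 0 S, HasDerivAt κ (κ' s) s := fun s hs =>
    (((h.hasDerivAt_acc ⟨hs.1.le, hs.2⟩).sub_const C).div (h.speed s ⟨hs.1.le, hs.2⟩)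
      (hτpos s hs).ne').congr_deriv (by simp only [hκ', hT, hW])
  have hκc : ContinuousOn κ (Icc 0 S) := by
    intro s hs
    rcases eq_or_lt_of_le hs.1 with h0 | h0
    · subst h0
      rw [ContinuousWithinAt, hκ0]
      have hl : Tendsto (fun r : ℝ => |K| * r) (𝓝[Icc 0 S] 0) (𝓝 0) := tendsto_lin _ _
      exact tendsto_of_tendsto_of_tendsto_of_le_of_le' tendsto_const_nhds hl
        (eventually_nhdsWithin_of_forall fun r hr => (hκb r hr).1)
        (eventually_nhdsWithin_of_forall fun r hr => (hκb r hr).2)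
    · exact (hκd s ⟨h0, hs.2⟩).continuousAt.continuousWithinAt
  have hκ'c : ContinuousOn κ' (Ioc 0 S) := by
    have hsub : Ioc 0 S ⊆ Icc 0 S := Ioc_subset_Icc_self
    exact ((((hWc.mono hsub).mul (hτc.mono hsub)).mul (hτc.mono hsub)).sub
      (((hTc.mono hsub).sub continuousOn_const).mul (hTc.mono hsub))).div ((hτc.mono hsub).pow 2)
      fun s hs => (pow_pos (hτpos s hs) 2).ne'
  have hκle : ∀ s ∈ Ioo 0 S, κ' s + κ s ^ 2 ≤ W s := by
    intro s hs
    have hp' := hτpos s ⟨hs.1, hs.2.le⟩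
    have h1 : 0 ≤ C * (T s - C) := mul_nonneg h.acc.le
      (sub_nonneg.2 (h.acc_le hN.toSmall (Ioo_subset_Icc_self hs)))
    simp only [hκ', hκ, div_pow, ← add_div]
    rw [div_le_iff₀ (pow_pos hp' 2)]
    nlinarith
  have hκlim : Tendsto (fun s => κ s * e s ^ 2) (𝓝[>] 0) (𝓝 0) := by
    have hc : ContinuousWithinAt (fun s => κ s * e s ^ 2) (Icc 0 S) 0 :=
      (hκc.mul (he.cont.pow 2)) 0 hmem0
    have ht := hc.mono_left (nhdsWithin_le_of_mem (mem_of_superset (Ioo_mem_nhdsGT hS)
      Ioo_subset_Icc_self))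
    simpa [hκ0] using ht
  obtain ⟨-, heven⟩ := riccati_le hS he hWc hκd hκ'c hκle hκlim
  have heven := heven hκc
  -- the weight of the moment
  set κ₁ : ℝ → ℝ := IccExtend hS.le ((Icc 0 S).domRestrict κ) with hκ₁
  set φ₁ : ℝ → ℝ := IccExtend hS.le ((Icc 0 S).domRestrict φ) with hφ₁
  have hκ₁c : Continuous κ₁ := hκc.domRestrict.Icc_extend'
  have hφ₁c : Continuous φ₁ := hφc.domRestrict.Icc_extend'
  have hκeq : ∀ s ∈ Icc 0 S, κ₁ s = κ s := fun s hs => by
    rw [hκ₁, IccExtend_of_mem _ _ hs]; rfl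
  have hφeq : ∀ s ∈ Icc 0 S, φ₁ s = φ s := fun s hs => by
    rw [hφ₁, IccExtend_of_mem _ _ hs]; rfl
  set r : ℝ → ℝ := fun s => Real.sqrt (prof (1 + t s)) with hr
  set M : ℝ → ℝ := fun s => 4 * eta N * |p| * (r s * ((t s - t 0) / τ s)) with hM
  set M' : ℝ → ℝ := fun s => 4 * eta N * |p| *
    (profD (1 + t s) * τ s / (2 * r s) * ((t s - t 0) / τ s)
      + r s * ((τ s * τ s - (t s - t 0) * T s) / τ s ^ 2)) with hM'
  have hpos : ∀ s ∈ Icc 0 S, 0 < prof (1 + t s) := fun s hs =>
    prof_pos (by linarith [h.start_gt hN.toSmall, h.height_le hN.toSmall hs])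
  have hM0 : M 0 = 0 := by simp [hM]
  have hMd : ∀ s ∈ Ioc 0 S, HasDerivAt M (M' s) s := by
    intro s hs
    have hs' : s ∈ Icc 0 S := Ioc_subset_Icc_self hs
    exact ((((hasDerivAt_prof_add (t s)).comp s (h.height s hs')).sqrt (hpos s hs').ne').mul
      (((h.height s hs').sub_const (t 0)).div (h.speed s hs') (hτpos s hs).ne')).const_mul _
  have hMb : ∀ s ∈ Icc 0 S, 0 ≤ M s ∧ M s ≤ 4 * eta N * |p| * s := by
    intro s hs
    rcases eq_or_lt_of_le hs.1 with h0 | h0
    · rw [← h0, hM0]; simp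
    have hp' := hτpos s ⟨h0, hs.2⟩
    have hD : 0 ≤ t s - t 0 := sub_nonneg.2 (h.height_le hN.toSmall hs)
    have hr0 : 0 ≤ r s := Real.sqrt_nonneg _
    have hr1 : r s ≤ 1 := Real.sqrt_le_one.2 (prof_le_one _)
    refine ⟨by simp only [hM]; positivity, ?_⟩
    have h2 : (t s - t 0) / τ s ≤ s := by
      rw [div_le_iff₀ hp']; linarith [(h.bounds hN.toSmall hs).1]
    calc M s ≤ 4 * eta N * |p| * (1 * s) := by simp only [hM]; gcongr
      _ = _ := by ring
  have hMc : ContinuousOn M (Icc 0 S) := by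
    intro s hs
    rcases eq_or_lt_of_le hs.1 with h0 | h0
    · subst h0
      rw [ContinuousWithinAt, hM0]
      have hl : Tendsto (fun r : ℝ => 4 * eta N * |p| * r) (𝓝[Icc 0 S] 0) (𝓝 0) :=
        tendsto_lin _ _
      exact tendsto_of_tendsto_of_tendsto_of_le_of_le' tendsto_const_nhds hl
        (eventually_nhdsWithin_of_forall fun r hr => (hMb r hr).1)
        (eventually_nhdsWithin_of_forall fun r hr => (hMb r hr).2)
    · exact (hMd s ⟨h0, hs.2⟩).continuousAt.continuousWithinAt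
  have hsup : ∀ s ∈ Ioo 0 S, |φ₁ s| ≤ M' s + κ₁ s * M s := by
    intro s hs
    have hs' := Ioo_subset_Icc_self hs
    rw [hφeq s hs', hκeq s hs']
    refine (h.phi_bound hN.toSmall hs').trans ?_
    have hp' := hτpos s ⟨hs.1, hs.2.le⟩
    have hD : 0 ≤ t s - t 0 := sub_nonneg.2 (h.height_le hN.toSmall hs')
    have hr0 : 0 < r s := Real.sqrt_pos.2 (hpos s hs')
    have h4 := (h.bounds hN.toSmall hs').2.2.2.1
    have e1 : M' s + κ s * M s = 4 * eta N * |p| *
        (profD (1 + t s) * (t s - t 0) / (2 * r s) + r s * (1 - C * (t s - t 0) / τ s ^ 2)) := by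
      simp only [hM', hM, hκ]; field_simp; ring
    have e2 : 1 / 2 ≤ 1 - C * (t s - t 0) / τ s ^ 2 := by
      have : C * (t s - t 0) / τ s ^ 2 ≤ 1 / 2 := by
        rw [div_le_iff₀ (pow_pos hp' 2)]; linarith
      linarith
    have e3 : 0 ≤ profD (1 + t s) * (t s - t 0) / (2 * r s) :=
      div_nonneg (mul_nonneg (profD_nonneg _) hD) (by positivity)
    rw [e1]
    calc 2 * eta N * |p| * Real.sqrt (prof (1 + t s))
        = 4 * eta N * |p| * (0 + r s * (1 / 2)) := by simp only [hr]; ring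
      _ ≤ _ := by gcongr
  obtain ⟨P, hP0, hPd, hPb⟩ := exists_moment_weight (M := M) (M' := M') hS.le hκ₁c hφ₁c hMc
    hM0.ge (fun s hs => hMd s (Ioo_subset_Ioc_self hs)) hsup
  have hPbound : ∀ s ∈ Icc 0 S, P s ^ 2 ≤ 4096 * eta N := by
    intro s hs
    rw [← sq_abs]
    refine (pow_le_pow_left₀ (abs_nonneg _) (hPb s hs) 2).trans ?_
    rcases eq_or_lt_of_le hs.1 with h0 | h0
    · rw [← h0, hM0]; nlinarith
    have hp' := hτpos s ⟨h0, hs.2⟩
    have h5 := (h.bounds hN.toSmall hs).2.2.2.2.1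
    simp only [hM, hr, mul_pow, div_pow, Real.sq_sqrt (prof_nonneg _), sq_abs]
    rw [← mul_div_assoc, ← mul_div_assoc, div_le_iff₀ (pow_pos hp' 2)]
    nlinarith [mul_le_mul_of_nonneg_left h5 hη.le]
  -- the moment
  have hPc : ContinuousOn P (Icc 0 S) := fun s _ => (hPd s).continuousAt.continuousWithinAt
  set R := ∫ s in (0 : ℝ)..S, (e' s - κ s * e s) ^ 2 with hRdef
  set Q := ∫ s in (0 : ℝ)..S, P s * (e' s - κ s * e s) with hQdef
  have hrpwc : PWC (fun s => e' s - κ s * e s) 0 S :=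
    he.pwc.sub (.of_continuousOn (hκc.mul he.cont))
  have hmoment : ∫ s in (0 : ℝ)..S, φ s * e s = P S * e S - Q := by
    have hm := moment_eq hS.le he hPd hκ₁c.continuousOn hφ₁c.continuousOn
    rw [hP0, zero_mul, sub_zero] at hm
    rw [integral_congr (g := fun s => φ₁ s * e s) fun s hs => ?_, hm, hQdef]
    · congr 1
      refine integral_congr fun s hs => ?_
      rw [uIcc_of_le hS.le] at hs
      simp only [hκeq s hs]
    · rw [uIcc_of_le hS.le] at hs
      simp only [hφeq s hs]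
  have hP2 : ∫ s in (0 : ℝ)..S, P s ^ 2 ≤ S := by
    have := integral_mono_on hS.le ((PWC.of_continuousOn hPc).sq.intervalIntegrable hS.le)
      (intervalIntegrable_const (c := (1 : ℝ))) fun s hs => (hPbound s hs).trans (by
        nlinarith [hN.eta_turn, prof_le_bound_five, mul_le_mul_of_nonneg_left hN.eta_turn hη.le,
          hN.toSmall.eta_le])
    simpa using this
  have hQ2 : Q ^ 2 ≤ S * R :=
    (integral_mul_sq_le hS.le (.of_continuousOn hPc) hrpwc).trans
      (mul_le_mul_of_nonneg_right hP2 (integral_nonneg hS.le fun s _ => sq_nonneg _))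
  have hdres : (d S - (P S * e S - Q)) ^ 2 ≤
      S * ∫ s in (0 : ℝ)..S, (d' s - φ s * e s) ^ 2 := by
    have h1 : ∫ s in (0 : ℝ)..S, (d' s - φ s * e s) = d S - (P S * e S - Q) := by
      rw [integral_sub (f := d') (g := fun s => φ s * e s) (hd.pwc.intervalIntegrable hS.le)
        ((PWC.of_continuousOn (hφc.mul he.cont)).intervalIntegrable hS.le), hmoment,
        ftc_pwc hS.le hd.cont hd.der hd.pwc, hd0, sub_zero]
    have h2 := integral_mul_sq_le hS.le (PWC.of_continuousOn (f := fun _ => (1 : ℝ))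
      continuousOn_const) hres
    simp only [one_mul, one_pow, intervalIntegral.integral_const, sub_zero, smul_eq_mul,
      mul_one] at h2
    rw [h1] at h2
    exact h2
  set k := faceK N
  set u := faceU N p q
  have hevenform : 0 ≤ κ S * e S ^ 2 + (d S - P S * e S) ^ 2 / (3 * S)
      + τ S * k * d S ^ 2 - 2 * k * u * e S * d S :=
    turn_face_form hN h (hPbound S hmemS) (e S) (d S)
  have hRQ : (d S - P S * e S) ^ 2 / (3 * S) ≤
      R + (d S - (P S * e S - Q)) ^ 2 / (2 * S) := by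
    have := sq_div_add_le (y := d S - P S * e S) (T := 2 * S) hQ2 hS (by linarith)
    rw [show S + 2 * S = 3 * S by ring, show d S - P S * e S + Q = d S - (P S * e S - Q) by ring]
      at this
    exact this
  have hdres' : (d S - (P S * e S - Q)) ^ 2 / (2 * S) ≤
      (∫ s in (0 : ℝ)..S, (d' s - φ s * e s) ^ 2) / 2 := by
    rw [div_le_div_iff₀ (by linarith) two_pos]; nlinarith
  linarith

/-- The estimate for the odd part of a test field. -/
lemma turn_odd (hN : Tiny N) (h : HalfTurn N p q t τ S) (ho : PW o o' 0 S) (ho0 : o 0 = 0)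
    (w : ℝ) :
    0 ≤ (∫ s in (0 : ℝ)..S, (o' s ^ 2 + potW N p q (t s) * o s ^ 2))
      + τ S * faceK N * w ^ 2 - 2 * faceK N * faceU N p q * o S * w := by
  have hS := h.pos
  have hmem0 : (0 : ℝ) ∈ Icc 0 S := left_mem_Icc.2 hS.le
  have hmemS : S ∈ Icc 0 S := right_mem_Icc.2 hS.le
  set C := tauD N p q (t 0) with hC
  set T : ℝ → ℝ := fun s => tauD N p q (t s) with hT
  set W : ℝ → ℝ := fun s => potW N p q (t s) with hW
  have htc := h.continuousOn_height
  have hτc : ContinuousOn τ (Icc 0 S) := fun s hs => (h.speed s hs).continuousAt.continuousWithinAt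
  have hWc : ContinuousOn W (Icc 0 S) := (continuous_potW N p q).comp_continuousOn htc
  have hTc : ContinuousOn T (Icc 0 S) := (continuous_tauD N p q).comp_continuousOn htc
  have hτpos : ∀ s ∈ Ioc 0 S, 0 < τ s := fun s hs => h.speed_pos hN.toSmall hs
  have hτS := hτpos S ⟨hS, le_rfl⟩
  -- the odd part
  have hodd : T S / τ S * o S ^ 2 ≤ ∫ s in (0 : ℝ)..S, (o' s ^ 2 + W s * o s ^ 2) := by
    obtain ⟨L, hL0, hL⟩ := ho.exists_linear_bound ho0
    obtain ⟨B, hB⟩ := isCompact_Icc.exists_bound_of_continuousOn hTc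
    have hsub : Ioc 0 S ⊆ Icc 0 S := Ioc_subset_Icc_self
    refine (riccati_le (κ := fun s => T s / τ s)
      (κ' := fun s => (W s * τ s * τ s - T s * T s) / τ s ^ 2) hS ho hWc
      (fun s hs => (h.hasDerivAt_acc (hsub hs)).div (h.speed s (hsub hs)) (hτpos s hs).ne') ?_ ?_ ?_).1
    · exact ((((hWc.mono hsub).mul (hτc.mono hsub)).mul (hτc.mono hsub)).sub
        ((hTc.mono hsub).mul (hTc.mono hsub))).div ((hτc.mono hsub).pow 2)
        fun s hs => (pow_pos (hτpos s hs) 2).ne'
    · intro s hs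
      have hne := (hτpos s (Ioo_subset_Ioc_self hs)).ne'
      simp only [div_pow, ← add_div]
      rw [div_le_iff₀ (pow_pos (hτpos s (Ioo_subset_Ioc_self hs)) 2)]
      nlinarith
    · refine tendsto_of_tendsto_of_tendsto_of_le_of_le' tendsto_const_nhds
        (tendsto_lin _ (|B| * L ^ 2 / C)) ?_ ?_
      · filter_upwards [Ioo_mem_nhdsGT hS] with s hs
        have := h.acc.trans_le (h.acc_le hN.toSmall (Ioo_subset_Icc_self hs))
        have := hτpos s (Ioo_subset_Ioc_self hs)
        positivity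
      · filter_upwards [Ioo_mem_nhdsGT hS] with s hs
        have hs' := Ioo_subset_Icc_self hs
        have hτl : C * s ≤ τ s := by
          have := HalfTurn.monotoneOn_of (F := fun r => τ r - C * r)
            (fun r hr => (h.speed r hr).sub ((hasDerivAt_id' r).const_mul C))
            (fun r hr => by have := h.acc_le hN.toSmall (Ioo_subset_Icc_self hr); linarith)
            hmem0 hs' hs'.1
          simp only [h.start, mul_zero, sub_zero] at this
          linarith
        have hTs : T s ≤ |B| := (le_abs_self _).trans ((hB s hs').trans (le_abs_self B))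
        have ho2 : o s ^ 2 ≤ L ^ 2 * s ^ 2 := by
          rw [← sq_abs, ← mul_pow]
          exact pow_le_pow_left₀ (abs_nonneg _) (by simpa using hL s hs') 2
        calc T s / τ s * o s ^ 2 ≤ |B| / (C * s) * (L ^ 2 * s ^ 2) := by
              refine mul_le_mul (div_le_div₀ (abs_nonneg B) hTs (mul_pos h.acc hs.1) hτl) ho2
                (sq_nonneg _) (div_nonneg (abs_nonneg B) (mul_pos h.acc hs.1).le)
          _ = |B| * L ^ 2 / C * s := by
              have := h.acc.ne'
              have := hs.1.ne'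
              field_simp
  have hid := hN.toSmall.face_identity p q
  have hTS : T S = tauD N p q 2 := by simp only [hT, h.face]
  set k := faceK N
  set u := faceU N p q
  have hk0 := hN.toSmall.faceK_bounds
  have hoddform : 0 ≤ T S / τ S * o S ^ 2 + τ S * k * w ^ 2
      - 2 * k * u * o S * w := by
    rw [hTS, ← hid]
    have he : k * u ^ 2 / τ S * o S ^ 2 + τ S * k * w ^ 2
        - 2 * k * u * o S * w
        = k * (u * o S - τ S * w) ^ 2 / τ S := by
      field_simp; ring
    rw [he]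
    exact div_nonneg (mul_nonneg hk0.1 (sq_nonneg _)) hτS.le
  linarith

variable {zp zp' wp wp' zm zm' wm wm' : ℝ → ℝ}

/-- The turning inequality. -/
theorem turn_nonneg (hN : Tiny N) (h : HalfTurn N p q t τ S) (hzp : PW zp zp' 0 S)
    (hwp : PW wp wp' 0 S) (hzm : PW zm zm' 0 S) (hwm : PW wm wm' 0 S) (hz0 : zp 0 = zm 0)
    (hw0 : wp 0 = wm 0) :
    0 ≤ (∫ s in (0 : ℝ)..S, halfDensity N p q 1 t zp zp' wp' s)
      + (∫ s in (0 : ℝ)..S, halfDensity N p q (-1) t zm zm' wm' s)
      + (τ S * faceK N * (wp S ^ 2 + wm S ^ 2)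
        - 2 * faceK N * faceU N p q * (zp S * wp S - zm S * wm S)) := by
  have hS := h.pos
  have hmem0 : (0 : ℝ) ∈ Icc 0 S := left_mem_Icc.2 hS.le
  have hmemS : S ∈ Icc 0 S := right_mem_Icc.2 hS.le
  have hη := hN.toSmall.eta_pos
  set C := tauD N p q (t 0) with hC
  set T : ℝ → ℝ := fun s => tauD N p q (t s) with hT
  set W : ℝ → ℝ := fun s => potW N p q (t s) with hW
  set φ : ℝ → ℝ := fun s => phiR N p q (t s) with hφ
  have htc := h.continuousOn_height
  have hτc : ContinuousOn τ (Icc 0 S) := fun s hs => (h.speed s hs).continuousAt.continuousWithinAt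
  have hWc : ContinuousOn W (Icc 0 S) := (continuous_potW N p q).comp_continuousOn htc
  have hTc : ContinuousOn T (Icc 0 S) := (continuous_tauD N p q).comp_continuousOn htc
  have hφc : ContinuousOn φ (Icc 0 S) :=
    ((omR N).continuous.comp (continuous_coVelD N p q)).comp_continuousOn htc
  -- even and odd parts
  set e : ℝ → ℝ := fun s => 1 / 2 * zp s + 1 / 2 * zm s with he_def
  set e' : ℝ → ℝ := fun s => 1 / 2 * zp' s + 1 / 2 * zm' s with he'_def
  set o : ℝ → ℝ := fun s => 1 / 2 * zp s + -(1 / 2) * zm s with ho_def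
  set o' : ℝ → ℝ := fun s => 1 / 2 * zp' s + -(1 / 2) * zm' s with ho'_def
  set d : ℝ → ℝ := fun s => 1 / 2 * wp s + -(1 / 2) * wm s with hd_def
  set d' : ℝ → ℝ := fun s => 1 / 2 * wp' s + -(1 / 2) * wm' s with hd'_def
  have he : PW e e' 0 S := hzp.comb hzm
  have ho : PW o o' 0 S := hzp.comb hzm
  have hd : PW d d' 0 S := hwp.comb hwm
  have ho0 : o 0 = 0 := by simp only [ho_def, hz0]; ring
  have hd0 : d 0 = 0 := by simp only [hd_def, hw0]; ring
  -- the reduction of the two densities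
  have hEe : PWC (fun s => e' s ^ 2 + W s * e s ^ 2) 0 S :=
    he.pwc.sq.add (.of_continuousOn (hWc.mul (he.cont.pow 2)))
  have hEo : PWC (fun s => o' s ^ 2 + W s * o s ^ 2) 0 S :=
    ho.pwc.sq.add (.of_continuousOn (hWc.mul (ho.cont.pow 2)))
  have hres : PWC (fun s => d' s - φ s * e s) 0 S :=
    hd.pwc.sub (.of_continuousOn (hφc.mul he.cont))
  have hHalf : ∀ (σ : ℝ) {z z' w w' : ℝ → ℝ}, PW z z' 0 S → PW w w' 0 S →
      PWC (fun s => halfDensity N p q σ t z z' w' s) 0 S := by
    intro σ z z' w w' hz hw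
    unfold halfDensity
    simp only [div_eq_mul_inv]
    exact (hz.pwc.sq.add (.of_continuousOn (hWc.mul (hz.cont.pow 2)))).add
      ((hw.pwc.sub (.of_continuousOn (continuousOn_const.mul (hz.cont.mul hφc)))).sq.mul
        (.of_continuousOn continuousOn_const))
  have hsplit : 2 * ((∫ s in (0 : ℝ)..S, (e' s ^ 2 + W s * e s ^ 2))
      + ∫ s in (0 : ℝ)..S, (o' s ^ 2 + W s * o s ^ 2))
      + (∫ s in (0 : ℝ)..S, (d' s - φ s * e s) ^ 2) ≤
      (∫ s in (0 : ℝ)..S, halfDensity N p q 1 t zp zp' wp' s)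
      + ∫ s in (0 : ℝ)..S, halfDensity N p q (-1) t zm zm' wm' s := by
    rw [← integral_add (hEe.intervalIntegrable hS.le) (hEo.intervalIntegrable hS.le),
      ← intervalIntegral.integral_const_mul,
      ← integral_add (((hEe.add hEo).const_mul 2).intervalIntegrable hS.le)
        (hres.sq.intervalIntegrable hS.le),
      ← integral_add ((hHalf 1 hzp hwp).intervalIntegrable hS.le)
        ((hHalf (-1) hzm hwm).intervalIntegrable hS.le)]
    refine integral_mono_on hS.le ((((hEe.add hEo).const_mul 2).add hres.sq).intervalIntegrable hS.le)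
      (((hHalf 1 hzp hwp).add (hHalf (-1) hzm hwm)).intervalIntegrable hS.le) fun s _ => ?_
    simp only [halfDensity, he_def, he'_def, ho_def, ho'_def, hd'_def, hW, hφ]
    nlinarith [sq_nonneg ((wp' s - zp s * phiR N p q (t s)) + (wm' s + zm s * phiR N p q (t s)))]
  have h1 := turn_even hN h he hd hd0
  have h2 := turn_odd hN h ho ho0 (1 / 2 * wp S + 1 / 2 * wm S)
  have e_bdry : τ S * faceK N * (wp S ^ 2 + wm S ^ 2) - 2 * faceK N * faceU N p q * (zp S * wp S - zm S * wm S) =
      2 * (τ S * faceK N * d S ^ 2 - 2 * faceK N * faceU N p q * e S * d S)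
      + 2 * (τ S * faceK N * (1 / 2 * wp S + 1 / 2 * wm S) ^ 2
        - 2 * faceK N * faceU N p q * o S * (1 / 2 * wp S + 1 / 2 * wm S)) := by
    simp only [hd_def, he_def, ho_def]; ring
  linarith

end half

end

end Vale.Agent.P255
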