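import Vale.Agent.P255.CollarDefs
import Vale.Agent.P255.Collar.Glue

/-!
The profiles and the warping function of the collar.
-/

open Set Filter MeasureTheory intervalIntegral
open scoped ContDiff Topology

namespace Vale.Agent.P255

noncomputable section

lemma contDiff_prof : ContDiff ℝ ∞ prof := expNegInvGlue.contDiff

lemma continuous_prof : Continuous prof := contDiff_prof.continuous

lemma prof_nonneg (x : ℝ) : 0 ≤ prof x := expNegInvGlue.nonneg x

lemma prof_le_one (x : ℝ) : prof x ≤ 1 := glue_le_one x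

lemma prof_eq_zero {x : ℝ} (h : x ≤ 0) : prof x = 0 := expNegInvGlue.zero_of_nonpos h

lemma prof_pos {x : ℝ} (h : 0 < x) : 0 < prof x := expNegInvGlue.pos_of_pos h

/-- The derivative of the profile. -/
def profD (x : ℝ) : ℝ := prof x * x⁻¹ ^ 2

lemma hasDerivAt_prof (x : ℝ) : HasDerivAt prof (profD x) x := hasDerivAt_glue x

lemma profD_nonneg (x : ℝ) : 0 ≤ profD x := mul_nonneg (prof_nonneg x) (sq_nonneg _)

lemma profD_le_two (x : ℝ) : profD x ≤ 2 := glue_deriv_le_two x

lemma prof_le_profD {x : ℝ} (hx : x ≤ 3) : prof x ≤ 9 * profD x := glue_le_deriv hx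

lemma contDiff_profD : ContDiff ℝ ∞ profD := by
  have h : deriv prof = profD := funext fun x => (hasDerivAt_prof x).deriv
  rw [← h]
  exact (contDiff_infty_iff_deriv.1 contDiff_prof).2

lemma hasDerivAt_profInt (x : ℝ) : HasDerivAt profInt (prof x) x :=
  (continuous_prof.integral_hasStrictDerivAt 0 x).hasDerivAt

lemma contDiff_profInt : ContDiff ℝ ∞ profInt := by
  refine contDiff_infty_iff_deriv.2 ⟨fun x => (hasDerivAt_profInt x).differentiableAt, ?_⟩
  rw [funext fun x => (hasDerivAt_profInt x).deriv]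
  exact contDiff_prof

lemma monotone_profInt : Monotone profInt :=
  monotone_of_hasDerivAt_nonneg hasDerivAt_profInt fun x => prof_nonneg x

lemma profInt_eq_zero {x : ℝ} (h : x ≤ 0) : profInt x = 0 := by
  unfold profInt
  rw [integral_symm, integral_congr (g := fun _ => (0 : ℝ)) fun s hs => ?_]
  · simp
  · rw [uIcc_of_le h] at hs
    exact prof_eq_zero hs.2

lemma profInt_nonneg (x : ℝ) : 0 ≤ profInt x := by
  rcases le_total x 0 with h | h
  · exact (profInt_eq_zero h).ge
  · exact integral_nonneg h fun s _ => prof_nonneg s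

lemma profInt_le {x : ℝ} (h : x ≤ 8) : profInt x ≤ 8 := by
  refine (monotone_profInt h).trans ?_
  have := integral_mono_on (by norm_num : (0 : ℝ) ≤ 8) (continuous_prof.intervalIntegrable (μ := volume) 0 8)
    intervalIntegrable_const fun s _ => prof_le_one s
  simpa [profInt] using this

lemma continuous_mixInteg : Continuous fun s => prof (1 + s) * prof (1 - s) :=
  (continuous_prof.comp (by fun_prop)).mul (continuous_prof.comp (by fun_prop))

lemma hasDerivAt_mixInt (t : ℝ) : HasDerivAt mixInt (prof (1 + t) * prof (1 - t)) t :=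
  (continuous_mixInteg.integral_hasStrictDerivAt (-1) t).hasDerivAt

lemma contDiff_mixInt : ContDiff ℝ ∞ mixInt := by
  refine contDiff_infty_iff_deriv.2 ⟨fun x => (hasDerivAt_mixInt x).differentiableAt, ?_⟩
  rw [funext fun x => (hasDerivAt_mixInt x).deriv]
  exact (contDiff_prof.comp (contDiff_const.add contDiff_id)).mul
    (contDiff_prof.comp (contDiff_const.sub contDiff_id))

lemma monotone_mixInt : Monotone mixInt :=
  monotone_of_hasDerivAt_nonneg hasDerivAt_mixInt fun _ =>
    mul_nonneg (prof_nonneg _) (prof_nonneg _)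

lemma mixInt_eq_zero {t : ℝ} (h : t ≤ -1) : mixInt t = 0 := by
  unfold mixInt
  rw [integral_symm, integral_congr (g := fun _ => (0 : ℝ)) fun s hs => ?_]
  · simp
  · rw [uIcc_of_le h] at hs
    show prof (1 + s) * prof (1 - s) = 0
    rw [prof_eq_zero (by linarith [hs.2]), zero_mul]

lemma mixInt_eq_one {t : ℝ} (h : 1 ≤ t) : mixInt t = mixInt 1 := by
  have hI := fun a b => continuous_mixInteg.intervalIntegrable (μ := volume) a b
  unfold mixInt
  rw [← integral_add_adjacent_intervals (hI (-1) 1) (hI 1 t),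
    integral_congr (a := 1) (b := t) (g := fun _ => (0 : ℝ)) fun s hs => ?_]
  · simp
  · rw [uIcc_of_le h] at hs
    show prof (1 + s) * prof (1 - s) = 0
    rw [prof_eq_zero (x := 1 - s) (by linarith [hs.1]), mul_zero]

lemma mixInt_nonneg (t : ℝ) : 0 ≤ mixInt t := by
  rcases le_total t (-1) with h | h
  · exact (mixInt_eq_zero h).ge
  · exact integral_nonneg h fun s _ => mul_nonneg (prof_nonneg _) (prof_nonneg _)

lemma mixInt_le (t : ℝ) : mixInt t ≤ mixInt 1 := by
  rcases le_total t 1 with h | h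
  · exact monotone_mixInt h
  · exact (mixInt_eq_one h).le

lemma mixInt_one_pos : 0 < mixInt 1 :=
  intervalIntegral_pos_of_pos_on (continuous_mixInteg.intervalIntegrable _ _)
    (fun s hs => mul_pos (prof_pos (by linarith [hs.1])) (prof_pos (by linarith [hs.2])))
    (by norm_num)

lemma mixInt_neg (t : ℝ) : mixInt (-t) = mixInt 1 - mixInt t := by
  have hI := fun a b => continuous_mixInteg.intervalIntegrable (μ := volume) a b
  have h : mixInt (-t) = ∫ s in t..1, prof (1 + s) * prof (1 - s) := by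
    unfold mixInt
    rw [← integral_comp_neg (fun s => prof (1 + s) * prof (1 - s))]
    refine integral_congr fun s _ => ?_
    show prof (1 + -s) * prof (1 - -s) = prof (1 + s) * prof (1 - s)
    rw [sub_neg_eq_add, mul_comm, ← sub_eq_add_neg]
  rw [h]
  unfold mixInt
  rw [← integral_add_adjacent_intervals (hI (-1) t) (hI t 1)]
  ring

/-- The parameters are small. -/
structure Small (N : ℕ) : Prop where
  pos : 0 < N
  eps_le : eps N ≤ 1 / 100
  eta_le : eta N ≤ 1 / 100

lemma eventually_small {δ : ℝ} (hδ : 0 < δ) :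
    ∃ N₀ : ℕ, ∀ N, N₀ ≤ N → Small N ∧ eta N ≤ δ := by
  have h1 : Tendsto eps atTop (𝓝 0) := by
    simp only [funext (fun N => show eps N = (N : ℝ)⁻¹ from one_div _)]
    exact tendsto_natCast_atTop_atTop.inv_tendsto_atTop
  have h2 : Tendsto eta atTop (𝓝 0) := by
    have := (h1.const_mul (2 : ℝ)).div_const (mu * mixInt 1)
    simp only [mul_zero, zero_div] at this
    exact this
  obtain ⟨N₀, hN₀⟩ := eventually_atTop.1 ((h1.eventually_le_const (by norm_num : (0 : ℝ) < 1 / 100)).and
    ((h2.eventually_le_const (lt_min hδ (by norm_num : (0 : ℝ) < 1 / 100))).and (eventually_gt_atTop 0)))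
  refine ⟨N₀, fun N hN => ?_⟩
  obtain ⟨a, b, c⟩ := hN₀ N hN
  exact ⟨⟨c, a, b.trans (min_le_right _ _)⟩, b.trans (min_le_left _ _)⟩

lemma Small.eps_pos {N : ℕ} (h : Small N) : 0 < eps N := by
  have : (0 : ℝ) < N := by exact_mod_cast h.pos
  exact div_pos one_pos this

lemma Small.eta_pos {N : ℕ} (h : Small N) : 0 < eta N :=
  div_pos (mul_pos two_pos h.eps_pos) (mul_pos (by norm_num [mu]) mixInt_one_pos)

lemma Small.eta_mix {N : ℕ} (_h : Small N) : eta N * mu * mixInt 1 = 2 * eps N := by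
  have h1 : mu * mixInt 1 ≠ 0 := (mul_pos (by norm_num [mu]) mixInt_one_pos).ne'
  rw [mul_assoc, eta, div_mul_cancel₀ _ h1]

/-- The radicand. -/
def rad (N : ℕ) (x : ℝ) : ℝ := 1 - eps N ^ 2 - eta N * profInt x

lemma Small.rad_bounds {N : ℕ} (h : Small N) {x : ℝ} (hx : x ≤ 8) :
    4 / 5 ≤ rad N x ∧ rad N x ≤ 1 := by
  have he : eps N ^ 2 ≤ 1 / 100 := by nlinarith [h.eps_pos, h.eps_le]
  have h1 : eta N * profInt x ≤ 8 / 100 := by
    nlinarith [h.eta_pos, h.eta_le, profInt_nonneg x, profInt_le hx]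
  have h2 : 0 ≤ eta N * profInt x := mul_nonneg h.eta_pos.le (profInt_nonneg x)
  unfold rad
  constructor <;> nlinarith

lemma warp₀_eq (N : ℕ) : warp₀ N = fun x => (Real.sqrt (rad N x))⁻¹ := rfl

lemma Small.warp₀_bounds {N : ℕ} (h : Small N) {x : ℝ} (hx : x ≤ 8) :
    1 ≤ warp₀ N x ∧ warp₀ N x ≤ 6 / 5 ∧ warp₀ N x ^ 2 * rad N x = 1 := by
  obtain ⟨h1, h2⟩ := h.rad_bounds hx
  have hs : Real.sqrt (rad N x) ^ 2 = rad N x := Real.sq_sqrt (by linarith)
  have hs1 : Real.sqrt (rad N x) ≤ 1 := by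
    rw [Real.sqrt_le_one]; linarith
  have hs0 : 5 / 6 ≤ Real.sqrt (rad N x) := Real.le_sqrt_of_sq_le (by norm_num; linarith)
  have hpos : 0 < Real.sqrt (rad N x) := by linarith
  rw [warp₀_eq]
  refine ⟨?_, ?_, ?_⟩
  · exact one_le_inv₀ hpos |>.2 hs1
  · rw [inv_le_comm₀ hpos (by norm_num)]; linarith
  · simp only [inv_pow, hs]; field_simp

/-- The derivative of the raw warping function. -/
def warp₀D (N : ℕ) (x : ℝ) : ℝ := eta N / 2 * prof x * warp₀ N x ^ 3

/-- The second derivative of the raw warping function. -/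
def warp₀DD (N : ℕ) (x : ℝ) : ℝ :=
  eta N / 2 * profD x * warp₀ N x ^ 3 + eta N / 2 * prof x * (3 * warp₀ N x ^ 2 * warp₀D N x)

lemma Small.hasDerivAt_warp₀ {N : ℕ} (h : Small N) {x : ℝ} (hx : x ≤ 8) :
    HasDerivAt (warp₀ N) (warp₀D N x) x := by
  obtain ⟨h1, -⟩ := h.rad_bounds hx
  have hr : HasDerivAt (rad N) (-(eta N * prof x)) x :=
    ((hasDerivAt_profInt x).const_mul (eta N)).const_sub _
  have hs := (hr.sqrt (by linarith)).inv (Real.sqrt_pos.2 (by linarith)).ne'
  rw [warp₀_eq]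
  refine hs.congr_deriv ?_
  have hpos : 0 < Real.sqrt (rad N x) := Real.sqrt_pos.2 (by linarith)
  rw [warp₀D, warp₀_eq]
  field_simp

lemma Small.hasDerivAt_warp₀D {N : ℕ} (h : Small N) {x : ℝ} (hx : x ≤ 8) :
    HasDerivAt (warp₀D N) (warp₀DD N x) x := by
  refine (((hasDerivAt_prof x).const_mul (eta N / 2)).mul ((h.hasDerivAt_warp₀ hx).pow 3)).congr_deriv ?_
  simp only [warp₀DD, Pi.pow_apply]; push_cast; ring

lemma Small.warp₀D_bounds {N : ℕ} (h : Small N) {x : ℝ} (hx : x ≤ 8) :
    0 ≤ warp₀D N x ∧ warp₀D N x ≤ eta N := by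
  obtain ⟨a, b, -⟩ := h.warp₀_bounds hx
  have := h.eta_pos
  have h3 : warp₀ N x ^ 3 ≤ 2 := by
    calc warp₀ N x ^ 3 ≤ (6 / 5 : ℝ) ^ 3 := by gcongr
      _ ≤ 2 := by norm_num
  have := prof_nonneg x
  refine ⟨by unfold warp₀D; positivity, ?_⟩
  unfold warp₀D
  calc eta N / 2 * prof x * warp₀ N x ^ 3 ≤ eta N / 2 * 1 * 2 := by
        gcongr
        exact prof_le_one x
    _ = eta N := by ring

lemma Small.warp₀DD_nonneg {N : ℕ} (h : Small N) {x : ℝ} (hx : x ≤ 8) : 0 ≤ warp₀DD N x := by
  obtain ⟨a, -⟩ := h.warp₀_bounds hx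
  have := h.eta_pos
  have := prof_nonneg x
  have := profD_nonneg x
  have := (h.warp₀D_bounds hx).1
  unfold warp₀DD
  positivity

lemma Small.deriv_deriv_warp₀ {N : ℕ} (h : Small N) {x : ℝ} (hx : x < 8) :
    deriv (deriv (warp₀ N)) x = warp₀DD N x := by
  have he : deriv (warp₀ N) =ᶠ[𝓝 x] warp₀D N := by
    filter_upwards [Iio_mem_nhds hx] with y hy
    exact (h.hasDerivAt_warp₀ hy.le).deriv
  rw [he.deriv_eq]
  exact (h.hasDerivAt_warp₀D hx.le).deriv

lemma Small.contDiffAt_warp₀DD {N : ℕ} (h : Small N) {x : ℝ} (hx : x ≤ 8) :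
    ContDiffAt ℝ ∞ (warp₀DD N) x := by
  have hr : ContDiffAt ℝ ∞ (rad N) x := by
    unfold rad; exact contDiffAt_const.sub (contDiffAt_const.mul contDiff_profInt.contDiffAt)
  obtain ⟨h1, -⟩ := h.rad_bounds hx
  have hw : ContDiffAt ℝ ∞ (warp₀ N) x := by
    rw [warp₀_eq]
    exact (hr.sqrt (by linarith)).inv (Real.sqrt_pos.2 (by linarith)).ne'
  have hp : ContDiffAt ℝ ∞ prof x := contDiff_prof.contDiffAt
  have hq : ContDiffAt ℝ ∞ profD x := contDiff_profD.contDiffAt
  unfold warp₀DD warp₀D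
  exact ((contDiffAt_const.mul hq).mul (hw.pow 3)).add
    ((contDiffAt_const.mul hp).mul
      ((contDiffAt_const.mul (hw.pow 2)).mul ((contDiffAt_const.mul hp).mul (hw.pow 3))))

/-- The second derivative of the warping function. -/
def warpDD (N : ℕ) (s : ℝ) : ℝ :=
  Real.smoothTransition (4 - s) * deriv (deriv (warp₀ N)) s

/-- The derivative of the warping function. -/
def warpD (N : ℕ) (y : ℝ) : ℝ := ∫ s in (0 : ℝ)..y, warpDD N s

lemma Small.contDiff_warpDD {N : ℕ} (h : Small N) : ContDiff ℝ ∞ (warpDD N) := by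
  rw [contDiff_iff_contDiffAt]
  intro x
  rcases lt_or_ge x 8 with hx | hx
  · have he : warpDD N =ᶠ[𝓝 x] fun s => Real.smoothTransition (4 - s) * warp₀DD N s := by
      filter_upwards [Iio_mem_nhds hx] with s hs
      rw [warpDD, h.deriv_deriv_warp₀ hs]
    exact ((Real.smoothTransition.contDiff.comp (contDiff_const.sub contDiff_id)).contDiffAt.mul
      (h.contDiffAt_warp₀DD hx.le)).congr_of_eventuallyEq he
  · have he : warpDD N =ᶠ[𝓝 x] fun _ => 0 := by
      filter_upwards [Ioi_mem_nhds (show (4 : ℝ) < x by linarith)] with s hs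
      have hs' : (4 : ℝ) < s := hs
      rw [warpDD, Real.smoothTransition.zero_of_nonpos (by linarith), zero_mul]
    exact contDiffAt_const.congr_of_eventuallyEq he

lemma Small.hasDerivAt_warpD {N : ℕ} (h : Small N) (x : ℝ) :
    HasDerivAt (warpD N) (warpDD N x) x :=
  (h.contDiff_warpDD.continuous.integral_hasStrictDerivAt 0 x).hasDerivAt

lemma Small.contDiff_warpD {N : ℕ} (h : Small N) : ContDiff ℝ ∞ (warpD N) := by
  refine contDiff_infty_iff_deriv.2 ⟨fun x => (h.hasDerivAt_warpD x).differentiableAt, ?_⟩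
  rw [funext fun x => (h.hasDerivAt_warpD x).deriv]
  exact h.contDiff_warpDD

lemma Small.hasDerivAt_warp {N : ℕ} (h : Small N) (x : ℝ) :
    HasDerivAt (warp N) (warpD N x) x :=
  ((h.contDiff_warpD.continuous.integral_hasStrictDerivAt 0 x).hasDerivAt).const_add _

lemma Small.contDiff_warp {N : ℕ} (h : Small N) : ContDiff ℝ ∞ (warp N) := by
  refine contDiff_infty_iff_deriv.2 ⟨fun x => (h.hasDerivAt_warp x).differentiableAt, ?_⟩
  rw [funext fun x => (h.hasDerivAt_warp x).deriv]
  exact h.contDiff_warpD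

lemma Small.warpDD_nonneg {N : ℕ} (h : Small N) (x : ℝ) : 0 ≤ warpDD N x := by
  rcases lt_or_ge x 8 with hx | hx
  · rw [warpDD, h.deriv_deriv_warp₀ hx]
    exact mul_nonneg (Real.smoothTransition.nonneg _) (h.warp₀DD_nonneg hx.le)
  · rw [warpDD, Real.smoothTransition.zero_of_nonpos (by linarith), zero_mul]

lemma Small.deriv_deriv_warp {N : ℕ} (h : Small N) (x : ℝ) :
    deriv (deriv (warp N)) x = warpDD N x := by
  rw [funext fun x => (h.hasDerivAt_warp x).deriv]
  exact (h.hasDerivAt_warpD x).deriv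

lemma warp₀D_of_nonpos (N : ℕ) {x : ℝ} (hx : x ≤ 0) : warp₀D N x = 0 := by
  simp [warp₀D, prof_eq_zero hx]

lemma Small.warpD_eq {N : ℕ} (h : Small N) {x : ℝ} (hx : x ≤ 3) : warpD N x = warp₀D N x := by
  have hle : ∀ s ∈ uIcc (0 : ℝ) x, s ≤ 3 := fun s hs =>
    (hs.2).trans (max_le (by norm_num) hx)
  have h0 := integral_eq_sub_of_hasDerivAt
    (fun s hs => h.hasDerivAt_warp₀D ((hle s hs).trans (by norm_num)))
    ((continuousOn_of_forall_continuousAt fun s hs =>
      (h.contDiffAt_warp₀DD ((hle s hs).trans (by norm_num))).continuousAt).intervalIntegrable)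
  rw [warp₀D_of_nonpos N le_rfl, sub_zero] at h0
  rw [← h0, warpD]
  refine integral_congr fun s hs => ?_
  have := hle s hs
  rw [warpDD, h.deriv_deriv_warp₀ (by linarith), Real.smoothTransition.one_of_one_le (by linarith),
    one_mul]

lemma Small.warp_eq {N : ℕ} (h : Small N) {x : ℝ} (hx : x ≤ 3) : warp N x = warp₀ N x := by
  have hle : ∀ s ∈ uIcc (0 : ℝ) x, s ≤ 3 := fun s hs =>
    (hs.2).trans (max_le (by norm_num) hx)
  have h0 := integral_eq_sub_of_hasDerivAt
    (fun s hs => (h.hasDerivAt_warp₀ ((hle s hs).trans (by norm_num))).congr_deriv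
      (h.warpD_eq (hle s hs)).symm)
    (h.contDiff_warpD.continuous.intervalIntegrable 0 x)
  show warp₀ N 0 + ∫ y in (0 : ℝ)..x, warpD N y = warp₀ N x
  rw [h0]; ring

lemma Small.monotone_warpD {N : ℕ} (h : Small N) : Monotone (warpD N) :=
  monotone_of_hasDerivAt_nonneg h.hasDerivAt_warpD fun x => h.warpDD_nonneg x

lemma Small.warpD_nonneg {N : ℕ} (h : Small N) (x : ℝ) : 0 ≤ warpD N x := by
  rcases le_total x 0 with hx | hx
  · rw [h.warpD_eq (by linarith), warp₀D_of_nonpos N hx]
  · exact integral_nonneg hx fun s _ => h.warpDD_nonneg s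

lemma Small.warpD_le {N : ℕ} (h : Small N) (x : ℝ) : warpD N x ≤ eta N := by
  have h4 : ∀ y, 4 ≤ y → warpD N y = warpD N 4 := by
    intro y hy
    have hI := fun a b => h.contDiff_warpDD.continuous.intervalIntegrable (μ := volume) a b
    unfold warpD
    rw [← integral_add_adjacent_intervals (hI 0 4) (hI 4 y),
      integral_congr (a := 4) (b := y) (g := fun _ => (0 : ℝ)) fun s hs => ?_]
    · simp
    · rw [uIcc_of_le hy] at hs
      rw [warpDD, Real.smoothTransition.zero_of_nonpos (by linarith [hs.1]), zero_mul]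
  have hx4 : warpD N x ≤ warpD N 4 := by
    rcases le_total x 4 with hx | hx
    · exact h.monotone_warpD hx
    · exact (h4 x hx).le
  refine hx4.trans ?_
  have hle : ∀ s ∈ uIcc (0 : ℝ) 4, s < 8 := fun s hs => by
    rw [uIcc_of_le (by norm_num)] at hs; linarith [hs.2]
  have hint : IntervalIntegrable (warp₀DD N) volume 0 4 :=
    (continuousOn_of_forall_continuousAt fun s hs =>
      (h.contDiffAt_warp₀DD (hle s hs).le).continuousAt).intervalIntegrable
  have h0 := integral_eq_sub_of_hasDerivAt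
    (fun s hs => h.hasDerivAt_warp₀D (hle s hs).le) hint
  rw [warp₀D_of_nonpos N le_rfl, sub_zero] at h0
  refine le_trans ?_ (h.warp₀D_bounds (by norm_num : (4 : ℝ) ≤ 8)).2
  rw [← h0]
  refine integral_mono_on (by norm_num) (h.contDiff_warpDD.continuous.intervalIntegrable _ _)
    hint fun s hs => ?_
  rw [warpDD, h.deriv_deriv_warp₀ (by linarith [hs.2])]
  exact mul_le_of_le_one_left (h.warp₀DD_nonneg (by linarith [hs.2]))
    (Real.smoothTransition.le_one _)

lemma Small.warp_linear {N : ℕ} (h : Small N) {x : ℝ} (hx : 4 ≤ x) :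
    warp N x = warp N 4 + warpD N 4 * (x - 4) := by
  have hconst : ∀ y ∈ uIcc 4 x, warpD N y = warpD N 4 := by
    intro y hy
    rw [uIcc_of_le hx] at hy
    have hI := fun a b => h.contDiff_warpDD.continuous.intervalIntegrable (μ := volume) a b
    unfold warpD
    rw [← integral_add_adjacent_intervals (hI 0 4) (hI 4 y),
      integral_congr (a := 4) (b := y) (g := fun _ => (0 : ℝ)) fun s hs => ?_]
    · simp
    · rw [uIcc_of_le hy.1] at hs
      rw [warpDD, Real.smoothTransition.zero_of_nonpos (by linarith [hs.1]), zero_mul]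
  have h0 := integral_eq_sub_of_hasDerivAt (fun y (_ : y ∈ uIcc 4 x) => h.hasDerivAt_warp y)
    (h.contDiff_warpD.continuous.intervalIntegrable 4 x)
  rw [integral_congr (g := fun _ => warpD N 4) hconst, intervalIntegral.integral_const,
    smul_eq_mul] at h0
  linarith

lemma Small.warpD_four_pos {N : ℕ} (h : Small N) : 0 < warpD N 4 := by
  refine lt_of_lt_of_le ?_ (h.monotone_warpD (show (3 : ℝ) ≤ 4 by norm_num))
  rw [h.warpD_eq le_rfl]
  have := h.eta_pos
  have := prof_pos (show (0 : ℝ) < 3 by norm_num)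
  have : 0 < warp₀ N 3 := by linarith [(h.warp₀_bounds (show (3 : ℝ) ≤ 8 by norm_num)).1]
  unfold warp₀D
  positivity

lemma Small.warp_bounds {N : ℕ} (h : Small N) {x : ℝ} (hx : x ≤ 8) :
    1 ≤ warp N x ∧ warp N x ≤ 3 / 2 := by
  have hmono : Monotone (warp N) :=
    monotone_of_hasDerivAt_nonneg h.hasDerivAt_warp fun x => h.warpD_nonneg x
  constructor
  · rcases le_total x 0 with hx0 | hx0
    · rw [h.warp_eq (by linarith)]; exact (h.warp₀_bounds (by linarith)).1
    · refine le_trans ?_ (hmono hx0)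
      rw [h.warp_eq (by norm_num)]; exact (h.warp₀_bounds (by norm_num)).1
  · refine (hmono hx).trans ?_
    have hint := integral_mono_on (show (0 : ℝ) ≤ 8 by norm_num)
      (h.contDiff_warpD.continuous.intervalIntegrable (μ := volume) _ _)
      intervalIntegrable_const fun y _ => h.warpD_le y
    have h0 := integral_eq_sub_of_hasDerivAt (fun y (_ : y ∈ uIcc 0 8) => h.hasDerivAt_warp y)
      (h.contDiff_warpD.continuous.intervalIntegrable 0 8)
    rw [h0, intervalIntegral.integral_const, smul_eq_mul] at hint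
    have := (h.warp₀_bounds (show (0 : ℝ) ≤ 8 by norm_num)).2.1
    rw [h.warp_eq (show (0 : ℝ) ≤ 3 by norm_num)] at hint
    linarith [h.eta_le]

end

end Vale.Agent.P255
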